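import Mathlib

/-!
# P157: superadditivity up to a square root
-/

open Real Filter Topology

namespace Vale.Agent.P157

variable {a : ℕ → ℝ} {K : ℝ}

theorem mul_le_of_superadd (hK : 0 ≤ K)
    (h : ∀ m n, 1 ≤ m → 1 ≤ n → a m + a n - K * √((m : ℝ) + n) ≤ a (m + n))
    {m : ℕ} (hm : 1 ≤ m) : ∀ q : ℕ, 1 ≤ q →
      q * a m - K * √(m : ℝ) * (3 * q - 3 * √(q : ℝ)) ≤ a (q * m) := by
  intro q
  induction q using Nat.strong_induction_on with
  | _ q ih =>
    intro hq
    rcases Nat.eq_or_lt_of_le hq with h1 | h2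
    · subst h1; simp
    set q1 := q / 2 with hq1
    set q2 := q - q / 2 with hq2
    have e : q1 + q2 = q := by omega
    have A := ih q1 (by omega) (by omega)
    have B := ih q2 (by omega) (by omega)
    have S := h (q1 * m) (q2 * m) (Nat.mul_pos (by omega) hm) (Nat.mul_pos (by omega) hm)
    rw [← add_mul, e] at S
    push_cast at S
    have eR : (q1 : ℝ) + q2 = q := by exact_mod_cast e
    rw [← add_mul, eR, Real.sqrt_mul (by positivity)] at S
    have hs : √(q : ℝ) ≤ 3 * (√(q1 : ℝ) + √(q2 : ℝ) - √(q : ℝ)) := by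
      have hb : (q : ℝ) ≤ 3 * q1 ∧ (q1 : ℝ) ≤ q2 := by
        constructor <;> exact_mod_cast (by omega)
      have h1 := Real.mul_self_sqrt (q1.cast_nonneg (α := ℝ))
      have h2 := Real.mul_self_sqrt (q2.cast_nonneg (α := ℝ))
      have h0 := Real.mul_self_sqrt (q.cast_nonneg (α := ℝ))
      have n1 := Real.sqrt_nonneg (q1 : ℝ)
      have n2 := Real.sqrt_nonneg (q2 : ℝ)
      have hprod : (7 / 18 : ℝ) * q ≤ √(q1 : ℝ) * √(q2 : ℝ) := by
        rw [← Real.sqrt_mul (by positivity)]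
        apply Real.le_sqrt_of_sq_le
        nlinarith [mul_nonneg (sub_nonneg.2 hb.1) (sub_nonneg.2 hb.2), sq_nonneg (q : ℝ)]
      nlinarith [Real.sqrt_nonneg (q : ℝ)]
    have e1 : (q : ℝ) * a m = q1 * a m + q2 * a m := by rw [← eR]; ring
    have e2 : K * √(m : ℝ) * q = K * √(m : ℝ) * q1 + K * √(m : ℝ) * q2 := by rw [← eR]; ring
    linarith [mul_le_mul_of_nonneg_left hs (mul_nonneg hK (Real.sqrt_nonneg (m : ℝ))), e1, e2]

theorem tendsto_of_superadd (hK : 0 ≤ K) (hb : ∀ n, |a n| ≤ K * n)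
    (h : ∀ m n, 1 ≤ m → 1 ≤ n → a m + a n - K * √((m : ℝ) + n) ≤ a (m + n)) :
    ∃ L, Tendsto (fun n : ℕ => a n / n) atTop (𝓝 L) := by
  let b : ℕ → ℝ := fun m => a (m + 1) / (m + 1 : ℕ) - 3 * K / √((m + 1 : ℕ) : ℝ)
  have hbb : BddAbove (Set.range b) := ⟨K, by
    rintro x ⟨m, rfl⟩
    have h0 : (0 : ℝ) < (m + 1 : ℕ) := by positivity
    have : a (m + 1) / (m + 1 : ℕ) ≤ K := by
      rw [div_le_iff₀ h0]; exact (le_abs_self _).trans (hb _)
    have : 0 ≤ 3 * K / √((m + 1 : ℕ) : ℝ) := by positivity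
    simp only [b]; linarith⟩
  refine ⟨⨆ m, b m, Metric.tendsto_atTop.2 fun ε hε => ?_⟩
  obtain ⟨m, hm⟩ := exists_lt_of_lt_ciSup (show (⨆ m, b m) - ε / 2 < ⨆ m, b m by linarith)
  set k := m + 1 with hk
  set C : ℝ := 3 * K * k + 8 * K with hC
  obtain ⟨N₀, hN₀⟩ := exists_nat_gt ((C * 4 / ε) ^ 2 + k)
  refine ⟨N₀, fun n hn => ?_⟩
  have hn' : (C * 4 / ε) ^ 2 + k < n := hN₀.trans_le (by exact_mod_cast hn)
  have hkn : k ≤ n := by
    have : (k : ℝ) < n := by linarith [sq_nonneg (C * 4 / ε)]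
    exact_mod_cast this.le
  have hk0 : 1 ≤ k := by omega
  have hnR : (0 : ℝ) < n := by exact_mod_cast (by omega : 0 < n)
  have hsn : 0 < √(n : ℝ) := Real.sqrt_pos.2 hnR
  have hCe : C / √(n : ℝ) ≤ ε / 4 := by
    have hC0 : 0 ≤ C := by positivity
    have : C * 4 / ε ≤ √(n : ℝ) := Real.le_sqrt_of_sq_le (by linarith [k.cast_nonneg (α := ℝ)])
    rw [div_le_iff₀ hε] at this
    rw [div_le_iff₀ hsn]; linarith
  have hup : a n / n ≤ (⨆ m, b m) + C / √(n : ℝ) := by
    have := le_ciSup hbb (n - 1)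
    simp only [b, show n - 1 + 1 = n by omega] at this
    have : 3 * K / √(n : ℝ) ≤ C / √(n : ℝ) := by
      refine div_le_div_of_nonneg_right ?_ hsn.le
      nlinarith [mul_le_mul_of_nonneg_left (Nat.one_le_cast.2 hk0 : (1 : ℝ) ≤ k) hK]
    linarith
  have hlow : (⨆ m, b m) - ε / 2 - C / √(n : ℝ) ≤ a n / n := by
    set q := n / k with hq
    have hq1 : 1 ≤ q := by rw [hq]; exact (Nat.one_le_div_iff (by omega)).2 hkn
    have hdec : q * k + n % k = n := by rw [hq]; exact Nat.div_add_mod' n k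
    have hA := mul_le_of_superadd hK h hk0 q hq1
    have hsn1 : (n : ℝ) = √(n : ℝ) * √(n : ℝ) := (Real.mul_self_sqrt hnR.le).symm
    have hs1 : 1 ≤ √(n : ℝ) := Real.one_le_sqrt.2 (by exact_mod_cast (by omega : 1 ≤ n))
    have hQ : a (q * k) - K * √(n : ℝ) - K * k ≤ a n := by
      rcases Nat.eq_zero_or_pos (n % k) with h0 | h0
      · have : q * k = n := by omega
        rw [this]; nlinarith [mul_nonneg hK hsn.le, mul_nonneg hK (k.cast_nonneg (α := ℝ))]
      · have hS := h (q * k) (n % k) (Nat.mul_pos hq1 hk0) h0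
        rw [hdec] at hS
        have e : ((q * k : ℕ) : ℝ) + (n % k : ℕ) = n := by exact_mod_cast hdec
        rw [e] at hS
        have := (abs_le.1 (hb (n % k))).1
        have : ((n % k : ℕ) : ℝ) ≤ k := by exact_mod_cast (Nat.mod_lt n hk0).le
        nlinarith
    have hbm : (⨆ m, b m) - ε / 2 ≤ a k / k - 3 * K / √(k : ℝ) := hm.le
    have hkR : (0 : ℝ) < k := by positivity
    have hak : |a k / k - 3 * K / √(k : ℝ)| ≤ 4 * K := by
      refine (abs_sub _ _).trans ?_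
      have h1 : |a k / k| ≤ K := by
        rw [abs_div, abs_of_pos hkR, div_le_iff₀ hkR]; exact hb k
      have h2 : |3 * K / √(k : ℝ)| ≤ 3 * K := by
        rw [abs_of_nonneg (by positivity)]
        exact div_le_self (by positivity) (Real.one_le_sqrt.2 (by exact_mod_cast hk0))
      linarith
    have hsk : √(k : ℝ) * √(k : ℝ) = k := Real.mul_self_sqrt hkR.le
    have hqk : (a k / k - 3 * K / √(k : ℝ)) * (q * k : ℕ) ≤ a (q * k) := by
      refine le_trans ?_ hA
      have e : (a k / k - 3 * K / √(k : ℝ)) * (q * k : ℕ) = q * a k - 3 * K * q * √(k : ℝ) := by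
        have hsk0 : √(k : ℝ) ≠ 0 := (Real.sqrt_pos.2 hkR).ne'
        push_cast
        field_simp
        linear_combination (3 * K) * hsk
      rw [e]
      nlinarith [mul_nonneg (mul_nonneg hK (Real.sqrt_nonneg (k : ℝ))) (Real.sqrt_nonneg (q : ℝ))]
    have hdiff : (n : ℝ) - (q * k : ℕ) ≤ k ∧ 0 ≤ (n : ℝ) - (q * k : ℕ) := by
      have e : (n : ℝ) - (q * k : ℕ) = (n % k : ℕ) := by
        have : ((q * k : ℕ) : ℝ) + (n % k : ℕ) = n := by exact_mod_cast hdec
        linarith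
      rw [e]; exact ⟨by exact_mod_cast (Nat.mod_lt n hk0).le, Nat.cast_nonneg _⟩
    have hmain : (a k / k - 3 * K / √(k : ℝ)) * n - C * √(n : ℝ) ≤ a n := by
      have := abs_le.1 hak
      nlinarith [mul_le_mul_of_nonneg_left hdiff.1 (show (0:ℝ) ≤ 4 * K by positivity),
        mul_le_mul_of_nonneg_right this.2 hdiff.2,
        mul_le_mul_of_nonneg_left hs1 (show (0:ℝ) ≤ 3 * K * k by positivity)]
    have : a k / k - 3 * K / √(k : ℝ) - C / √(n : ℝ) ≤ a n / n := by
      rw [le_div_iff₀ hnR]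
      calc (a k / k - 3 * K / √(k : ℝ) - C / √(n : ℝ)) * n
          = (a k / k - 3 * K / √(k : ℝ)) * n - C * √(n : ℝ) := by
            rw [sub_mul, div_mul_eq_mul_div C, mul_div_assoc C, Real.div_sqrt]
        _ ≤ a n := hmain
    linarith
  rw [Real.dist_eq, abs_lt]
  constructor <;> linarith

end Vale.Agent.P157
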