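import Vale.Agent.P157.Transfer
import Vale.Agent.P157.Limit

/-!
# P157: the Ising cube
-/

open MeasureTheory ProbabilityTheory Real Filter Topology

namespace Vale.Agent.P157

/-- The fair coin. -/
noncomputable def coin : Measure Bool := (2⁻¹ : ENNReal) • Measure.count

instance coin_isProb : IsProbabilityMeasure coin :=
  ⟨by simp [coin, Measure.count_apply_finite, ENNReal.inv_mul_cancel]⟩

/-- The uniform measure on the cube. -/
noncomputable def cubeLaw (N : ℕ) : Measure (Fin N → Bool) := Measure.pi fun _ => coin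

instance cubeLaw_isProb (N : ℕ) : IsProbabilityMeasure (cubeLaw N) := by
  unfold cubeLaw; infer_instance

/-- A cube point scaled to unit length. -/
noncomputable def cubeField (N : ℕ) (x : Fin N → Bool) (i : Fin N) : ℝ :=
  (if x i then (1 : ℝ) else -1) / √(N : ℝ)

theorem measurable_cubeField (N : ℕ) : Measurable (cubeField N) :=
  measurable_of_countable _

theorem cubeField_unit {N : ℕ} (hN : 1 ≤ N) (x : Fin N → Bool) : ∑ i, cubeField N x i ^ 2 = 1 := by
  have h : ∀ i, cubeField N x i ^ 2 = 1 / (N : ℝ) := fun i => by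
    simp only [cubeField, div_pow, Real.sq_sqrt (Nat.cast_nonneg _)]
    split_ifs <;> norm_num
  have : (N : ℝ) ≠ 0 := by exact_mod_cast (by omega : N ≠ 0)
  simp [h]
  field_simp

theorem integral_cubeLaw (N : ℕ) (h : (Fin N → Bool) → ℝ) :
    ∫ x, h x ∂cubeLaw N = (∑ x, h x) / 2 ^ N := by
  rw [integral_fintype Integrable.of_finite, Finset.sum_div]
  refine Finset.sum_congr rfl fun x _ => ?_
  rw [measureReal_def, cubeLaw, Measure.pi_singleton]
  simp [coin, ENNReal.toReal_inv, div_eq_inv_mul]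

theorem pressureCube_eq {U f : ℝ → ℝ} (hUf : ∀ u, U u = exp (f u)) (α : ℝ) (N : ℕ) :
    pressureCube f α N = manyStep U (cubeLaw N) (fun _ : Fin ⌊α * N⌋₊ => cubeField N) / N := by
  rw [pressureCube, manyStep, patterns]
  congr 1
  refine integral_congr_ae (ae_of_all _ fun g => ?_)
  simp only [integral_cubeLaw, exp_sum, hUf]
  congr 3
  funext x
  refine Finset.prod_congr rfl fun a _ => ?_
  simp only [dot, cubeField, Finset.sum_div]
  congr 2
  exact Finset.sum_congr rfl fun i _ => by ring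

theorem cube_limit {U : ℝ → ℝ} {L α : ℝ} (hU : BddWeight U L) (hM : MixIneq U) (hα : 0 ≤ α) :
    ∃ l, Tendsto (fun N : ℕ => manyStep U (cubeLaw N) (fun _ : Fin ⌊α * N⌋₊ => cubeField N) / N)
      atTop (𝓝 l) := by
  have hL := hU.1
  refine tendsto_of_superadd (K := L * (2 * √(α + 1) + 4 + α)) (by positivity) (fun n => ?_) ?_
  · refine (abs_manyStep_le hU _ fun _ => measurable_cubeField n).trans ?_
    rw [Fintype.card_fin]
    refine (mul_le_mul_of_nonneg_left (Nat.floor_le (by positivity)) hL).trans ?_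
    have : 0 ≤ L * (2 * √(α + 1) + 4) * n := by positivity
    nlinarith
  intro N₁ N₂ h₁ h₂
  set S : ℝ := (N₁ : ℝ) + N₂ with hS
  have hS0 : 0 < S := by positivity
  set p : ℝ := N₁ / S with hp
  have hp0 : 0 ≤ p := by positivity
  have hp1 : p ≤ 1 := by rw [hp, div_le_one hS0, hS]; linarith [N₂.cast_nonneg (α := ℝ)]
  have hq : 1 - p = N₂ / S := by rw [hp, hS]; field_simp; ring
  have key := split_bound hU hM (cubeLaw N₁) (cubeLaw N₂) (measurable_cubeField N₁)
    (measurable_cubeField N₂) (ae_of_all _ (cubeField_unit h₁)) (ae_of_all _ (cubeField_unit h₂))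
    hα hp0 hp1 N₁ N₂ h₁
  rw [← hS, ← hp, sub_self, abs_zero, mul_zero, add_zero] at key
  set M := ⌊α * ((N₁ + N₂ : ℕ) : ℝ)⌋₊
  have hφ : MeasurePreserving
      (fun x : (Fin N₁ → Bool) × (Fin N₂ → Bool) =>
        MeasurableEquiv.piCongrLeft (fun _ => Bool) finSumFinEquiv
          ((MeasurableEquiv.sumPiEquivProdPi fun _ : Fin N₁ ⊕ Fin N₂ => Bool).symm x))
      ((cubeLaw N₁).prod (cubeLaw N₂)) (cubeLaw (N₁ + N₂)) :=
    (measurePreserving_piCongrLeft (α := fun _ => Bool) (fun _ : Fin (N₁ + N₂) => coin) finSumFinEquiv).comp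
      (measurePreserving_sumPiEquivProdPi_symm fun _ : Fin N₁ ⊕ Fin N₂ => coin)
  have e : manyStep U ((cubeLaw N₁).prod (cubeLaw N₂))
      (fun _ : Fin M => fun x => Sum.elim (√p • cubeField N₁ x.1) (√(1 - p) • cubeField N₂ x.2))
      = manyStep U (cubeLaw (N₁ + N₂)) (fun _ : Fin M => cubeField (N₁ + N₂)) := by
    rw [← manyStep_map hU hφ (fun _ => measurable_cubeField _)]
    refine Eq.trans ?_ (manyStep_coord hU _ finSumFinEquiv
      (fun _ => (measurable_cubeField _).comp hφ.measurable))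
    congr 1
    funext _ x i
    have hsN : √((N₁ + N₂ : ℕ) : ℝ) = √S := by rw [hS]; push_cast; rfl
    rcases i with i | i
    · simp only [Sum.elim_inl, Pi.smul_apply, smul_eq_mul, cubeField, hsN,
        MeasurableEquiv.coe_piCongrLeft, Equiv.piCongrLeft_apply_apply]
      rw [hp, Real.sqrt_div (Nat.cast_nonneg _)]
      have : √(N₁ : ℝ) ≠ 0 := (Real.sqrt_pos.2 (by positivity)).ne'
      simp only [MeasurableEquiv.coe_sumPiEquivProdPi_symm, Equiv.sumPiEquivProdPi_symm_apply]
      field_simp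
    · simp only [Sum.elim_inr, Pi.smul_apply, smul_eq_mul, cubeField, hsN,
        MeasurableEquiv.coe_piCongrLeft, Equiv.piCongrLeft_apply_apply]
      rw [hq, Real.sqrt_div (Nat.cast_nonneg _)]
      have : √(N₂ : ℝ) ≠ 0 := (Real.sqrt_pos.2 (by positivity)).ne'
      simp only [MeasurableEquiv.coe_sumPiEquivProdPi_symm, Equiv.sumPiEquivProdPi_symm_apply]
      field_simp
  rw [e] at key
  refine le_trans ?_ key
  have : 0 ≤ L * α * √S := by positivity
  nlinarith

end Vale.Agent.P157
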