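import Vale.Agent.P157.Compare

/-!
# P157: splitting a system into two blocks
-/

open MeasureTheory ProbabilityTheory Real

namespace Vale.Agent.P157

variable {U : ℝ → ℝ} {L : ℝ} {ι₁ ι₂ X₁ X₂ : Type} [Fintype ι₁] [Fintype ι₂]
  [MeasurableSpace X₁] [MeasurableSpace X₂]

theorem fst_preserving {α β : Type*} [MeasurableSpace α] [MeasurableSpace β] (P : Measure α)
    (Q : Measure β) [IsProbabilityMeasure Q] : MeasurePreserving Prod.fst (P.prod Q) P :=
  ⟨measurable_fst, by simp⟩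

theorem snd_preserving {α β : Type*} [MeasurableSpace α] [MeasurableSpace β] (P : Measure α)
    (Q : Measure β) [IsProbabilityMeasure P] [SFinite Q] :
    MeasurePreserving Prod.snd (P.prod Q) Q :=
  ⟨measurable_snd, by simp⟩

/-- The field of the first block. -/
def leftField (y : X₁ → ι₁ → ℝ) : X₁ × X₂ → ι₁ ⊕ ι₂ → ℝ := fun x => Sum.elim (y x.1) 0

/-- The field of the second block. -/
def rightField (y : X₂ → ι₂ → ℝ) : X₁ × X₂ → ι₁ ⊕ ι₂ → ℝ := fun x => Sum.elim 0 (y x.2)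

omit [Fintype ι₁] [Fintype ι₂] in
theorem measurable_leftField {y : X₁ → ι₁ → ℝ} (hy : Measurable y) :
    Measurable (leftField (X₂ := X₂) (ι₂ := ι₂) y) :=
  measurable_pi_lambda _ fun i => by
    cases i <;> simp only [leftField, Sum.elim_inl, Sum.elim_inr, Pi.zero_apply]
    · exact (hy.comp measurable_fst).eval
    · exact measurable_const

omit [Fintype ι₁] [Fintype ι₂] in
theorem measurable_rightField {y : X₂ → ι₂ → ℝ} (hy : Measurable y) :
    Measurable (rightField (X₁ := X₁) (ι₁ := ι₁) y) :=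
  measurable_pi_lambda _ fun i => by
    cases i <;> simp only [rightField, Sum.elim_inl, Sum.elim_inr, Pi.zero_apply]
    · exact measurable_const
    · exact (hy.comp measurable_snd).eval

theorem base_eq (hU : BddWeight U L) (μ₁ : Measure X₁) [IsProbabilityMeasure μ₁]
    (μ₂ : Measure X₂) [IsProbabilityMeasure μ₂] {y₁ : X₁ → ι₁ → ℝ} {y₂ : X₂ → ι₂ → ℝ}
    (h₁ : Measurable y₁) (h₂ : Measurable y₂) (A B : Type) [Fintype A] [Fintype B] :
    manyStep U (μ₁.prod μ₂)
      (Sum.elim (fun _ : A => leftField y₁) (fun _ : B => rightField y₂))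
      = manyStep U μ₁ (fun _ : A => y₁) + manyStep U μ₂ (fun _ : B => y₂) := by
  set μ := μ₁.prod μ₂
  have hws : ∀ c : A ⊕ B, Measurable
      (Sum.elim (fun _ : A => leftField (X₂ := X₂) (ι₂ := ι₂) y₁) (fun _ : B => rightField y₂) c) := by
    rintro (a | b); exacts [measurable_leftField h₁, measurable_rightField h₂]
  let P₁ := Measure.pi fun _ : A => gauss ι₁
  let P₂ := Measure.pi fun _ : B => gauss ι₂
  have m₁ : MeasurePreserving (fun g : ι₁ ⊕ ι₂ → ℝ => fun i => g (.inl i)) (gauss (ι₁ ⊕ ι₂)) (gauss ι₁) :=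
    (fst_preserving (gauss ι₁) (gauss ι₂)).comp
      (measurePreserving_sumPiEquivProdPi (fun _ : ι₁ ⊕ ι₂ => gaussianReal 0 1))
  have m₂ : MeasurePreserving (fun g : ι₁ ⊕ ι₂ → ℝ => fun i => g (.inr i)) (gauss (ι₁ ⊕ ι₂)) (gauss ι₂) :=
    (snd_preserving (gauss ι₁) (gauss ι₂)).comp
      (measurePreserving_sumPiEquivProdPi (fun _ : ι₁ ⊕ ι₂ => gaussianReal 0 1))
  have M₁ : MeasurePreserving (fun G : A ⊕ B → (ι₁ ⊕ ι₂) → ℝ => fun (a : A) (i : ι₁) => G (.inl a) (.inl i))
      (Measure.pi fun _ => gauss (ι₁ ⊕ ι₂)) P₁ :=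
    ((measurePreserving_pi (fun _ : A => gauss (ι₁ ⊕ ι₂)) (fun _ => gauss ι₁) (fun _ => m₁)).comp
      (fst_preserving _ (Measure.pi fun _ : B => gauss (ι₁ ⊕ ι₂)))).comp
      (measurePreserving_sumPiEquivProdPi (fun _ : A ⊕ B => gauss (ι₁ ⊕ ι₂)))
  have M₂ : MeasurePreserving (fun G : A ⊕ B → (ι₁ ⊕ ι₂) → ℝ => fun (b : B) (i : ι₂) => G (.inr b) (.inr i))
      (Measure.pi fun _ => gauss (ι₁ ⊕ ι₂)) P₂ :=
    ((measurePreserving_pi (fun _ : B => gauss (ι₁ ⊕ ι₂)) (fun _ => gauss ι₂) (fun _ => m₂)).comp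
      (snd_preserving (Measure.pi fun _ : A => gauss (ι₁ ⊕ ι₂)) _)).comp
      (measurePreserving_sumPiEquivProdPi (fun _ : A ⊕ B => gauss (ι₁ ⊕ ι₂)))
  have hF₁ := log_avg_measurable hU μ₁ (w := fun _ : A => y₁) (fun _ => h₁)
  have hF₂ := log_avg_measurable hU μ₂ (w := fun _ : B => y₂) (fun _ => h₂)
  have hi₁ := (log_avg_integrable hU μ₁ (w := fun _ : A => y₁) (fun _ => h₁))
  have hi₂ := (log_avg_integrable hU μ₂ (w := fun _ : B => y₂) (fun _ => h₂))
  have hpt : ∀ G : A ⊕ B → (ι₁ ⊕ ι₂) → ℝ,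
      log (∫ x, ∏ c, U (dot (G c) (Sum.elim (fun _ : A => leftField y₁) (fun _ : B => rightField y₂) c x)) ∂μ)
        = log (∫ x, ∏ a, U (dot (fun i => G (.inl a) (.inl i)) (y₁ x)) ∂μ₁)
          + log (∫ x, ∏ b, U (dot (fun i => G (.inr b) (.inr i)) (y₂ x)) ∂μ₂) := by
    intro G
    rw [← log_mul (avg_bounds hU μ₁ (w := fun _ : A => y₁) (fun _ => h₁) _).1.ne'
      (avg_bounds hU μ₂ (w := fun _ : B => y₂) (fun _ => h₂) _).1.ne', ← integral_prod_mul]
    congr 1
    refine integral_congr_ae (ae_of_all _ fun x => ?_)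
    simp [Fintype.prod_sum_type, dot, leftField, rightField, Fintype.sum_sum_type]
  rw [manyStep, manyStep, manyStep]
  simp_rw [hpt]
  rw [integral_add, integral_of_preserving M₁ hF₁, integral_of_preserving M₂ hF₂]
  · exact Integrable.of_bound (hF₁.comp M₁.measurable).aestronglyMeasurable (L * Fintype.card A)
      (ae_of_all _ fun G => by
        rw [Real.norm_eq_abs]
        exact (avg_bounds hU μ₁ (w := fun _ : A => y₁) (fun _ => h₁) _).2)
  · exact Integrable.of_bound (hF₂.comp M₂.measurable).aestronglyMeasurable (L * Fintype.card B)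
      (ae_of_all _ fun G => by
        rw [Real.norm_eq_abs]
        exact (avg_bounds hU μ₂ (w := fun _ : B => y₂) (fun _ => h₂) _).2)

theorem two_mul_abs_le {d r : ℝ} (hr : 0 < r) : 2 * |d| ≤ d ^ 2 / r + r := by
  rw [div_add' _ _ _ hr.ne', le_div_iff₀ hr, ← sq_abs d]
  nlinarith [sq_nonneg (|d| - r)]

/-- The joint system with every constraint coupled dominates the two separate systems. -/
theorem blocks_le (hU : BddWeight U L) (hM : MixIneq U) (μ₁ : Measure X₁) [IsProbabilityMeasure μ₁]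
    (μ₂ : Measure X₂) [IsProbabilityMeasure μ₂] {y₁ : X₁ → ι₁ → ℝ} {y₂ : X₂ → ι₂ → ℝ}
    (h₁ : Measurable y₁) (h₂ : Measurable y₂) (hn₁ : ∀ᵐ x ∂μ₁, ∑ i, y₁ x i ^ 2 = 1)
    (hn₂ : ∀ᵐ x ∂μ₂, ∑ i, y₂ x i ^ 2 = 1) {p : ℝ} (hp : 0 ≤ p) (hp1 : p ≤ 1)
    (M m₁ m₂ : ℕ) {r : ℝ} (hr : 0 < r) :
    manyStep U μ₁ (fun _ : Fin m₁ => y₁) + manyStep U μ₂ (fun _ : Fin m₂ => y₂)
      - L * (p * (1 - p) * M / r + r + |p * M - m₁| + |(1 - p) * M - m₂|)
      ≤ manyStep U (μ₁.prod μ₂)
          (fun _ : Fin M => fun x => Sum.elim (√p • y₁ x.1) (√(1 - p) • y₂ x.2)) := by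
  set μ := μ₁.prod μ₂
  set v : X₁ × X₂ → ι₁ ⊕ ι₂ → ℝ := fun x => Sum.elim (√p • y₁ x.1) (√(1 - p) • y₂ x.2) with hvdef
  set w₁ : X₁ × X₂ → ι₁ ⊕ ι₂ → ℝ := leftField y₁ with hw₁
  set w₂ : X₁ × X₂ → ι₁ ⊕ ι₂ → ℝ := rightField y₂ with hw₂
  have hv : Measurable v := measurable_pi_lambda _ fun i => by
    cases i <;> simp only [hvdef, Sum.elim_inl, Sum.elim_inr, Pi.smul_apply, smul_eq_mul]
    · exact ((h₁.comp measurable_fst).eval).const_mul _
    · exact ((h₂.comp measurable_snd).eval).const_mul _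
  have hm₁ : Measurable w₁ := measurable_leftField h₁
  have hm₂ : Measurable w₂ := measurable_rightField h₂
  let R : ℕ → ℕ → ℕ → ℝ := fun m i j =>
    manyStep U μ (Sum.elim (fun _ : Fin m => v) (Sum.elim (fun _ : Fin i => w₁) (fun _ : Fin j => w₂)))
  have hmeas : ∀ (m i j : ℕ), ∀ c : Fin m ⊕ (Fin i ⊕ Fin j), Measurable
      (Sum.elim (fun _ : Fin m => v) (Sum.elim (fun _ : Fin i => w₁) (fun _ : Fin j => w₂)) c) := by
    rintro m i j (a | a | a); exacts [hv, hm₁, hm₂]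
  have step : ∀ m i j, p * R m (i + 1) j + (1 - p) * R m i (j + 1) ≤ R (m + 1) i j := by
    intro m i j
    have h := mix_step hU hM μ
      (w := Sum.elim (fun _ : Fin m => v) (Sum.elim (fun _ : Fin i => w₁) (fun _ : Fin j => w₂)))
      hp hp1 (hmeas m i j) hv hm₁ hm₂
      (fun x c => by
        cases c <;> simp [hvdef, hw₁, hw₂, leftField, rightField])
      (fun x y c => by cases c <;> simp [hw₁, hw₂, leftField, rightField])
      (((fst_preserving μ₁ μ₂).quasiMeasurePreserving.ae hn₁).mono fun x hx => by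
        simpa [hw₁, leftField, Fintype.sum_sum_type] using hx)
      (((snd_preserving μ₁ μ₂).quasiMeasurePreserving.ae hn₂).mono fun x hx => by
        simpa [hw₂, rightField, Fintype.sum_sum_type] using hx)
    let T := Fin m ⊕ (Fin i ⊕ Fin j)
    let e0 : T ⊕ Unit ≃ Fin (m + 1) ⊕ (Fin i ⊕ Fin j) :=
      (Equiv.sumAssoc _ _ _).trans (((Equiv.refl _).sumCongr (Equiv.sumComm _ _)).trans
        ((Equiv.sumAssoc _ _ _).symm.trans ((((Equiv.refl _).sumCongr finOneEquiv.symm).trans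
          finSumFinEquiv).sumCongr (Equiv.refl _))))
    let ej : Fin j ⊕ Unit ≃ Fin (j + 1) := ((Equiv.refl _).sumCongr finOneEquiv.symm).trans finSumFinEquiv
    let ei : Fin i ⊕ Unit ≃ Fin (i + 1) := ((Equiv.refl _).sumCongr finOneEquiv.symm).trans finSumFinEquiv
    let e1 : T ⊕ Unit ≃ Fin m ⊕ (Fin (i + 1) ⊕ Fin j) :=
      (Equiv.sumAssoc _ _ _).trans ((Equiv.refl _).sumCongr ((Equiv.sumAssoc _ _ _).trans
        (((Equiv.refl _).sumCongr (Equiv.sumComm _ _)).trans
          ((Equiv.sumAssoc _ _ _).symm.trans (ei.sumCongr (Equiv.refl _))))))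
    let e2 : T ⊕ Unit ≃ Fin m ⊕ (Fin i ⊕ Fin (j + 1)) :=
      (Equiv.sumAssoc _ _ _).trans ((Equiv.refl _).sumCongr ((Equiv.sumAssoc _ _ _).trans
        ((Equiv.refl _).sumCongr ej)))
    have r0 : R (m + 1) i j = manyStep U μ (Sum.elim (Sum.elim (fun _ : Fin m => v)
        (Sum.elim (fun _ : Fin i => w₁) (fun _ : Fin j => w₂))) (fun _ : Unit => v)) := by
      simp only [R]; rw [← manyStep_reindex hU μ e0 (hmeas _ _ _)]
      congr 1; funext c; rcases c with ((a | a | a) | a) <;> rfl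
    have r1 : R m (i + 1) j = manyStep U μ (Sum.elim (Sum.elim (fun _ : Fin m => v)
        (Sum.elim (fun _ : Fin i => w₁) (fun _ : Fin j => w₂))) (fun _ : Unit => w₁)) := by
      simp only [R]; rw [← manyStep_reindex hU μ e1 (hmeas _ _ _)]
      congr 1; funext c; rcases c with ((a | a | a) | a) <;> rfl
    have r2 : R m i (j + 1) = manyStep U μ (Sum.elim (Sum.elim (fun _ : Fin m => v)
        (Sum.elim (fun _ : Fin i => w₁) (fun _ : Fin j => w₂))) (fun _ : Unit => w₂)) := by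
      simp only [R]; rw [← manyStep_reindex hU μ e2 (hmeas _ _ _)]
      congr 1; funext c; rcases c with ((a | a | a) | a) <;> rfl
    rw [r0, r1, r2]; exact h
  set c : ℝ := p * M with hc
  set S := manyStep U μ₁ (fun _ : Fin m₁ => y₁) + manyStep U μ₂ (fun _ : Fin m₂ => y₂) with hS
  have main : ∀ m i j : ℕ, i + j + m = M →
      S - L * (((i + p * m - c) ^ 2 + p * (1 - p) * m) / r + r + |c - m₁| + |(1 - p) * M - m₂|)
        ≤ R m i j := by
    intro m
    induction m with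
    | zero =>
      intro i j hij
      have e : R 0 i j = manyStep U μ₁ (fun _ : Fin i => y₁) + manyStep U μ₂ (fun _ : Fin j => y₂) := by
        rw [← base_eq hU μ₁ μ₂ h₁ h₂]
        simp only [R]
        rw [← manyStep_reindex hU μ (Equiv.emptySum (Fin 0) (Fin i ⊕ Fin j)).symm (hmeas _ _ _)]
        congr 1
      have a1 := abs_le.1 (manyStep_lip hU μ₁ h₁ (m := i) (m' := m₁))
      have a2 := abs_le.1 (manyStep_lip hU μ₂ h₂ (m := j) (m' := m₂))
      have b1 := abs_sub_le (i : ℝ) c m₁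
      have hj : (j : ℝ) = M - i := by
        have : (i : ℝ) + j = M := by exact_mod_cast (by omega : i + j = M)
        linarith
      have b2 : |(j : ℝ) - m₂| ≤ |(i : ℝ) - c| + |(1 - p) * M - m₂| := by
        calc |(j : ℝ) - m₂| = |(c - i) + ((1 - p) * M - m₂)| := by rw [hj, hc]; ring_nf
          _ ≤ _ := (abs_add_le _ _).trans (by rw [abs_sub_comm c])
      have b3 := two_mul_abs_le (d := (i : ℝ) - c) hr
      rw [e, hS]
      simp only [CharP.cast_eq_zero, mul_zero, add_zero]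
      nlinarith [mul_le_mul_of_nonneg_left b1 hU.1, mul_le_mul_of_nonneg_left b2 hU.1,
        mul_le_mul_of_nonneg_left b3 hU.1]
    | succ m ih =>
      intro i j hij
      have A := ih (i + 1) j (by omega)
      have B := ih i (j + 1) (by omega)
      refine le_trans (le_of_eq ?_) ((add_le_add (mul_le_mul_of_nonneg_left A hp)
        (mul_le_mul_of_nonneg_left B (sub_nonneg.2 hp1))).trans (step m i j))
      push_cast
      ring
  have := main M 0 0 (by simp)
  have e : R M 0 0 = manyStep U μ (fun _ : Fin M => v) := by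
    simp only [R]
    rw [← manyStep_reindex hU μ (Equiv.sumEmpty (Fin M) (Fin 0 ⊕ Fin 0)).symm (hmeas _ _ _)]
    congr 1
  rw [e] at this
  refine le_trans (le_of_eq ?_) this
  simp only [hc, CharP.cast_eq_zero, zero_add, sub_self]
  ring

end Vale.Agent.P157
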