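import Vale.Agent.P157.Quad
import Vale.Agent.P157.Cube

/-!
# P157: the quadratic potential as a limit of bounded ones
-/

open MeasureTheory ProbabilityTheory Real Filter Topology

namespace Vale.Agent.P157

/-- The quadratic potential levelled off at height of order `1 / c`. -/
noncomputable def capFun (s c x : ℝ) : ℝ := s / (2 * c) * (1 - exp (-(c * x ^ 2)))

theorem cap_bounds {c : ℝ} (hc : 0 < c) (x : ℝ) :
    |x * exp (-(c * x ^ 2))| ≤ 1 / √c ∧ |x * exp (-(c * x ^ 2))| ≤ |x| ∧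
    |exp (-(c * x ^ 2)) * (1 - 2 * c * x ^ 2)| ≤ 1 ∧
    |exp (-(c * x ^ 2)) * (1 - 2 * c * x ^ 2) - 1| ≤ 3 * c * x ^ 2 ∧
    |exp (-(c * x ^ 2)) * (4 * c ^ 2 * x ^ 3 - 6 * c * x)| ≤ 16 * √c := by
  set t := c * x ^ 2 with ht
  set E := exp (-t) with hE
  have ht0 : 0 ≤ t := by positivity
  have hE0 : 0 < E := exp_pos _
  have hE1 : E ≤ 1 := exp_le_one_iff.2 (by linarith)
  have h1 : E * exp t = 1 := by rw [hE, ← exp_add, neg_add_cancel, exp_zero]
  have hq := quadratic_le_exp_of_nonneg ht0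
  have hEt : 1 - t ≤ E := by rw [hE]; linarith [add_one_le_exp (-t)]
  have hqE : (1 + t + t ^ 2 / 2) * E ≤ 1 := by
    have := mul_le_mul_of_nonneg_left hq hE0.le
    linarith
  have hs : 0 < √c := Real.sqrt_pos.2 hc
  have hsc := Real.sq_sqrt hc.le
  have hx : √c * |x| ≤ (1 + t) / 2 := by
    have := sq_nonneg (√c * |x| - 1)
    rw [ht, ← sq_abs x]
    nlinarith
  have hxE : √c * |x| * E ≤ 1 := by
    have := mul_le_mul_of_nonneg_right hx hE0.le
    nlinarith [mul_nonneg (sq_nonneg t) hE0.le]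
  have htE : t * E ≤ 1 := by nlinarith [mul_nonneg (sq_nonneg t) hE0.le]
  have ht2 : t ^ 2 * E ≤ 2 := by nlinarith [mul_nonneg ht0 hE0.le]
  refine ⟨?_, ?_, ?_, ?_, ?_⟩
  · rw [abs_mul, abs_of_pos hE0, le_div_iff₀ hs]; linarith
  · rw [abs_mul, abs_of_pos hE0]; exact mul_le_of_le_one_right (abs_nonneg _) hE1
  · rw [show 2 * c * x ^ 2 = 2 * t by rw [ht]; ring, abs_le]
    constructor <;> nlinarith [mul_nonneg (sq_nonneg (t - 1)) hE0.le, mul_nonneg ht0 hE0.le]
  · rw [show 2 * c * x ^ 2 = 2 * t by rw [ht]; ring, show 3 * c * x ^ 2 = 3 * t by rw [ht]; ring, abs_le]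
    constructor <;> nlinarith [mul_le_mul_of_nonneg_left hE1 ht0, mul_nonneg ht0 hE0.le]
  · have e : exp (-t) * (4 * c ^ 2 * x ^ 3 - 6 * c * x) = E * x * c * (4 * t - 6) := by
      rw [hE, ht]; ring
    rw [e, abs_mul, abs_mul, abs_mul, abs_of_pos hE0, abs_of_pos hc]
    have h4 : |4 * t - 6| ≤ 4 * t + 6 := abs_le.2 ⟨by linarith, by linarith⟩
    calc E * |x| * c * |4 * t - 6| ≤ E * |x| * c * (4 * t + 6) :=
          mul_le_mul_of_nonneg_left h4 (by positivity)
      _ = √c * (4 * (√c * |x| * (t * E)) + 6 * (√c * |x| * E)) := by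
          nth_rewrite 1 [← hsc]; ring
      _ ≤ √c * 16 := by
          refine mul_le_mul_of_nonneg_left ?_ hs.le
          have := mul_le_mul_of_nonneg_right hx (mul_nonneg ht0 hE0.le)
          nlinarith
      _ = 16 * √c := mul_comm _ _

/-- The levelled quadratic potential with its derivatives. -/
noncomputable def capPot (s : ℝ) {c : ℝ} (hc : 0 < c) : Potential where
  f0 := capFun s c
  f1 x := s * (x * exp (-(c * x ^ 2)))
  f2 x := s * (exp (-(c * x ^ 2)) * (1 - 2 * c * x ^ 2))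
  f3 x := s * (exp (-(c * x ^ 2)) * (4 * c ^ 2 * x ^ 3 - 6 * c * x))
  d0 x := by
    unfold capFun
    have := ((((hasDerivAt_pow 2 x).const_mul c).fun_neg.exp).const_sub 1).const_mul (s / (2 * c))
    refine this.congr_deriv ?_
    push_cast
    field_simp
  d1 x := by
    have := ((hasDerivAt_id x).fun_mul ((((hasDerivAt_pow 2 x).const_mul c).fun_neg.exp))).const_mul s
    refine this.congr_deriv ?_
    push_cast
    simp only [id]
    ring
  d2 x := by
    have := (((((hasDerivAt_pow 2 x).const_mul c).fun_neg.exp)).fun_mul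
      (((hasDerivAt_pow 2 x).const_mul (2 * c)).const_sub 1)).const_mul s
    refine this.congr_deriv ?_
    push_cast
    ring
  b0 := |s| / (2 * c)
  b1 := |s| * (1 / √c)
  b2 := |s|
  b3 := |s| * (16 * √c)
  h0 x := by
    rw [capFun, abs_mul, abs_div, abs_of_pos (show 0 < 2 * c by linarith)]
    refine mul_le_of_le_one_right (by positivity) (abs_le.2 ⟨?_, by linarith [exp_pos (-(c * x ^ 2))]⟩)
    linarith [exp_le_one_iff.2 (show -(c * x ^ 2) ≤ 0 by nlinarith [sq_nonneg x])]
  h1 x := by rw [abs_mul]; exact mul_le_mul_of_nonneg_left (cap_bounds hc x).1 (abs_nonneg _)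
  h2 x := by rw [abs_mul]; exact mul_le_of_le_one_right (abs_nonneg _) (cap_bounds hc x).2.2.1
  h3 x := by rw [abs_mul]; exact mul_le_mul_of_nonneg_left (cap_bounds hc x).2.2.2.2 (abs_nonneg _)

theorem abs_capFun_le (s : ℝ) {c : ℝ} (hc : 0 < c) (x : ℝ) :
    |capFun s c x| ≤ |s| * x ^ 2 / 2 ∧ |s * x ^ 2 / 2 - capFun s c x| ≤ |s| * c * x ^ 4 / 4 := by
  set t := c * x ^ 2 with ht
  have ht0 : 0 ≤ t := by positivity
  have a1 : exp (-t) ≤ 1 := exp_le_one_iff.2 (by linarith)
  have a2 : 1 - t ≤ exp (-t) := by linarith [add_one_le_exp (-t)]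
  have a3 : exp (-t) ≤ 1 - t + t ^ 2 / 2 := by
    have h := quadratic_le_exp_of_nonneg ht0
    have h1 : exp (-t) * exp t = 1 := by rw [← exp_add, neg_add_cancel, exp_zero]
    by_contra hh
    have hlt := not_le.1 hh
    nlinarith [exp_pos (-t), mul_le_mul_of_nonneg_left h (exp_pos (-t)).le, sq_nonneg (t ^ 2)]
  have e : capFun s c x = s * x ^ 2 / 2 * ((1 - exp (-t)) / t) ∨ t = 0 := by
    rcases eq_or_ne t 0 with h | h
    · exact Or.inr h
    · left
      have hx : x ≠ 0 := fun hx => h (by simp [ht, hx])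
      rw [capFun, ← ht, ht]; field_simp
  constructor
  · rw [capFun, ← ht, abs_mul, abs_div, abs_of_pos (show 0 < 2 * c by linarith),
      abs_of_nonneg (sub_nonneg.2 a1), div_mul_eq_mul_div, div_le_div_iff₀ (by linarith) two_pos]
    calc |s| * (1 - exp (-t)) * 2 ≤ |s| * t * 2 := by
          have := mul_le_mul_of_nonneg_left (show 1 - exp (-t) ≤ t by linarith) (abs_nonneg s)
          linarith
      _ = _ := by rw [ht]; ring
  · have e2 : s * x ^ 2 / 2 - capFun s c x = s / (2 * c) * (exp (-t) - 1 + t) := by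
      rw [capFun, ← ht, ht]; field_simp; ring
    rw [e2, abs_mul, abs_div, abs_of_pos (show 0 < 2 * c by linarith),
      abs_of_nonneg (show 0 ≤ exp (-t) - 1 + t by linarith)]
    calc |s| / (2 * c) * (exp (-t) - 1 + t) ≤ |s| / (2 * c) * (t ^ 2 / 2) :=
          mul_le_mul_of_nonneg_left (by linarith) (by positivity)
      _ = _ := by rw [ht]; field_simp; ring

theorem quadLike_cap (s : ℝ) {c : ℝ} (hc : 0 < c) : QuadLike (capPot s hc) s (3 * c) where
  q0 x := (abs_capFun_le s hc x).1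
  q1 x := by
    show (s * (x * exp (-(c * x ^ 2)))) ^ 2 ≤ s ^ 2 * x ^ 2
    rw [mul_pow]
    exact mul_le_mul_of_nonneg_left (sq_le_sq.2 (cap_bounds hc x).2.1) (sq_nonneg s)
  q2 x := (capPot s hc).h2 x
  qd x := by
    show |s * (exp (-(c * x ^ 2)) * (1 - 2 * c * x ^ 2)) - s| ≤ |s| * (3 * c) * x ^ 2
    rw [← mul_sub_one, abs_mul]
    refine (mul_le_mul_of_nonneg_left (cap_bounds hc x).2.2.2.1 (abs_nonneg s)).trans (le_of_eq ?_)
    ring

theorem cap_limit_cube {s c α : ℝ} (hc : 0 < c) (hs : 312 * |s| + 288 * c ≤ 1) (hα : 0 ≤ α) :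
    ∃ l, Tendsto (fun N : ℕ => pressureCube (capFun s c) α N) atTop (𝓝 l) := by
  let P := capPot s hc
  have hU : BddWeight (fun x => exp (P.f0 x)) P.b0 :=
    ⟨P.b0_nonneg, P.continuous0.rexp, fun u =>
      ⟨exp_le_exp.2 (abs_le.1 (P.h0 u)).1, exp_le_exp.2 (abs_le.1 (P.h0 u)).2⟩⟩
  obtain ⟨l, hl⟩ := cube_limit hU (mixIneq_quad (quadLike_cap s hc) (by linarith) (by linarith)) hα
  have hUf : ∀ u, (fun x => exp (P.f0 x)) u = exp (capFun s c u) := fun _ => rfl
  exact ⟨l, by simpa only [pressureCube_eq hUf] using hl⟩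

section swap

variable {ι X : Type} [Fintype ι] [Fintype X] [Nonempty X]

/-- The logarithm of a weighted sum of exponentials. -/
noncomputable def lse (w b : X → ℝ) : ℝ := log (∑ x, w x * exp (b x))

omit [Nonempty X] in
theorem lse_pos_aux [Nonempty X] {w : X → ℝ} (hw : ∀ x, 0 < w x) (b : X → ℝ) :
    0 < ∑ x, w x * exp (b x) :=
  Finset.sum_pos (fun x _ => mul_pos (hw x) (exp_pos _)) Finset.univ_nonempty

theorem abs_lse_le {w : X → ℝ} (hw : ∀ x, 0 < w x) (b : X → ℝ) :
    |lse w b| ≤ |log (∑ x, w x)| + ∑ x, |b x| := by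
  set B := ∑ x, |b x|
  have hW : 0 < ∑ x, w x := Finset.sum_pos (fun x _ => hw x) Finset.univ_nonempty
  have hb : ∀ x, |b x| ≤ B := fun x =>
    Finset.single_le_sum (f := fun x => |b x|) (fun y _ => abs_nonneg (b y)) (Finset.mem_univ x)
  have lo : (∑ x, w x) * exp (-B) ≤ ∑ x, w x * exp (b x) := by
    rw [Finset.sum_mul]
    exact Finset.sum_le_sum fun x _ =>
      mul_le_mul_of_nonneg_left (exp_le_exp.2 (abs_le.1 (le_trans (le_refl _) (hb x))).1) (hw x).le
  have up : ∑ x, w x * exp (b x) ≤ (∑ x, w x) * exp B := by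
    rw [Finset.sum_mul]
    exact Finset.sum_le_sum fun x _ =>
      mul_le_mul_of_nonneg_left (exp_le_exp.2 (abs_le.1 (hb x)).2) (hw x).le
  have l1 := log_le_log (by positivity) lo
  have l2 := log_le_log (lse_pos_aux hw b) up
  rw [log_mul hW.ne' (exp_pos _).ne', log_exp] at l1 l2
  rw [lse, abs_le]
  constructor <;> linarith [le_abs_self (log (∑ x, w x)), neg_abs_le (log (∑ x, w x))]

theorem lse_sub_le {w : X → ℝ} (hw : ∀ x, 0 < w x) (b b' : X → ℝ) :
    lse w b - lse w b'
      ≤ ∑ x, ∑ y, w x * w y * (|b x - b' x| * exp (b x - b y)) / (∑ z, w z) ^ 2 := by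
  set A := ∑ x, w x * exp (b x) with hA
  have hA0 : 0 < A := lse_pos_aux hw b
  set W := ∑ z, w z
  have hW : 0 < W := Finset.sum_pos (fun x _ => hw x) Finset.univ_nonempty
  set m := (∑ x, w x * exp (b x) * (b' x - b x)) / A with hm
  have h1 : exp m * A ≤ ∑ x, w x * exp (b' x) := by
    have hs : ∀ x, w x * exp (b x) * (exp m * (1 + (b' x - b x - m))) ≤ w x * exp (b' x) := fun x => by
      rw [show exp (b' x) = exp (b x) * (exp m * exp (b' x - b x - m)) by
        rw [← exp_add, ← exp_add]; ring_nf, ← mul_assoc (w x) (exp (b x))]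
      exact mul_le_mul_of_nonneg_left (mul_le_mul_of_nonneg_left
        (by linarith [add_one_le_exp (b' x - b x - m)]) (exp_pos _).le) (mul_pos (hw x) (exp_pos _)).le
    refine le_trans (le_of_eq ?_) (Finset.sum_le_sum fun x _ => hs x)
    have e : ∀ x, w x * exp (b x) * (exp m * (1 + (b' x - b x - m)))
        = exp m * (1 - m) * (w x * exp (b x)) + exp m * (w x * exp (b x) * (b' x - b x)) := fun x => by
      ring
    simp only [e, Finset.sum_add_distrib, ← Finset.mul_sum, ← hA]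
    rw [show ∑ x, w x * exp (b x) * (b' x - b x) = m * A by rw [hm]; field_simp]
    ring
  have h2 : m + log A ≤ lse w b' := by
    have := log_le_log (by positivity) h1
    rwa [log_mul (exp_pos _).ne' hA0.ne', log_exp] at this
  have h3 : -m ≤ (∑ x, w x * exp (b x) * |b x - b' x|) / A := by
    rw [hm, ← neg_div, ← Finset.sum_neg_distrib]
    refine div_le_div_of_nonneg_right (Finset.sum_le_sum fun x _ => ?_) hA0.le
    rw [← mul_neg, neg_sub]
    exact mul_le_mul_of_nonneg_left (le_abs_self _) (mul_pos (hw x) (exp_pos _)).le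
  set J := ∑ y, w y * exp (-b y)
  have h4 : W ^ 2 ≤ A * J := by
    have hs : ∀ y, w y * (2 * (W / A) - (W / A) ^ 2 * exp (b y)) ≤ w y * exp (-b y) := fun y => by
      refine mul_le_mul_of_nonneg_left ?_ (hw y).le
      have h := exp_pos (-b y)
      have hh : exp (b y) * exp (-b y) = 1 := by rw [← exp_add, add_neg_cancel, exp_zero]
      nlinarith [mul_nonneg h.le (sq_nonneg (W / A * exp (b y) - 1))]
    have := Finset.sum_le_sum (s := Finset.univ) fun y _ => hs y
    have e : ∀ y, w y * (2 * (W / A) - (W / A) ^ 2 * exp (b y))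
        = 2 * (W / A) * w y - (W / A) ^ 2 * (w y * exp (b y)) := fun y => by ring
    simp only [e, Finset.sum_sub_distrib, ← Finset.mul_sum, ← hA] at this
    have e2 : 2 * (W / A) * W - (W / A) ^ 2 * A = W ^ 2 / A := by field_simp; ring
    rw [e2, div_le_iff₀ hA0] at this
    linarith
  set K := ∑ x, w x * exp (b x) * |b x - b' x|
  have hK : 0 ≤ K := Finset.sum_nonneg fun x _ => by have := hw x; positivity
  have h5 : K / A ≤ K * J / W ^ 2 := by
    rw [div_le_div_iff₀ hA0 (by positivity), mul_assoc]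
    exact mul_le_mul_of_nonneg_left (h4.trans (le_of_eq (mul_comm _ _))) hK
  have e3 : K * J / W ^ 2 = ∑ x, ∑ y, w x * w y * (|b x - b' x| * exp (b x - b y)) / W ^ 2 := by
    simp only [K, J, ← Finset.sum_div, Finset.sum_mul_sum]
    refine congrArg (· / W ^ 2) (Finset.sum_congr rfl fun x _ => Finset.sum_congr rfl fun y _ => ?_)
    rw [sub_eq_add_neg (b x) (b y), exp_add]; ring
  rw [← e3]
  show log A - lse w b' ≤ _
  linarith

theorem swap_kernel {a k x y d : ℝ} (hk : 0 ≤ k) (ha : a ≤ 1 / 24) (hd : |d| ≤ k * x ^ 4)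
    {r : ℝ} (hr : r ≤ a * (x ^ 2 + y ^ 2)) :
    |d| * exp r ≤ 576 * k * (wt x + wt y) := by
  have h1 : x ^ 4 ≤ 1152 * exp (x ^ 2 / 24) := by
    nlinarith [quadratic_le_exp_of_nonneg (show 0 ≤ x ^ 2 / 24 by positivity), sq_nonneg x]
  refine (mul_le_mul (hd.trans (mul_le_mul_of_nonneg_left h1 hk)) (exp_le_exp.2 hr) (exp_pos _).le
    (by positivity)).trans ?_
  have h2 : exp (x ^ 2 / 24) * exp (a * (x ^ 2 + y ^ 2)) ≤ exp ((x ^ 2 / 4 + y ^ 2 / 4) / 2) := by
    rw [← exp_add, exp_le_exp]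
    nlinarith [mul_le_mul_of_nonneg_right ha (show 0 ≤ x ^ 2 + y ^ 2 by positivity), sq_nonneg x, sq_nonneg y]
  have h3 : 2 * exp ((x ^ 2 / 4 + y ^ 2 / 4) / 2) ≤ wt x + wt y := by
    simp only [wt]
    set p := exp (x ^ 2 / 4 / 2)
    set q := exp (y ^ 2 / 4 / 2)
    rw [add_div, exp_add, show exp (x ^ 2 / 4) = p ^ 2 by rw [← exp_nat_mul]; ring_nf,
      show exp (y ^ 2 / 4) = q ^ 2 by rw [← exp_nat_mul]; ring_nf]
    nlinarith [two_mul_le_add_sq p q]
  calc k * (1152 * exp (x ^ 2 / 24)) * exp (a * (x ^ 2 + y ^ 2))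
      = k * 1152 * (exp (x ^ 2 / 24) * exp (a * (x ^ 2 + y ^ 2))) := by ring
    _ ≤ k * 1152 * ((wt x + wt y) / 2) :=
        mul_le_mul_of_nonneg_left (h2.trans (by linarith)) (by positivity)
    _ = _ := by ring

variable {f h : ℝ → ℝ} {σ c : ℝ} {v : X → ι → ℝ}

theorem energy_le (hf : ∀ r, |f r| ≤ σ * r ^ 2 / 2) (hσ : σ ≤ 1 / 4) (r : ℝ) : |f r| ≤ wt r := by
  refine (hf r).trans ?_
  have := add_one_le_exp (r ^ 2 / 4)
  simp only [wt]
  nlinarith [mul_le_mul_of_nonneg_right hσ (sq_nonneg r)]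

theorem lse_integrable {A : Type} [Fintype A] {w : X → ℝ} (hw : ∀ x, 0 < w x)
    (hu : ∀ x, ∑ i, v x i ^ 2 = 1) (F : A → ℝ → ℝ) (hF : ∀ a, Continuous (F a))
    (hFb : ∀ a r, |F a r| ≤ wt r) :
    Integrable (fun G : A → ι → ℝ => lse w fun x => ∑ a, F a (dot (G a) (v x)))
      (Measure.pi fun _ : A => gauss ι) := by
  have hm : Measurable fun G : A → ι → ℝ => lse w fun x => ∑ a, F a (dot (G a) (v x)) :=
    (Finset.measurable_sum _ fun x _ => (Finset.measurable_sum _ fun a _ => (hF a).measurable.comp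
      ((measurable_dot_left (v x)).comp (measurable_pi_apply a))).exp.const_mul _).log
  refine Integrable.mono' (g := fun G => |log (∑ x, w x)| + ∑ x, ∑ a, wt (dot (G a) (v x))) ?_
    hm.aestronglyMeasurable (ae_of_all _ fun G => ?_)
  · exact (integrable_const _).add (integrable_finsetSum _ fun x _ => integrable_finsetSum _ fun a _ =>
      ((measurePreserving_eval (fun _ : A => gauss ι) a).integrable_comp
        (integral_wt_dot (hu x)).1.aestronglyMeasurable).2 (integral_wt_dot (hu x)).1)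
  · rw [Real.norm_eq_abs]
    exact (abs_lse_le hw _).trans (add_le_add_right (Finset.sum_le_sum fun x _ =>
      (Finset.abs_sum_le_sum_abs _ _).trans (Finset.sum_le_sum fun a _ => hFb a _)) _)

theorem swap_one {w : X → ℝ} (hw : ∀ x, 0 < w x) (hu : ∀ x, ∑ i, v x i ^ 2 = 1)
    (hfc : Continuous f) (hhc : Continuous h) (hf : ∀ r, |f r| ≤ σ * r ^ 2 / 2)
    (hh : ∀ r, |h r| ≤ σ * r ^ 2 / 2) (hσ : σ ≤ 1 / 312) (hc : 0 ≤ c)
    (hd : ∀ r, |f r - h r| ≤ σ * c * r ^ 4 / 4) :
    |∫ g, lse w (fun x => f (dot g (v x))) ∂gauss ι - ∫ g, lse w (fun x => h (dot g (v x))) ∂gauss ι|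
      ≤ 2 * c := by
  set W := ∑ z, w z
  have hW : 0 < W := Finset.sum_pos (fun x _ => hw x) Finset.univ_nonempty
  have hσ0 : 0 ≤ σ := by
    have := (abs_nonneg _).trans (hf 1)
    linarith
  set Rb : (ι → ℝ) → ℝ := fun g =>
    ∑ x, ∑ y, w x * w y * (576 * (σ * c / 4) * (wt (dot g (v x)) + wt (dot g (v y)))) / W ^ 2
  have hb : ∀ (f h : ℝ → ℝ), (∀ r, |f r| ≤ σ * r ^ 2 / 2) → (∀ r, |f r - h r| ≤ σ * c * r ^ 4 / 4) →
      ∀ g, lse w (fun x => f (dot g (v x))) - lse w (fun x => h (dot g (v x))) ≤ Rb g := by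
    intro f h hf hd g
    refine (lse_sub_le hw _ _).trans (Finset.sum_le_sum fun x _ => Finset.sum_le_sum fun y _ => ?_)
    refine div_le_div_of_nonneg_right (mul_le_mul_of_nonneg_left ?_ (mul_pos (hw x) (hw y)).le) (sq_nonneg W)
    refine swap_kernel (k := σ * c / 4) (a := σ / 2) (by positivity) (by linarith)
      ((hd _).trans (le_of_eq (by ring))) ?_
    have := (abs_le.1 (hf (dot g (v x)))).2
    have := (abs_le.1 (hf (dot g (v y)))).1
    linarith
  have iW : ∀ x, Integrable (fun g => wt (dot g (v x))) (gauss ι) := fun x => (integral_wt_dot (hu x)).1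
  have iA : ∀ x y, Integrable (fun g => w x * w y * (576 * (σ * c / 4)
      * (wt (dot g (v x)) + wt (dot g (v y)))) / W ^ 2) (gauss ι) := fun x y =>
    ((((iW x).add (iW y)).const_mul _).const_mul _).div_const _
  have iR : Integrable Rb (gauss ι) := integrable_finsetSum _ fun x _ => integrable_finsetSum _ fun y _ =>
    ((((iW x).add (iW y)).const_mul _).const_mul _).div_const _
  have il : ∀ f : ℝ → ℝ, Continuous f → (∀ r, |f r| ≤ σ * r ^ 2 / 2) →
      Integrable (fun g => lse w (fun x => f (dot g (v x)))) (gauss ι) := by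
    intro f hfc hf
    have h1 := lse_integrable (A := Unit) hw hu (fun _ => f) (fun _ => hfc)
      (fun _ => energy_le hf (by linarith))
    simp only [Fintype.sum_unique] at h1
    refine ((measurePreserving_eval (fun _ : Unit => gauss ι) ()).integrable_comp ?_).1 h1
    exact ((Finset.measurable_sum _ fun x _ => ((hfc.measurable.comp
      (measurable_dot_left (v x))).exp.const_mul _)).log).aestronglyMeasurable
  have hR : ∫ g, Rb g ∂gauss ι ≤ 2 * c := by
    have e : ∫ g, Rb g ∂gauss ι = ∑ x, ∑ y, w x * w y * (576 * (σ * c / 4)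
        * (∫ g, wt (dot g (v x)) ∂gauss ι + ∫ g, wt (dot g (v y)) ∂gauss ι)) / W ^ 2 := by
      simp only [Rb]
      rw [integral_finsetSum _ fun x _ => integrable_finsetSum _ fun y _ => iA x y]
      refine Finset.sum_congr rfl fun x _ => ?_
      rw [integral_finsetSum _ fun y _ => iA x y]
      refine Finset.sum_congr rfl fun y _ => ?_
      rw [integral_div, integral_const_mul, integral_const_mul, integral_add (iW x) (iW y)]
    rw [e]
    refine (Finset.sum_le_sum (g := fun x => ∑ y, w x * w y * (2 * c) / W ^ 2) fun x _ =>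
      Finset.sum_le_sum fun y _ => div_le_div_of_nonneg_right
        (mul_le_mul_of_nonneg_left ?_ (mul_pos (hw x) (hw y)).le) (sq_nonneg W)).trans (le_of_eq ?_)
    · have hx := (integral_wt_dot (hu x)).2
      have hy := (integral_wt_dot (hu y)).2
      calc 576 * (σ * c / 4) * (∫ g, wt (dot g (v x)) ∂gauss ι + ∫ g, wt (dot g (v y)) ∂gauss ι)
          ≤ 576 * (σ * c / 4) * 4 := mul_le_mul_of_nonneg_left (by linarith) (by positivity)
        _ ≤ 2 * c := by nlinarith [mul_le_mul_of_nonneg_right hσ hc]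
    · simp only [← Finset.sum_div, ← Finset.mul_sum, ← Finset.sum_mul]
      show W * W * (2 * c) / W ^ 2 = 2 * c
      field_simp
  have k1 := integral_mono ((il f hfc hf).sub (il h hhc hh)) iR (hb f h hf hd)
  have k2 := integral_mono ((il h hhc hh).sub (il f hfc hf)) iR
    (hb h f hh fun r => by rw [abs_sub_comm]; exact hd r)
  simp only [Pi.sub_apply] at k1 k2
  rw [integral_sub (il f hfc hf) (il h hhc hh)] at k1
  rw [integral_sub (il h hhc hh) (il f hfc hf)] at k2
  rw [abs_le]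
  constructor <;> linarith

theorem swap_all (hu : ∀ x, ∑ i, v x i ^ 2 = 1) (hfc : Continuous f) (hhc : Continuous h)
    (hf : ∀ r, |f r| ≤ σ * r ^ 2 / 2) (hh : ∀ r, |h r| ≤ σ * r ^ 2 / 2) (hσ : σ ≤ 1 / 312) (hc : 0 ≤ c)
    (hd : ∀ r, |f r - h r| ≤ σ * c * r ^ 4 / 4) (m : ℕ) : ∀ w : X → ℝ, (∀ x, 0 < w x) →
    |∫ G : Fin m → ι → ℝ, lse w (fun x => ∑ a, f (dot (G a) (v x))) ∂Measure.pi (fun _ => gauss ι)
      - ∫ G : Fin m → ι → ℝ, lse w (fun x => ∑ a, h (dot (G a) (v x))) ∂Measure.pi (fun _ => gauss ι)|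
      ≤ m * (2 * c) := by
  have hfb := energy_le hf (by linarith)
  have hhb := energy_le hh (by linarith)
  induction m with
  | zero => intro w _; simp
  | succ m ih =>
    intro w hw
    set ν := Measure.pi fun _ : Fin m => gauss ι
    set e := MeasurableEquiv.piFinSuccAbove (fun _ : Fin (m + 1) => ι → ℝ) 0
    have he : MeasurePreserving e (Measure.pi fun _ => gauss ι) ((gauss ι).prod ν) :=
      measurePreserving_piFinSuccAbove (fun _ : Fin (m + 1) => gauss ι) 0
    let Φ : (ℝ → ℝ) → (ℝ → ℝ) → (ι → ℝ) × (Fin m → ι → ℝ) → ℝ := fun p q z =>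
      lse w fun x => p (dot z.1 (v x)) + ∑ a, q (dot (z.2 a) (v x))
    have hΦe : ∀ p q G, Φ p q (e G)
        = lse w fun x => ∑ a : Fin (m + 1), (Fin.cases (motive := fun _ => ℝ → ℝ) p (fun _ => q) a) (dot (G a) (v x)) := by
      intro p q G
      simp only [Φ, e]
      congr 1; funext x
      rw [Fin.sum_univ_succ]
      simp [Fin.removeNth, Fin.tail]
    have hi : ∀ p q, Continuous p → Continuous q → (∀ r, |p r| ≤ wt r) → (∀ r, |q r| ≤ wt r) →
        Integrable (Φ p q) ((gauss ι).prod ν) := by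
      intro p q hp hq hpb hqb
      rw [← he.integrable_comp_emb e.measurableEmbedding]
      let F : Fin (m + 1) → ℝ → ℝ := fun a => Fin.cases (motive := fun _ => ℝ → ℝ) p (fun _ => q) a
      have hFc : ∀ a, Continuous (F a) := fun a => by
        refine Fin.cases ?_ (fun j => ?_) a
        · exact hp
        · exact hq
      have hFb : ∀ a r, |F a r| ≤ wt r := fun a => by
        refine Fin.cases ?_ (fun j => ?_) a
        · exact hpb
        · exact hqb
      exact (lse_integrable hw hu F hFc hFb).congr (ae_of_all _ fun G => (hΦe p q G).symm)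
    have hI : ∀ p, ∫ G : Fin (m + 1) → ι → ℝ, lse w (fun x => ∑ a, p (dot (G a) (v x)))
        ∂Measure.pi (fun _ => gauss ι) = ∫ z, Φ p p z ∂(gauss ι).prod ν := by
      intro p
      rw [← he.integral_comp e.measurableEmbedding (Φ p p)]
      refine integral_congr_ae (ae_of_all _ fun G => ?_)
      simp only [hΦe]
      congr 1; funext x
      refine Finset.sum_congr rfl fun a _ => ?_
      refine Fin.cases ?_ ?_ a <;> simp
    have i1 := hi f f hfc hfc hfb hfb
    have i2 := hi f h hfc hhc hfb hhb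
    have i3 := hi h h hhc hhc hhb hhb
    have t1 : |∫ z, Φ f f z ∂(gauss ι).prod ν - ∫ z, Φ f h z ∂(gauss ι).prod ν| ≤ m * (2 * c) := by
      rw [integral_prod _ i1, integral_prod _ i2, ← integral_sub i1.integral_prod_left i2.integral_prod_left]
      refine ((Real.norm_eq_abs _).symm.le.trans
        (norm_integral_le_of_norm_le_const (μ := gauss ι) (C := (m : ℝ) * (2 * c)) (ae_of_all _ fun g => ?_))).trans ?_
      swap
      · simp [ν]
      have := ih (fun x => w x * exp (f (dot g (v x)))) fun x => mul_pos (hw x) (exp_pos _)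
      simpa only [Real.norm_eq_abs, Φ, lse, exp_add, ← mul_assoc] using this
    have t2 : |∫ z, Φ f h z ∂(gauss ι).prod ν - ∫ z, Φ h h z ∂(gauss ι).prod ν| ≤ 2 * c := by
      rw [integral_prod_symm _ i2, integral_prod_symm _ i3,
        ← integral_sub i2.integral_prod_right i3.integral_prod_right]
      refine ((Real.norm_eq_abs _).symm.le.trans
        (norm_integral_le_of_norm_le_const (μ := ν) (C := 2 * c) (ae_of_all _ fun G => ?_))).trans ?_
      swap
      · simp [ν]
      have := swap_one (w := fun x => w x * exp (∑ a, h (dot (G a) (v x))))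
        (fun x => mul_pos (hw x) (exp_pos _)) hu hfc hhc hf hh hσ hc hd
      simpa only [Real.norm_eq_abs, Φ, lse, exp_add, mul_assoc, mul_comm (exp (∑ a, h _))] using this
    rw [hI f, hI h]
    have a1 := abs_le.1 t1
    have a2 := abs_le.1 t2
    push_cast
    rw [abs_le]
    constructor <;> linarith

end swap

/-- The quadratic potential has a limiting pressure at every load when it is weak. -/
theorem quad_limit_cube {s α : ℝ} (hs : |s| ≤ 1 / 500) (hα : 0 ≤ α) :
    ∃ l, Tendsto (fun N : ℕ => pressureCube (fun x => s * x ^ 2 / 2) α N) atTop (𝓝 l) := by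
  have hσ : |s| ≤ 1 / 312 := by linarith
  have near : ∀ c, 0 < c → ∀ N : ℕ, 1 ≤ N →
      |pressureCube (fun x => s * x ^ 2 / 2) α N - pressureCube (capFun s c) α N| ≤ α * (2 * c) := by
    intro c hc N hN
    have hN0 : (0 : ℝ) < N := by exact_mod_cast hN
    have hP : ∀ f : ℝ → ℝ, pressureCube f α N = (∫ G : Fin ⌊α * N⌋₊ → Fin N → ℝ,
        lse (fun _ : Fin N → Bool => (1 / 2 ^ N : ℝ)) (fun x => ∑ a, f (dot (G a) (cubeField N x)))
        ∂Measure.pi fun _ => gauss (Fin N)) / N := by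
      intro f
      simp only [pressureCube, lse, patterns, gauss, dot, cubeField, ← Finset.mul_sum, one_div_mul_eq_div,
        Finset.sum_div, mul_div_assoc]
    rw [hP, hP, ← sub_div, abs_div, abs_of_pos hN0, div_le_iff₀ hN0]
    have key := swap_all (v := cubeField N) (fun x => cubeField_unit hN x)
      (f := fun x => s * x ^ 2 / 2) (h := capFun s c) (σ := |s|) (c := c) (by fun_prop)
      (by unfold capFun; fun_prop) (fun r => by rw [abs_div, abs_mul, abs_of_nonneg (sq_nonneg r), abs_two])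
      (fun r => (abs_capFun_le s hc r).1) hσ hc.le (fun r => (abs_capFun_le s hc r).2)
      ⌊α * N⌋₊ (fun _ => 1 / 2 ^ N) (fun _ => by positivity)
    refine key.trans ?_
    have := mul_le_mul_of_nonneg_right (Nat.floor_le (mul_nonneg hα hN0.le))
      (show 0 ≤ 2 * c by linarith)
    linarith
  refine cauchySeq_tendsto_of_complete (Metric.cauchySeq_iff.2 fun ε hε => ?_)
  set c := min (1 / 1000 : ℝ) (ε / (8 * (α + 1)))
  have hc : 0 < c := lt_min (by norm_num) (by positivity)
  have hc1 : c ≤ 1 / 1000 := min_le_left _ _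
  have hcε : α * (2 * c) ≤ ε / 4 := by
    have h := mul_le_mul_of_nonneg_left (min_le_right (1 / 1000 : ℝ) (ε / (8 * (α + 1))))
      (show 0 ≤ 2 * (α + 1) by linarith)
    rw [show 2 * (α + 1) * (ε / (8 * (α + 1))) = ε / 4 by field_simp; ring] at h
    nlinarith
  obtain ⟨l, hl⟩ := cap_limit_cube (s := s) hc (by linarith) hα
  obtain ⟨N₀, h₀⟩ := Metric.tendsto_atTop.1 hl (ε / 5) (by linarith)
  refine ⟨max N₀ 1, fun m hm n hn => ?_⟩
  have a1 := abs_le.1 (near c hc m (le_of_max_le_right hm))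
  have a2 := abs_le.1 (near c hc n (le_of_max_le_right hn))
  have b1 := abs_lt.1 (Real.dist_eq _ l ▸ h₀ m (le_of_max_le_left hm))
  have b2 := abs_lt.1 (Real.dist_eq _ l ▸ h₀ n (le_of_max_le_left hn))
  rw [Real.dist_eq, abs_lt]
  constructor <;> linarith

end Vale.Agent.P157
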