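import Vale.Agent.P157.Model

/-!
# P157: comparison of a coupled system with two separate systems
-/

open MeasureTheory ProbabilityTheory Real

namespace Vale.Agent.P157

theorem integral_of_preserving {α β : Type*} [MeasurableSpace α] [MeasurableSpace β]
    {P : Measure α} {Q : Measure β} {φ : α → β} (h : MeasurePreserving φ P Q) {f : β → ℝ}
    (hf : Measurable f) : ∫ x, f (φ x) ∂P = ∫ y, f y ∂Q := by
  rw [← h.map_eq, integral_map h.measurable.aemeasurable hf.aestronglyMeasurable]

variable {U : ℝ → ℝ} {L : ℝ} {ι X A B : Type} [Fintype ι] [Fintype A] [Fintype B]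
  [MeasurableSpace X]

theorem BddWeight.pos (hU : BddWeight U L) (u : ℝ) : 0 < U u :=
  (exp_pos _).trans_le (hU.2.2 u).1

theorem BddWeight.abs_log (hU : BddWeight U L) (u : ℝ) : |log (U u)| ≤ L := by
  rw [abs_le]
  constructor
  · rw [← log_exp (-L)]; exact log_le_log (exp_pos _) (hU.2.2 u).1
  · rw [← log_exp L]; exact log_le_log (hU.pos u) (hU.2.2 u).2

theorem prod_measurable (hU : BddWeight U L) {w : A → X → ι → ℝ} (hw : ∀ a, Measurable (w a)) :
    Measurable fun z : (A → ι → ℝ) × X => ∏ a, U (dot (z.1 a) (w a z.2)) := by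
  refine Finset.measurable_prod _ fun a _ => hU.2.1.measurable.comp ?_
  have hd : Measurable fun z : (ι → ℝ) × (ι → ℝ) => dot z.1 z.2 := continuous_dot.measurable
  have hf : Measurable fun z : (A → ι → ℝ) × X => (z.1 a, w a z.2) :=
    ((measurable_pi_apply a).comp measurable_fst).prodMk ((hw a).comp measurable_snd)
  exact hd.comp hf

theorem prod_bounds (hU : BddWeight U L) (u : A → ℝ) :
    exp (-(L * Fintype.card A)) ≤ ∏ a, U (u a) ∧ ∏ a, U (u a) ≤ exp (L * Fintype.card A) := by
  constructor
  · calc exp (-(L * Fintype.card A)) = ∏ _a : A, exp (-L) := by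
          rw [Finset.prod_const, Finset.card_univ, ← exp_nat_mul]; ring_nf
      _ ≤ _ := Finset.prod_le_prod (fun a _ => (exp_pos _).le) fun a _ => (hU.2.2 _).1
  · calc ∏ a, U (u a) ≤ ∏ _a : A, exp L :=
          Finset.prod_le_prod (fun a _ => (hU.pos _).le) fun a _ => (hU.2.2 _).2
      _ = _ := by rw [Finset.prod_const, Finset.card_univ, ← exp_nat_mul]; ring_nf

theorem prod_integrable (hU : BddWeight U L) (μ : Measure X) [IsFiniteMeasure μ]
    {w : A → X → ι → ℝ} (hw : ∀ a, Measurable (w a)) (G : A → ι → ℝ) :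
    Integrable (fun x => ∏ a, U (dot (G a) (w a x))) μ :=
  Integrable.of_bound ((prod_measurable hU hw).comp
    (measurable_const.prodMk measurable_id)).aestronglyMeasurable (exp (L * Fintype.card A))
    (ae_of_all _ fun x => by
      rw [Real.norm_eq_abs, abs_of_pos ((exp_pos _).trans_le (prod_bounds hU _).1)]
      exact (prod_bounds hU _).2)

theorem avg_bounds (hU : BddWeight U L) (μ : Measure X) [IsProbabilityMeasure μ]
    {w : A → X → ι → ℝ} (hw : ∀ a, Measurable (w a)) (G : A → ι → ℝ) :
    0 < ∫ x, ∏ a, U (dot (G a) (w a x)) ∂μ ∧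
      |log (∫ x, ∏ a, U (dot (G a) (w a x)) ∂μ)| ≤ L * Fintype.card A := by
  have hi := prod_integrable hU μ hw G
  have lo := integral_mono (integrable_const (exp (-(L * Fintype.card A)))) hi
    fun x => (prod_bounds hU _).1
  have up := integral_mono hi (integrable_const (exp (L * Fintype.card A)))
    fun x => (prod_bounds hU _).2
  simp only [integral_const, probReal_univ, one_smul] at lo up
  have h0 := (exp_pos _).trans_le lo
  refine ⟨h0, abs_le.2 ⟨?_, ?_⟩⟩
  · exact (log_exp (-(L * Fintype.card A))).symm.le.trans (log_le_log (exp_pos _) lo)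
  · exact (log_le_log h0 up).trans (log_exp _).le

theorem log_avg_measurable (hU : BddWeight U L) (μ : Measure X) [SFinite μ]
    {w : A → X → ι → ℝ} (hw : ∀ a, Measurable (w a)) :
    Measurable fun G : A → ι → ℝ => log (∫ x, ∏ a, U (dot (G a) (w a x)) ∂μ) :=
  ((prod_measurable hU hw).stronglyMeasurable.integral_prod_right').measurable.log

theorem log_avg_integrable (hU : BddWeight U L) (μ : Measure X) [IsProbabilityMeasure μ]
    {w : A → X → ι → ℝ} (hw : ∀ a, Measurable (w a)) :
    Integrable (fun G : A → ι → ℝ => log (∫ x, ∏ a, U (dot (G a) (w a x)) ∂μ))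
      (Measure.pi fun _ : A => gauss ι) :=
  Integrable.of_bound (log_avg_measurable hU μ hw).aestronglyMeasurable (L * Fintype.card A)
    (ae_of_all _ fun G => by rw [Real.norm_eq_abs]; exact (avg_bounds hU μ hw G).2)

theorem abs_manyStep_le (hU : BddWeight U L) (μ : Measure X) [IsProbabilityMeasure μ]
    {w : A → X → ι → ℝ} (hw : ∀ a, Measurable (w a)) :
    |manyStep U μ w| ≤ L * Fintype.card A := by
  have h := norm_integral_le_of_norm_le_const (μ := Measure.pi fun _ : A => gauss ι)
    (f := fun G => log (∫ x, ∏ a, U (dot (G a) (w a x)) ∂μ)) (C := L * Fintype.card A)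
    (ae_of_all _ fun G => by rw [Real.norm_eq_abs]; exact (avg_bounds hU μ hw G).2)
  simpa [manyStep] using h

theorem manyStep_reindex (hU : BddWeight U L) (μ : Measure X) [SFinite μ] (e : A ≃ B)
    {w : B → X → ι → ℝ} (hw : ∀ b, Measurable (w b)) :
    manyStep U μ (fun a => w (e a)) = manyStep U μ w := by
  rw [manyStep, manyStep, ← integral_of_preserving
    (measurePreserving_piCongrLeft (α := fun _ => ι → ℝ) (fun _ : B => gauss ι) e)
    (log_avg_measurable hU μ hw)]
  refine integral_congr_ae (ae_of_all _ fun G => ?_)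
  simp only
  congr 1
  refine integral_congr_ae (ae_of_all _ fun x => ?_)
  simp only
  rw [← e.prod_comp (fun b => U (dot _ (w b x)))]
  refine Finset.prod_congr rfl fun a _ => ?_
  rw [MeasurableEquiv.coe_piCongrLeft, Equiv.piCongrLeft_apply_apply]

theorem manyStep_split (hU : BddWeight U L) (μ : Measure X) [IsProbabilityMeasure μ]
    {w : A → X → ι → ℝ} {w' : B → X → ι → ℝ} (hw : ∀ a, Measurable (w a))
    (hw' : ∀ b, Measurable (w' b)) :
    manyStep U μ (Sum.elim w w') = ∫ G, (∫ H, log (∫ x, (∏ a, U (dot (G a) (w a x)))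
        * ∏ b, U (dot (H b) (w' b x)) ∂μ) ∂(Measure.pi fun _ : B => gauss ι))
      ∂(Measure.pi fun _ : A => gauss ι) ∧
    Integrable (fun G => ∫ H, log (∫ x, (∏ a, U (dot (G a) (w a x)))
        * ∏ b, U (dot (H b) (w' b x)) ∂μ) ∂(Measure.pi fun _ : B => gauss ι))
      (Measure.pi fun _ : A => gauss ι) := by
  have hws : ∀ c : A ⊕ B, Measurable (Sum.elim w w' c) := by rintro (a | b); exacts [hw a, hw' b]
  let F : (A → ι → ℝ) × (B → ι → ℝ) → ℝ := fun z => log (∫ x, (∏ a, U (dot (z.1 a) (w a x)))
        * ∏ b, U (dot (z.2 b) (w' b x)) ∂μ)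
  let e := MeasurableEquiv.sumPiEquivProdPi (fun _ : A ⊕ B => ι → ℝ)
  have he : MeasurePreserving e (Measure.pi fun _ => gauss ι)
      ((Measure.pi fun _ : A => gauss ι).prod (Measure.pi fun _ : B => gauss ι)) :=
    measurePreserving_sumPiEquivProdPi (fun _ : A ⊕ B => gauss ι)
  have hFe : ∀ G, F (e G) = log (∫ x, ∏ c, U (dot (G c) (Sum.elim w w' c x)) ∂μ) := fun G => by
    simp only [F, Fintype.prod_sum_type]; rfl
  have hi : Integrable F ((Measure.pi fun _ : A => gauss ι).prod (Measure.pi fun _ : B => gauss ι)) := by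
    rw [← he.integrable_comp_emb e.measurableEmbedding]
    exact (log_avg_integrable hU μ hws).congr (ae_of_all _ fun G => (hFe G).symm)
  refine ⟨?_, hi.integral_prod_left⟩
  rw [← integral_prod F hi, ← he.integral_comp e.measurableEmbedding F, manyStep]
  exact integral_congr_ae (ae_of_all _ fun G => (hFe G).symm)

theorem mix_step (hU : BddWeight U L) (hM : MixIneq U) (μ : Measure X) [IsProbabilityMeasure μ]
    {w : A → X → ι → ℝ} {v w₁ w₂ : X → ι → ℝ} {p : ℝ} (hp : 0 ≤ p) (hp1 : p ≤ 1)
    (hw : ∀ a, Measurable (w a)) (hv : Measurable v) (h₁ : Measurable w₁) (h₂ : Measurable w₂)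
    (hvw : ∀ x i, v x i = √p * w₁ x i + √(1 - p) * w₂ x i)
    (hd : ∀ x y i, w₁ x i * w₂ y i = 0) (hn₁ : ∀ᵐ x ∂μ, ∑ i, w₁ x i ^ 2 = 1)
    (hn₂ : ∀ᵐ x ∂μ, ∑ i, w₂ x i ^ 2 = 1) :
    p * manyStep U μ (Sum.elim w (fun _ : Unit => w₁))
      + (1 - p) * manyStep U μ (Sum.elim w (fun _ : Unit => w₂))
      ≤ manyStep U μ (Sum.elim w (fun _ : Unit => v)) := by
  obtain ⟨e1, i1⟩ := manyStep_split hU μ hw (fun _ : Unit => h₁)
  obtain ⟨e2, i2⟩ := manyStep_split hU μ hw (fun _ : Unit => h₂)
  obtain ⟨e0, i0⟩ := manyStep_split hU μ hw (fun _ : Unit => hv)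
  rw [e1, e2, e0, ← integral_const_mul, ← integral_const_mul,
    ← integral_add (i1.const_mul _) (i2.const_mul _)]
  refine integral_mono ((i1.const_mul _).add (i2.const_mul _)) i0 fun G => ?_
  set l : X → ℝ := fun x => ∑ a, log (U (dot (G a) (w a x))) with hl
  have hexp : ∀ x, exp (l x) = ∏ a, U (dot (G a) (w a x)) := fun x => by
    rw [hl, exp_sum]; exact Finset.prod_congr rfl fun a _ => exp_log (hU.pos _)
  have hint : Integrable (fun x => exp (l x)) μ := by
    simpa only [hexp] using prod_integrable hU μ hw G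
  have := isProbabilityMeasure_tilted hint
  have key : ∀ u : X → ι → ℝ, Measurable u →
      ∫ H : Unit → ι → ℝ, log (∫ x, (∏ a, U (dot (G a) (w a x))) * ∏ b, U (dot (H b) (u x)) ∂μ)
        ∂(Measure.pi fun _ : Unit => gauss ι)
      = log (∫ x, ∏ a, U (dot (G a) (w a x)) ∂μ) + oneStep U (μ.tilted l) u := by
    intro u hu
    have hZ := (avg_bounds hU μ hw G).1
    have hm : Measurable fun g => log (∫ x, U (dot g (u x)) ∂μ.tilted l) := by
      refine Measurable.log (StronglyMeasurable.measurable ?_)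
      exact (hU.2.1.measurable.comp (continuous_dot.measurable.comp
        (measurable_fst.prodMk (hu.comp measurable_snd)))).stronglyMeasurable.integral_prod_right'
    have hib : ∀ g, |log (∫ x, U (dot g (u x)) ∂μ.tilted l)| ≤ L := fun g => by
      have := (avg_bounds hU (μ.tilted l) (w := fun _ : Unit => u) (fun _ => hu) (fun _ => g)).2
      simpa using this
    have hio : Integrable (fun H : Unit → ι → ℝ => log (∫ x, U (dot (H ()) (u x)) ∂μ.tilted l))
        (Measure.pi fun _ : Unit => gauss ι) :=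
      Integrable.of_bound (hm.comp (measurable_pi_apply _)).aestronglyMeasurable L
        (ae_of_all _ fun H => hib _)
    rw [oneStep, ← integral_of_preserving (measurePreserving_eval (fun _ : Unit => gauss ι) ()) hm]
    have hc : log (∫ x, ∏ a, U (dot (G a) (w a x)) ∂μ)
        = ∫ _H : Unit → ι → ℝ, log (∫ x, ∏ a, U (dot (G a) (w a x)) ∂μ)
          ∂(Measure.pi fun _ : Unit => gauss ι) := by simp
    rw [hc, ← integral_add (integrable_const _) hio]
    refine integral_congr_ae (ae_of_all _ fun H => ?_)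
    simp only [Fintype.prod_unique]
    have hpos : 0 < ∫ x, U (dot (H ()) (u x)) ∂μ.tilted l := by
      simpa using (avg_bounds hU (μ.tilted l) (w := fun _ : Unit => u) (fun _ => hu) H).1
    rw [← log_mul hZ.ne' hpos.ne', integral_tilted]
    congr 1
    rw [← integral_const_mul]
    refine integral_congr_ae (ae_of_all _ fun x => ?_)
    simp only [hexp, smul_eq_mul]
    field_simp
  simp only
  rw [key v hv, key w₁ h₁, key w₂ h₂]
  linarith [hM ι X (μ.tilted l) v w₁ w₂ p hp hp1 hv h₁ h₂ hvw hd
    ((tilted_absolutelyContinuous μ l).ae_le hn₁) ((tilted_absolutelyContinuous μ l).ae_le hn₂)]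

theorem manyStep_lip (hU : BddWeight U L) (μ : Measure X) [IsProbabilityMeasure μ]
    {v : X → ι → ℝ} (hv : Measurable v) {m m' : ℕ} :
    |manyStep U μ (fun _ : Fin m => v) - manyStep U μ (fun _ : Fin m' => v)|
      ≤ L * |(m : ℝ) - m'| := by
  wlog h : m ≤ m' generalizing m m'
  · rw [abs_sub_comm, abs_sub_comm (m : ℝ)]; exact this (le_of_not_ge h)
  obtain ⟨d, rfl⟩ := Nat.exists_eq_add_of_le h
  have e : manyStep U μ (fun _ : Fin (m + d) => v)
      = manyStep U μ (Sum.elim (fun _ : Fin m => v) (fun _ : Fin d => v)) := by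
    rw [← manyStep_reindex hU μ finSumFinEquiv (fun _ => hv)]
    congr 1; funext c; cases c <;> rfl
  obtain ⟨e1, i1⟩ := manyStep_split hU μ (w := fun _ : Fin m => v) (w' := fun _ : Fin d => v)
    (fun _ => hv) (fun _ => hv)
  rw [e, e1, manyStep, ← integral_sub (log_avg_integrable hU μ fun _ => hv) i1]
  have hb : ∀ G : Fin m → ι → ℝ, ‖log (∫ x, ∏ a, U (dot (G a) (v x)) ∂μ)
      - ∫ H : Fin d → ι → ℝ, log (∫ x, (∏ a, U (dot (G a) (v x))) * ∏ b, U (dot (H b) (v x)) ∂μ)
        ∂(Measure.pi fun _ : Fin d => gauss ι)‖ ≤ L * d := by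
    intro G
    have hW := (avg_bounds hU μ (w := fun _ : Fin m => v) (fun _ => hv) G).1
    have hiW := prod_integrable hU μ (w := fun _ : Fin m => v) (fun _ => hv) G
    have hbd : ∀ H : Fin d → ι → ℝ, |log (∫ x, (∏ a, U (dot (G a) (v x))) * ∏ b, U (dot (H b) (v x)) ∂μ)
        - log (∫ x, ∏ a, U (dot (G a) (v x)) ∂μ)| ≤ L * d := by
      intro H
      have hip : Integrable (fun x => (∏ a, U (dot (G a) (v x))) * ∏ b, U (dot (H b) (v x))) μ := by
        have := prod_integrable hU μ (w := fun _ : Fin m ⊕ Fin d => v) (fun _ => hv) (Sum.elim G H)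
        simpa only [Fintype.prod_sum_type, Sum.elim_inl, Sum.elim_inr] using this
      have lo := integral_mono (hiW.mul_const (exp (-(L * d)))) hip fun x => by
        simpa using mul_le_mul_of_nonneg_left (prod_bounds hU fun b => dot (H b) (v x)).1
          (Finset.prod_nonneg fun a _ => (hU.pos (dot (G a) (v x))).le)
      have up := integral_mono hip (hiW.mul_const (exp (L * d))) fun x => by
        simpa using mul_le_mul_of_nonneg_left (prod_bounds hU fun b => dot (H b) (v x)).2
          (Finset.prod_nonneg fun a _ => (hU.pos (dot (G a) (v x))).le)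
      rw [integral_mul_const] at lo up
      have h1 := log_le_log (mul_pos hW (exp_pos _)) lo
      have h2 := log_le_log ((mul_pos hW (exp_pos _)).trans_le lo) up
      rw [log_mul hW.ne' (exp_pos _).ne', log_exp] at h1 h2
      rw [abs_le]; constructor <;> linarith
    have hi : Integrable (fun H : Fin d → ι → ℝ => log (∫ x, (∏ a, U (dot (G a) (v x)))
        * ∏ b, U (dot (H b) (v x)) ∂μ)) (Measure.pi fun _ : Fin d => gauss ι) := by
      refine Integrable.of_bound ?_ (|log (∫ x, ∏ a, U (dot (G a) (v x)) ∂μ)| + L * d)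
        (ae_of_all _ fun H => ?_)
      · have := log_avg_measurable hU μ (w := fun _ : Fin m ⊕ Fin d => v) (fun _ => hv)
        have := this.comp (MeasurableEquiv.sumPiEquivProdPi (fun _ : Fin m ⊕ Fin d => ι → ℝ)).symm.measurable
        have := this.comp (measurable_const.prodMk measurable_id : Measurable fun H : Fin d → ι → ℝ => (G, H))
        refine Measurable.aestronglyMeasurable ?_
        convert this using 1
        funext H
        simp only [Function.comp_apply, Fintype.prod_sum_type]
        rfl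
      · rw [Real.norm_eq_abs]
        calc _ = |log (∫ x, ∏ a, U (dot (G a) (v x)) ∂μ) + (log (∫ x, (∏ a, U (dot (G a) (v x)))
              * ∏ b, U (dot (H b) (v x)) ∂μ) - log (∫ x, ∏ a, U (dot (G a) (v x)) ∂μ))| := by ring_nf
          _ ≤ _ := (abs_add_le _ _).trans (by linarith [hbd H])
    have hcst : ∀ c : ℝ, c = ∫ _H : Fin d → ι → ℝ, c ∂(Measure.pi fun _ : Fin d => gauss ι) :=
      fun c => by simp
    rw [hcst (log (∫ x, ∏ a, U (dot (G a) (v x)) ∂μ)), ← integral_sub (integrable_const _) hi]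
    refine (norm_integral_le_of_norm_le_const (C := L * d) (ae_of_all _ fun H => ?_)).trans (by simp)
    rw [Real.norm_eq_abs, abs_sub_comm]; exact hbd H
  refine ((Real.norm_eq_abs _).symm.le.trans
    (norm_integral_le_of_norm_le_const (ae_of_all _ hb))).trans ?_
  simp

end Vale.Agent.P157
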