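import Mathlib

/-!
# P157: finite-size pressures of Gaussian perceptrons
-/

open MeasureTheory ProbabilityTheory Real

namespace Vale.Agent.P157

/-- An `M × N` matrix of independent standard Gaussian entries. -/
noncomputable def patterns (M N : ℕ) : Measure (Fin M → Fin N → ℝ) :=
  Measure.pi fun _ => Measure.pi fun _ => gaussianReal 0 1

/-- The expected pressure on the Ising cube with `⌊α N⌋` patterns. -/
noncomputable def pressureCube (f : ℝ → ℝ) (α : ℝ) (N : ℕ) : ℝ :=
  (∫ g, Real.log ((∑ x : Fin N → Bool,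
      Real.exp (∑ a, f ((∑ i, g a i * (if x i then 1 else -1)) / √N))) / 2 ^ N)
    ∂patterns ⌊α * N⌋₊ N) / N

/-- The expected pressure on the sphere of radius `√N` with `⌊α N⌋` patterns. -/
noncomputable def pressureSphere (f : ℝ → ℝ) (α : ℝ) (N : ℕ) : ℝ :=
  (∫ g, Real.log (⨍ x : Metric.sphere (0 : EuclideanSpace ℝ (Fin N)) 1,
      Real.exp (∑ a, f ((∑ i, g a i * (√N * (x : EuclideanSpace ℝ (Fin N)) i)) / √N))
        ∂(volume : Measure (EuclideanSpace ℝ (Fin N))).toSphere)
    ∂patterns ⌊α * N⌋₊ N) / N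

end Vale.Agent.P157
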