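import Vale.Agent.P157.Model

/-!
# P157: replica moments are convex in the overlaps
-/

open MeasureTheory ProbabilityTheory Real

namespace Vale.Agent.P157

variable {ι X : Type} [Fintype ι] [MeasurableSpace X]

theorem dot_measurable {v : X → ι → ℝ} (hv : Measurable v) :
    Measurable fun z : (ι → ℝ) × X => dot z.1 (v z.2) :=
  continuous_dot.measurable.comp (measurable_fst.prodMk (hv.comp measurable_snd))

/-- Symmetrised measure. -/
noncomputable def symNu (ν : Measure ℝ) : Measure ℝ :=
  (2⁻¹ : ENNReal) • (ν + ν.map (fun s => -s))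

instance symNu_finite (ν : Measure ℝ) [IsFiniteMeasure ν] : IsFiniteMeasure (symNu ν) := by
  constructor
  rw [symNu, Measure.smul_apply, Measure.add_apply, smul_eq_mul]
  exact ENNReal.mul_lt_top (by norm_num) (ENNReal.add_lt_top.2 ⟨measure_lt_top _ _, measure_lt_top _ _⟩)

theorem integral_cexp_symNu (ν : Measure ℝ) [IsFiniteMeasure ν] (u : ℝ) :
    ∫ s, Complex.exp ((s * u : ℝ) * Complex.I) ∂symNu ν = ((∫ s, cos (s * u) ∂ν : ℝ) : ℂ) := by
  have hi : ∀ (m : Measure ℝ) [IsFiniteMeasure m],
      Integrable (fun s => Complex.exp ((s * u : ℝ) * Complex.I)) m := fun m _ => by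
    refine Integrable.of_bound (by fun_prop) 1 (ae_of_all _ fun s => ?_)
    rw [Complex.norm_exp_ofReal_mul_I]
  rw [symNu, integral_smul_measure, integral_add_measure (hi _) (hi _),
    integral_map (by fun_prop) (by fun_prop)]
  have h : (∫ s, Complex.exp ((s * u : ℝ) * Complex.I) ∂ν)
      + ∫ s, Complex.exp (((-s) * u : ℝ) * Complex.I) ∂ν = 2 * ∫ s, ((cos (s * u) : ℝ) : ℂ) ∂ν := by
    rw [← integral_add (hi _), ← integral_const_mul]
    · refine integral_congr_ae (ae_of_all _ fun s => ?_)
      push_cast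
      rw [Complex.two_cos]
      ring_nf
    · refine Integrable.of_bound (by fun_prop) 1 (ae_of_all _ fun s => ?_)
      rw [Complex.norm_exp_ofReal_mul_I]
  rw [h, integral_complex_ofReal]
  simp

theorem abs_phi_le (ν : Measure ℝ) [IsFiniteMeasure ν] (u : ℝ) :
    |∫ s, cos (s * u) ∂ν| ≤ ν.real Set.univ := by
  have h := norm_integral_le_of_norm_le_const (μ := ν) (f := fun s => cos (s * u)) (C := 1)
    (ae_of_all _ fun s => by simpa using abs_cos_le_one _)
  simpa using h

theorem continuous_phi (ν : Measure ℝ) [IsFiniteMeasure ν] :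
    Continuous fun u => ∫ s, cos (s * u) ∂ν :=
  continuous_of_dominated (fun u => (by fun_prop : Continuous fun s => cos (s * u)).aestronglyMeasurable)
    (bound := fun _ => (1 : ℝ)) (fun u => ae_of_all _ fun s => by simpa using abs_cos_le_one _)
    (integrable_const _) (ae_of_all _ fun s => by fun_prop)

theorem charFun_gauss (t : ι → ℝ) :
    ∫ g, Complex.exp ((dot g t : ℝ) * Complex.I) ∂gauss ι
      = ((exp (-(∑ i, t i ^ 2) / 2) : ℝ) : ℂ) := by
  have h : ∀ g : ι → ℝ, Complex.exp ((dot g t : ℝ) * Complex.I)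
      = ∏ i, Complex.exp (t i * g i * Complex.I) := fun g => by
    rw [← Complex.exp_sum, dot]
    congr 1
    push_cast
    rw [Finset.sum_mul]
    exact Finset.sum_congr rfl fun i _ => by ring
  simp_rw [h, gauss]
  rw [integral_fintype_prod_eq_prod (f := fun i (y : ℝ) => Complex.exp (t i * y * Complex.I))]
  simp_rw [← charFun_apply_real, charFun_gaussianReal]
  rw [← Complex.exp_sum]
  push_cast
  congr 1
  rw [← Finset.sum_neg_distrib, Finset.sum_div]
  exact Finset.sum_congr rfl fun i _ => by ring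

/-- The frequency vector of `k` replicas. -/
noncomputable def freq {k : ℕ} (v : X → ι → ℝ) (y : Fin k → X × ℝ) : ι → ℝ :=
  fun i => ∑ j, (y j).2 * v (y j).1 i

omit [Fintype ι] in
theorem freq_measurable {k : ℕ} {v : X → ι → ℝ} (hv : Measurable v) :
    Measurable (freq (k := k) v) := by
  refine measurable_pi_lambda _ fun i => ?_
  unfold freq
  fun_prop

/-- Gaussian average of the `k`-th power of the mean field. -/
noncomputable def moment (ν : Measure ℝ) (μ : Measure X) (v : X → ι → ℝ) (k : ℕ) : ℝ :=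
  ∫ g, (∫ x, (∫ s, cos (s * dot g (v x)) ∂ν) ∂μ) ^ k ∂gauss ι

theorem moment_eq (ν : Measure ℝ) [IsFiniteMeasure ν] (μ : Measure X) [IsProbabilityMeasure μ]
    {v : X → ι → ℝ} (hv : Measurable v) (k : ℕ) :
    moment ν μ v k = ∫ y, exp (-(∑ i, freq v y i ^ 2) / 2)
      ∂(Measure.pi fun _ : Fin k => μ.prod (symNu ν)) := by
  apply Complex.ofReal_injective
  set ρ := Measure.pi fun _ : Fin k => μ.prod (symNu ν) with hρ
  have hF : ∀ g : ι → ℝ, (((∫ x, (∫ s, cos (s * dot g (v x)) ∂ν) ∂μ) ^ k : ℝ) : ℂ)
      = ∫ y, Complex.exp ((dot g (freq v y) : ℝ) * Complex.I) ∂ρ := by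
    intro g
    have hg : Measurable fun z : X × ℝ => dot g (v z.1) :=
      (dot_measurable hv).comp (measurable_const.prodMk measurable_fst)
    have h1 : ∫ z, Complex.exp ((z.2 * dot g (v z.1) : ℝ) * Complex.I) ∂μ.prod (symNu ν)
        = ((∫ x, (∫ s, cos (s * dot g (v x)) ∂ν) ∂μ : ℝ) : ℂ) := by
      rw [integral_prod _ (Integrable.of_bound (by fun_prop) 1
        (ae_of_all _ fun z => by rw [Complex.norm_exp_ofReal_mul_I]))]
      simp_rw [integral_cexp_symNu]
      rw [integral_complex_ofReal]
    push_cast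
    rw [← h1]
    have hpow := integral_fintype_prod_eq_pow (ι := Fin k) (μ := μ.prod (symNu ν))
      (fun z : X × ℝ => Complex.exp ((z.2 * dot g (v z.1) : ℝ) * Complex.I))
    rw [Fintype.card_fin] at hpow
    rw [← hpow, hρ]
    refine integral_congr_ae (ae_of_all _ fun y => ?_)
    dsimp only
    rw [← Complex.exp_sum]
    congr 1
    simp only [dot, freq]
    push_cast
    simp only [Finset.mul_sum, Finset.sum_mul]
    rw [Finset.sum_comm]
    exact Finset.sum_congr rfl fun j _ => Finset.sum_congr rfl fun i _ => by ring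
  rw [moment, ← integral_complex_ofReal, ← integral_complex_ofReal]
  simp_rw [hF]
  rw [integral_integral_swap]
  · exact integral_congr_ae (ae_of_all _ fun y => charFun_gauss _)
  · refine Integrable.of_bound ?_ 1 (ae_of_all _ fun z => ?_)
    · have : Measurable fun z : (ι → ℝ) × (Fin k → X × ℝ) => dot z.1 (freq v z.2) :=
        dot_measurable (freq_measurable hv)
      exact (by fun_prop : Measurable fun z : (ι → ℝ) × (Fin k → X × ℝ) =>
        Complex.exp ((dot z.1 (freq v z.2) : ℝ) * Complex.I)).aestronglyMeasurable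
    · rw [Function.uncurry_def]; rw [Complex.norm_exp_ofReal_mul_I]

theorem moment_convex (ν : Measure ℝ) [IsFiniteMeasure ν] (μ : Measure X) [IsProbabilityMeasure μ]
    {v w₁ w₂ : X → ι → ℝ} {p : ℝ} (hp : 0 ≤ p) (hp1 : p ≤ 1) (hv : Measurable v)
    (h₁ : Measurable w₁) (h₂ : Measurable w₂)
    (hvw : ∀ x i, v x i = √p * w₁ x i + √(1 - p) * w₂ x i)
    (hd : ∀ x y i, w₁ x i * w₂ y i = 0) (k : ℕ) :
    moment ν μ v k ≤ p * moment ν μ w₁ k + (1 - p) * moment ν μ w₂ k := by
  rw [moment_eq ν μ hv, moment_eq ν μ h₁, moment_eq ν μ h₂, ← integral_const_mul,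
    ← integral_const_mul]
  have hi : ∀ w : X → ι → ℝ, Measurable w → Integrable (fun y => exp (-(∑ i, freq w y i ^ 2) / 2))
      (Measure.pi fun _ : Fin k => μ.prod (symNu ν)) := fun w hw => by
    refine Integrable.of_bound ?_ 1 (ae_of_all _ fun y => ?_)
    · have := freq_measurable (k := k) hw
      exact (by fun_prop : Measurable fun y : Fin k → X × ℝ =>
        exp (-(∑ i, freq w y i ^ 2) / 2)).aestronglyMeasurable
    · rw [Real.norm_eq_abs, abs_of_pos (exp_pos _), exp_le_one_iff, neg_div, neg_nonpos]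
      positivity
  rw [← integral_add ((hi _ h₁).const_mul _) ((hi _ h₂).const_mul _)]
  refine integral_mono (hi _ hv) (((hi _ h₁).const_mul _).add ((hi _ h₂).const_mul _)) fun y => ?_
  have hsq : ∀ i, freq v y i ^ 2 = p * freq w₁ y i ^ 2 + (1 - p) * freq w₂ y i ^ 2 := fun i => by
    have e : freq v y i = √p * freq w₁ y i + √(1 - p) * freq w₂ y i := by
      simp only [freq, hvw, Finset.mul_sum, ← Finset.sum_add_distrib]
      exact Finset.sum_congr rfl fun j _ => by ring
    have z : freq w₁ y i * freq w₂ y i = 0 := by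
      simp only [freq, Finset.sum_mul, Finset.mul_sum]
      refine Finset.sum_eq_zero fun j _ => Finset.sum_eq_zero fun l _ => ?_
      linear_combination (y j).2 * (y l).2 * hd (y l).1 (y j).1 i
    linear_combination (freq v y i + √p * freq w₁ y i + √(1 - p) * freq w₂ y i) * e
      + (2 * √p * √(1 - p)) * z + freq w₁ y i ^ 2 * sq_sqrt hp
      + freq w₂ y i ^ 2 * sq_sqrt (sub_nonneg.2 hp1)
  have := convexOn_exp.2 (Set.mem_univ (-(∑ i, freq w₁ y i ^ 2) / 2))
    (Set.mem_univ (-(∑ i, freq w₂ y i ^ 2) / 2)) hp (sub_nonneg.2 hp1) (add_sub_cancel p 1)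
  simp only [smul_eq_mul] at this ⊢
  refine le_trans (le_of_eq ?_) this
  congr 1
  simp only [hsq, Finset.sum_add_distrib, ← Finset.mul_sum]
  ring

theorem bddWeight_sub (ν : Measure ℝ) [IsFiniteMeasure ν] {c : ℝ} (hc : ν.real Set.univ < c) :
    ∃ L, BddWeight (fun u => c - ∫ s, cos (s * u) ∂ν) L := by
  have h0 : 0 ≤ ν.real Set.univ := measureReal_nonneg
  refine ⟨max |log (c + ν.real Set.univ)| |log (c - ν.real Set.univ)|, le_max_of_le_left (abs_nonneg _),
    continuous_const.sub (continuous_phi ν), fun u => ⟨?_, ?_⟩⟩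
  all_goals have := abs_le.1 (abs_phi_le ν u)
  · calc exp (-_) ≤ exp (log (c - ν.real Set.univ)) := exp_le_exp.2 (by
          linarith [le_max_right |log (c + ν.real Set.univ)| |log (c - ν.real Set.univ)|,
            neg_abs_le (log (c - ν.real Set.univ))])
      _ ≤ c - ∫ s, cos (s * u) ∂ν := by rw [exp_log (by linarith)]; linarith
  · calc c - ∫ s, cos (s * u) ∂ν ≤ exp (log (c + ν.real Set.univ)) := by
          rw [exp_log (by linarith)]; linarith
      _ ≤ _ := exp_le_exp.2 ((le_abs_self _).trans (le_max_left _ _))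

theorem oneStep_hasSum (ν : Measure ℝ) [IsFiniteMeasure ν] {c : ℝ} (hc : ν.real Set.univ < c)
    (μ : Measure X) [IsProbabilityMeasure μ] {v : X → ι → ℝ} (hv : Measurable v) :
    HasSum (fun n : ℕ => moment ν μ v (n + 1) / (c ^ (n + 1) * (n + 1)))
      (log c - oneStep (fun u => c - ∫ s, cos (s * u) ∂ν) μ v) := by
  set m := ν.real Set.univ with hm
  have h0 : 0 ≤ m := measureReal_nonneg
  have hc0 : 0 < c := h0.trans_lt hc
  have hphi : Measurable fun z : (ι → ℝ) × X => ∫ s, cos (s * dot z.1 (v z.2)) ∂ν :=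
    (continuous_phi ν).measurable.comp (dot_measurable hv)
  set t : (ι → ℝ) → ℝ := fun g => ∫ x, (∫ s, cos (s * dot g (v x)) ∂ν) ∂μ with ht
  have htm : StronglyMeasurable t := hphi.stronglyMeasurable.integral_prod_right'
  have hb : ∀ g, |t g| ≤ m := fun g => by
    have h := norm_integral_le_of_norm_le_const (μ := μ)
      (f := fun x => ∫ s, cos (s * dot g (v x)) ∂ν) (C := m) (ae_of_all _ fun x => by
        simpa using abs_phi_le ν _)
    simpa using h
  have hr : |m / c| < 1 := by rw [abs_of_nonneg (by positivity), div_lt_one hc0]; exact hc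
  have hlog : ∀ g, log c - log (∫ x, (c - ∫ s, cos (s * dot g (v x)) ∂ν) ∂μ)
      = -log (1 - t g / c) := fun g => by
    have hi : Integrable (fun x => ∫ s, cos (s * dot g (v x)) ∂ν) μ :=
      Integrable.of_bound (hphi.comp (measurable_const.prodMk measurable_id)).aestronglyMeasurable m
        (ae_of_all _ fun x => by simpa using abs_phi_le ν _)
    rw [integral_sub (integrable_const c) hi, integral_const, probReal_univ, one_smul]
    have : 0 < c - t g := by linarith [(abs_le.1 (hb g)).2]
    rw [show 1 - t g / c = (c - t g) / c by field_simp, log_div this.ne' hc0.ne']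
    ring
  have hlogi : Integrable (fun g => log (∫ x, (c - ∫ s, cos (s * dot g (v x)) ∂ν) ∂μ)) (gauss ι) := by
    obtain ⟨L, hL0, -, hL⟩ := bddWeight_sub ν hc
    have hmeas : Measurable fun g => ∫ x, (c - ∫ s, cos (s * dot g (v x)) ∂ν) ∂μ :=
      ((measurable_const.sub hphi).stronglyMeasurable.integral_prod_right').measurable
    refine Integrable.of_bound hmeas.log.aestronglyMeasurable L (ae_of_all _ fun g => ?_)
    have hi : Integrable (fun x => c - ∫ s, cos (s * dot g (v x)) ∂ν) μ :=
      Integrable.of_bound ((measurable_const.sub hphi).comp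
        (measurable_const.prodMk measurable_id)).aestronglyMeasurable (exp L) (ae_of_all _ fun x => by
          rw [Real.norm_eq_abs, abs_of_pos ((exp_pos _).trans_le (hL _).1)]; exact (hL _).2)
    have lo := integral_mono (integrable_const (exp (-L))) hi fun x => (hL _).1
    have up := integral_mono hi (integrable_const (exp L)) fun x => (hL _).2
    simp only [integral_const, probReal_univ, one_smul] at lo up
    rw [Real.norm_eq_abs, abs_le]
    constructor
    · rw [← log_exp (-L)]; exact log_le_log (exp_pos _) lo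
    · rw [← log_exp L]; exact log_le_log ((exp_pos _).trans_le lo) up
  have hsum : HasSum (fun n : ℕ => ∫ g, (t g / c) ^ (n + 1) / (n + 1) ∂gauss ι)
      (∫ g, -log (1 - t g / c) ∂gauss ι) := by
    refine hasSum_integral_of_dominated_convergence (fun n _ => (m / c) ^ (n + 1))
      (fun n => (((htm.measurable.div_const c).pow_const _).div_const _).aestronglyMeasurable)
      (fun n => ae_of_all _ fun g => ?_) (ae_of_all _ fun g => ?_) (integrable_const _)
      (ae_of_all _ fun g => hasSum_pow_div_log_of_abs_lt_one ?_)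
    · rw [norm_div, norm_pow, norm_div, Real.norm_eq_abs, Real.norm_eq_abs, Real.norm_eq_abs,
        abs_of_pos hc0, abs_of_pos (by positivity : (0:ℝ) < n + 1)]
      exact (div_le_self (by positivity) (by linarith [n.cast_nonneg (α := ℝ)])).trans
        (pow_le_pow_left₀ (by positivity) (div_le_div_of_nonneg_right (hb g) hc0.le) _)
    · exact (summable_nat_add_iff 1).2 (summable_geometric_of_abs_lt_one hr)
    · rw [abs_div, abs_of_pos hc0, div_lt_one hc0]; exact (hb g).trans_lt hc
  have e1 : ∫ g, -log (1 - t g / c) ∂gauss ι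
      = log c - oneStep (fun u => c - ∫ s, cos (s * u) ∂ν) μ v := by
    simp_rw [← hlog]
    rw [integral_sub (integrable_const _) hlogi, integral_const, probReal_univ, one_smul, oneStep]
  rw [← e1]
  convert hsum using 1
  funext n
  rw [moment, ← integral_div]
  refine integral_congr_ae (ae_of_all _ fun g => ?_)
  simp only [ht, div_pow]
  rw [div_div]

theorem mixIneq_sub (ν : Measure ℝ) [IsFiniteMeasure ν] {c : ℝ} (hc : ν.real Set.univ < c) :
    MixIneq fun u => c - ∫ s, cos (s * u) ∂ν := by
  intro ι X _ _ μ _ v w₁ w₂ p hp hp1 hv h₁ h₂ hvw hd _ _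
  have hc0 : 0 < c := measureReal_nonneg.trans_lt hc
  have := hasSum_le (fun n => ?_) (oneStep_hasSum ν hc μ hv)
    (((oneStep_hasSum ν hc μ h₁).mul_left p).add ((oneStep_hasSum ν hc μ h₂).mul_left (1 - p)))
  · linarith
  · rw [← mul_div_assoc, ← mul_div_assoc, ← add_div]
    exact div_le_div_of_nonneg_right (moment_convex ν μ hp hp1 hv h₁ h₂ hvw hd _) (by positivity)

end Vale.Agent.P157
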