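import Vale.Agent.P157.Compare
import Vale.Agent.P157.Replica

/-!
# P157: a lower bound for the covariance of a function of two correlated normal variables
-/

open MeasureTheory ProbabilityTheory Real

namespace Vale.Agent.P157

variable {ι : Type} [Fintype ι]

theorem measurable_dot_left (v : ι → ℝ) : Measurable fun g : ι → ℝ => dot g v := by
  unfold dot; fun_prop

theorem gauss_map_dot {v : ι → ℝ} (hv : ∑ i, v i ^ 2 = 1) :
    (gauss ι).map (fun g => dot g v) = gaussianReal 0 1 := by
  have : IsProbabilityMeasure ((gauss ι).map fun g => dot g v) :=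
    Measure.isProbabilityMeasure_map (measurable_dot_left v).aemeasurable
  apply Measure.ext_of_charFun
  funext t
  rw [charFun_gaussianReal, charFun_apply_real, integral_map (measurable_dot_left v).aemeasurable
    (by fun_prop)]
  have h := charFun_gauss (fun i => t * v i)
  have e : ∑ i, (t * v i) ^ 2 = t ^ 2 := by
    simp_rw [mul_pow]; rw [← Finset.mul_sum, hv, mul_one]
  rw [e] at h
  refine Eq.trans (integral_congr_ae (ae_of_all _ fun g => ?_)) (h.trans ?_)
  · simp only [dot]
    push_cast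
    simp only [Finset.mul_sum, Finset.sum_mul]
    congr 1
    exact Finset.sum_congr rfl fun i _ => by ring
  · rw [Complex.ofReal_exp]
    congr 1
    push_cast
    ring

theorem integral_dot {v : ι → ℝ} (hv : ∑ i, v i ^ 2 = 1) {f : ℝ → ℝ} (hf : Measurable f) :
    ∫ g, f (dot g v) ∂gauss ι = ∫ x, f x ∂gaussianReal 0 1 :=
  integral_of_preserving ⟨measurable_dot_left v, gauss_map_dot hv⟩ hf

/-- Characteristic function of a pair of linear forms. -/
theorem charFun_pair (a b : ι → ℝ) (s t : ℝ) :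
    ∫ g, Complex.exp ((s * dot g a + t * dot g b : ℝ) * Complex.I) ∂gauss ι
      = ((exp (-(s ^ 2 * ∑ i, a i ^ 2 + 2 * s * t * ∑ i, a i * b i + t ^ 2 * ∑ i, b i ^ 2) / 2) : ℝ) : ℂ) := by
  have e : ∀ g, s * dot g a + t * dot g b = dot g (fun i => s * a i + t * b i) := fun g => by
    simp only [dot, Finset.mul_sum, ← Finset.sum_add_distrib]
    exact Finset.sum_congr rfl fun i _ => by ring
  simp_rw [e]
  rw [charFun_gauss]
  congr 3
  simp only [Finset.mul_sum, ← Finset.sum_add_distrib]
  congr 1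
  exact Finset.sum_congr rfl fun i _ => by ring

theorem pair_eq {Ω Ω' : Type} [MeasurableSpace Ω] [MeasurableSpace Ω'] (P : Measure Ω)
    (Q : Measure Ω') [IsProbabilityMeasure P] [IsProbabilityMeasure Q] {X : Ω → ℝ × ℝ}
    {Y : Ω' → ℝ × ℝ} (hX : Measurable X) (hY : Measurable Y)
    (h : ∀ s t : ℝ, ∫ ω, Complex.exp ((s * (X ω).1 + t * (X ω).2 : ℝ) * Complex.I) ∂P
      = ∫ ω, Complex.exp ((s * (Y ω).1 + t * (Y ω).2 : ℝ) * Complex.I) ∂Q)
    {Φ : ℝ × ℝ → ℝ} (hΦ : Measurable Φ) :
    ∫ ω, Φ (X ω) ∂P = ∫ ω, Φ (Y ω) ∂Q := by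
  have := Measure.isProbabilityMeasure_map (μ := P) hX.aemeasurable
  have := Measure.isProbabilityMeasure_map (μ := Q) hY.aemeasurable
  have e : P.map X = Q.map Y := by
    refine Measure.ext_of_charFunDual (funext fun T => ?_)
    rw [charFunDual_apply, charFunDual_apply, integral_map hX.aemeasurable (by fun_prop),
      integral_map hY.aemeasurable (by fun_prop)]
    have hT : ∀ z : ℝ × ℝ, T z = T (1, 0) * z.1 + T (0, 1) * z.2 := fun z => by
      have : z = z.1 • ((1 : ℝ), (0 : ℝ)) + z.2 • ((0 : ℝ), (1 : ℝ)) := by simp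
      conv_lhs => rw [this]
      rw [map_add, map_smul, map_smul, smul_eq_mul, smul_eq_mul]
      ring
    refine Eq.trans (integral_congr_ae (ae_of_all _ fun ω => ?_))
      ((h (T (1, 0)) (T (0, 1))).trans (integral_congr_ae (ae_of_all _ fun ω => ?_)))
    · simp only [← hT]
    · simp only [← hT]
  rw [← integral_map hX.aemeasurable hΦ.aestronglyMeasurable,
    ← integral_map hY.aemeasurable hΦ.aestronglyMeasurable, e]

theorem pair_gauss {κ : Type} [Fintype κ] {a b : ι → ℝ} {a' b' : κ → ℝ}
    (ha : ∑ i, a i ^ 2 = ∑ i, a' i ^ 2) (hb : ∑ i, b i ^ 2 = ∑ i, b' i ^ 2)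
    (hab : ∑ i, a i * b i = ∑ i, a' i * b' i) {Φ : ℝ × ℝ → ℝ} (hΦ : Measurable Φ) :
    ∫ g, Φ (dot g a, dot g b) ∂gauss ι = ∫ g, Φ (dot g a', dot g b') ∂gauss κ :=
  pair_eq _ _ ((measurable_dot_left a).prodMk (measurable_dot_left b))
    ((measurable_dot_left a').prodMk (measurable_dot_left b'))
    (fun s t => by rw [charFun_pair, charFun_pair, ha, hb, hab]) hΦ

/-- A linear mixture of independent standard normal variables, for positive correlation. -/
theorem even_pair_nonneg {e : ℝ → ℝ} (he : Measurable e) {B : ℝ} (hB : ∀ x, |e x| ≤ B)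
    {a b : ι → ℝ} (ha : ∑ i, a i ^ 2 = 1) (hb : ∑ i, b i ^ 2 = 1) (hq : 0 ≤ ∑ i, a i * b i) :
    (∫ x, e x ∂gaussianReal 0 1) ^ 2 ≤ ∫ g, e (dot g a) * e (dot g b) ∂gauss ι := by
  set q := ∑ i, a i * b i with hqdef
  have hq1 : q ≤ 1 := by
    have : 0 ≤ ∑ i, (a i - b i) ^ 2 := Finset.sum_nonneg fun i _ => sq_nonneg _
    have e : ∑ i, (a i - b i) ^ 2 = ∑ i, a i ^ 2 + ∑ i, b i ^ 2 - 2 * q := by
      rw [hqdef, Finset.mul_sum, ← Finset.sum_add_distrib, ← Finset.sum_sub_distrib]
      exact Finset.sum_congr rfl fun i _ => by ring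
    rw [e, ha, hb] at this
    linarith
  set γ := gaussianReal 0 1
  set r := √(1 - q)
  have hr : r ^ 2 = 1 - q := Real.sq_sqrt (by linarith)
  have hsq : √q ^ 2 = q := Real.sq_sqrt hq
  let Y : ℝ × (ℝ × ℝ) → ℝ × ℝ := fun z => (√q * z.1 + r * z.2.1, √q * z.1 + r * z.2.2)
  have hY : Measurable Y := by simp only [Y]; fun_prop
  have h := pair_eq (gauss ι) (γ.prod (γ.prod γ))
    ((measurable_dot_left a).prodMk (measurable_dot_left b)) hY ?_
    (Φ := fun z => e z.1 * e z.2) (by fun_prop)
  swap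
  · intro s t
    rw [charFun_pair, ha, hb, ← hqdef]
    have e1 : ∀ z : ℝ × (ℝ × ℝ), Complex.exp ((s * (Y z).1 + t * (Y z).2 : ℝ) * Complex.I)
        = Complex.exp (((s + t) * √q : ℝ) * z.1 * Complex.I)
          * (Complex.exp ((s * r : ℝ) * z.2.1 * Complex.I)
            * Complex.exp ((t * r : ℝ) * z.2.2 * Complex.I)) := fun z => by
      rw [← Complex.exp_add, ← Complex.exp_add]
      congr 1
      simp only [Y]
      push_cast
      ring
    simp_rw [e1]
    rw [integral_prod_mul (fun x : ℝ => Complex.exp (((s + t) * √q : ℝ) * x * Complex.I))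
        (fun z : ℝ × ℝ => Complex.exp ((s * r : ℝ) * z.1 * Complex.I)
            * Complex.exp ((t * r : ℝ) * z.2 * Complex.I)),
      integral_prod_mul (fun x : ℝ => Complex.exp ((s * r : ℝ) * x * Complex.I))
        (fun x : ℝ => Complex.exp ((t * r : ℝ) * x * Complex.I)),
      ← charFun_apply_real, ← charFun_apply_real, ← charFun_apply_real, charFun_gaussianReal,
      charFun_gaussianReal, charFun_gaussianReal, ← Complex.exp_add, ← Complex.exp_add,
      Complex.ofReal_exp]
    congr 1
    have h1 : ((√q : ℝ) : ℂ) ^ 2 = (q : ℂ) := by exact_mod_cast hsq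
    have h2 : ((r : ℝ) : ℂ) ^ 2 = 1 - (q : ℂ) := by exact_mod_cast hr
    push_cast
    linear_combination ((s + t : ℂ) ^ 2 / 2) * h1 + ((s : ℂ) ^ 2 / 2 + (t : ℂ) ^ 2 / 2) * h2
  rw [h]
  set F : ℝ → ℝ := fun z => ∫ w, e (√q * z + r * w) ∂γ with hF
  have hB0 : 0 ≤ B := (abs_nonneg _).trans (hB 0)
  have hi2 : Integrable (fun z : ℝ × (ℝ × ℝ) => e (Y z).1 * e (Y z).2) (γ.prod (γ.prod γ)) :=
    Integrable.of_bound ((he.comp hY.fst).mul (he.comp hY.snd)).aestronglyMeasurable (B * B)
      (ae_of_all _ fun z => by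
        rw [Real.norm_eq_abs, abs_mul]
        exact mul_le_mul (hB _) (hB _) (abs_nonneg _) hB0)
  rw [integral_prod _ hi2]
  have e2 : ∀ z, ∫ w : ℝ × ℝ, e (Y (z, w)).1 * e (Y (z, w)).2 ∂γ.prod γ = F z * F z := fun z =>
    integral_prod_mul (fun w => e (√q * z + r * w)) (fun w => e (√q * z + r * w))
  simp only [e2]
  have hFm : Measurable F := by
    have : Measurable fun z : ℝ × ℝ => e (√q * z.1 + r * z.2) := by fun_prop
    exact this.stronglyMeasurable.integral_prod_right'.measurable
  have hFb : ∀ z, ‖F z‖ ≤ B := fun z => by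
    refine (norm_integral_le_of_norm_le_const (C := B) (ae_of_all _ fun w => ?_)).trans (by simp)
    exact hB _
  have hFi : Integrable F γ := Integrable.of_bound hFm.aestronglyMeasurable B (ae_of_all _ hFb)
  have hFF : Integrable (fun z => F z * F z) γ :=
    hFi.mul_bdd hFm.aestronglyMeasurable (ae_of_all _ hFb)
  have hm : ∫ z, F z ∂γ = ∫ x, e x ∂γ := by
    have hv : ∑ i : Bool, (fun i => if i then √q else r) i ^ 2 = 1 := by
      simp [hsq, hr]
    have hg := pair_eq (γ.prod γ) γ (X := fun z : ℝ × ℝ => (√q * z.1 + r * z.2, (0 : ℝ)))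
      (Y := fun x : ℝ => (x, (0 : ℝ))) (by fun_prop) (by fun_prop) ?_
      (Φ := fun z => e z.1) (by fun_prop)
    · simp only at hg
      have hj : Integrable (fun z : ℝ × ℝ => e (√q * z.1 + r * z.2)) (γ.prod γ) :=
        Integrable.of_bound (he.comp (by fun_prop : Measurable fun z : ℝ × ℝ => √q * z.1 + r * z.2)).aestronglyMeasurable B
          (ae_of_all _ fun z => hB _)
      rw [← hg, integral_prod _ hj]
    · intro s t
      have e1 : ∀ z : ℝ × ℝ, Complex.exp ((s * (√q * z.1 + r * z.2) + t * 0 : ℝ) * Complex.I)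
          = Complex.exp ((s * √q : ℝ) * z.1 * Complex.I)
            * Complex.exp ((s * r : ℝ) * z.2 * Complex.I) := fun z => by
        rw [← Complex.exp_add]
        congr 1
        push_cast
        ring
      have e0 : ∀ x : ℝ, Complex.exp ((s * x + t * 0 : ℝ) * Complex.I)
          = Complex.exp ((s : ℝ) * x * Complex.I) := fun x => by
        congr 1; push_cast; ring
      simp_rw [e1, e0]
      rw [integral_prod_mul (fun x : ℝ => Complex.exp ((s * √q : ℝ) * x * Complex.I))
          (fun x : ℝ => Complex.exp ((s * r : ℝ) * x * Complex.I)),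
        ← charFun_apply_real, ← charFun_apply_real, ← charFun_apply_real, charFun_gaussianReal,
        charFun_gaussianReal, charFun_gaussianReal, ← Complex.exp_add]
      congr 1
      have h1 : ((√q : ℝ) : ℂ) ^ 2 = (q : ℂ) := by exact_mod_cast hsq
      have h2 : ((r : ℝ) : ℂ) ^ 2 = 1 - (q : ℂ) := by exact_mod_cast hr
      push_cast
      linear_combination (-(s : ℂ) ^ 2 / 2) * h1 + (-(s : ℂ) ^ 2 / 2) * h2
  rw [← hm]
  set m := ∫ z, F z ∂γ with hmdef
  have h0 : 0 ≤ ∫ z, (F z - m) ^ 2 ∂γ := integral_nonneg fun z => sq_nonneg _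
  have e3 : ∀ z, (F z - m) ^ 2 = F z * F z - 2 * m * F z + m ^ 2 := fun z => by ring
  simp_rw [e3] at h0
  rw [integral_add (f := fun z => F z * F z - 2 * m * F z) ((hFF.sub (hFi.const_mul _))) (integrable_const _),
    integral_sub hFF (hFi.const_mul _), integral_const_mul, ← hmdef] at h0
  simp at h0
  linarith

/-- Even part squared minus odd part squared bounds every pair average from below. -/
theorem pair_lower {h : ℝ → ℝ} (hh : Measurable h) {B : ℝ} (hB : ∀ x, |h x| ≤ B)
    {a b : ι → ℝ} (ha : ∑ i, a i ^ 2 = 1) (hb : ∑ i, b i ^ 2 = 1) :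
    (∫ x, h x ∂gaussianReal 0 1) ^ 2 - ∫ x, ((h x - h (-x)) / 2) ^ 2 ∂gaussianReal 0 1
      ≤ ∫ g, h (dot g a) * h (dot g b) ∂gauss ι := by
  set e : ℝ → ℝ := fun x => (h x + h (-x)) / 2 with hedef
  set o : ℝ → ℝ := fun x => (h x - h (-x)) / 2 with hodef
  have hem : Measurable e := by fun_prop
  have hom : Measurable o := by fun_prop
  have heb : ∀ x, |e x| ≤ B := fun x => by
    have := abs_le.1 (hB x); have := abs_le.1 (hB (-x))
    simp only [hedef]; rw [abs_le]; constructor <;> linarith
  have hob : ∀ x, |o x| ≤ B := fun x => by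
    have := abs_le.1 (hB x); have := abs_le.1 (hB (-x))
    simp only [hodef]; rw [abs_le]; constructor <;> linarith
  have heo : ∀ x, h x = e x + o x := fun x => by simp only [hedef, hodef]; ring
  have hneg : ∀ g c : ι → ℝ, dot g (-c) = -dot g c := fun g c => by simp [dot]
  have hB0 : 0 ≤ B := (abs_nonneg _).trans (hB 0)
  have hi : ∀ {p r : ℝ → ℝ} (c d : ι → ℝ), Measurable p → Measurable r → (∀ x, |p x| ≤ B) →
      (∀ x, |r x| ≤ B) → Integrable (fun g => p (dot g c) * r (dot g d)) (gauss ι) :=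
    fun {p r} c d hp hr hpb hrb => Integrable.of_bound
      ((hp.comp (measurable_dot_left c)).mul (hr.comp (measurable_dot_left d))).aestronglyMeasurable
      (B * B) (ae_of_all _ fun g => by
        rw [Real.norm_eq_abs, abs_mul]
        exact mul_le_mul (hpb _) (hrb _) (abs_nonneg _) hB0)
  have hflip : ∀ {Φ : ℝ × ℝ → ℝ}, Measurable Φ →
      ∫ g, Φ (dot g a, dot g b) ∂gauss ι = ∫ g, Φ (-dot g a, -dot g b) ∂gauss ι := fun {Φ} hΦ => by
    rw [pair_gauss (a' := -a) (b' := -b) (by simp) (by simp) (by simp) hΦ]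
    simp only [hneg]
  have hx1 : ∫ g, e (dot g a) * o (dot g b) ∂gauss ι = 0 := by
    have := hflip (Φ := fun z => e z.1 * o z.2) (by fun_prop)
    have e1 : ∀ x y, e (-x) * o (-y) = -(e x * o y) := fun x y => by
      simp only [hedef, hodef, neg_neg]; ring
    simp only [e1, integral_neg] at this
    linarith
  have hx2 : ∫ g, o (dot g a) * e (dot g b) ∂gauss ι = 0 := by
    have := hflip (Φ := fun z => o z.1 * e z.2) (by fun_prop)
    have e1 : ∀ x y, o (-x) * e (-y) = -(o x * e y) := fun x y => by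
      simp only [hedef, hodef, neg_neg]; ring
    simp only [e1, integral_neg] at this
    linarith
  have hee : (∫ x, e x ∂gaussianReal 0 1) ^ 2 ≤ ∫ g, e (dot g a) * e (dot g b) ∂gauss ι := by
    rcases le_total 0 (∑ i, a i * b i) with hq | hq
    · exact even_pair_nonneg hem heb ha hb hq
    · have := even_pair_nonneg (b := -b) hem heb ha (by simpa using hb) (by simpa using hq)
      have hev : ∀ x, e (-x) = e x := fun x => by simp only [hedef, neg_neg]; ring
      simpa only [hneg, hev] using this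
  have hoo : -(∫ x, o x ^ 2 ∂gaussianReal 0 1) ≤ ∫ g, o (dot g a) * o (dot g b) ∂gauss ι := by
    have h1 := hi a a hom hom hob hob
    have h2 := hi b b hom hom hob hob
    have h3 := integral_mono (((h1.add h2).div_const 2).neg) (hi a b hom hom hob hob) fun g => by
      simp only [Pi.add_apply, Pi.neg_apply]
      nlinarith [sq_nonneg (o (dot g a) + o (dot g b))]
    simp only [Pi.add_apply, Pi.neg_apply, ← sq] at h3
    simp only [← sq] at h1 h2
    rw [integral_neg, integral_div, integral_add h1 h2,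
      integral_dot ha (f := fun x => o x ^ 2) (by fun_prop),
      integral_dot hb (f := fun x => o x ^ 2) (by fun_prop)] at h3
    linarith
  have hmean : ∫ x, h x ∂gaussianReal 0 1 = ∫ x, e x ∂gaussianReal 0 1 := by
    have hih : Integrable h (gaussianReal 0 1) :=
      Integrable.of_bound hh.aestronglyMeasurable B (ae_of_all _ hB)
    have hsym : ∫ x, h (-x) ∂gaussianReal 0 1 = ∫ x, h x ∂gaussianReal 0 1 := by
      refine integral_of_preserving ⟨measurable_neg, ?_⟩ hh
      rw [gaussianReal_map_neg, neg_zero]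
    have hihn : Integrable (fun x => h (-x)) (gaussianReal 0 1) :=
      Integrable.of_bound (hh.comp measurable_neg).aestronglyMeasurable B (ae_of_all _ fun x => hB _)
    simp only [hedef]
    rw [integral_div, integral_add hih hihn, hsym]
    ring
  have hsplit : ∫ g, h (dot g a) * h (dot g b) ∂gauss ι
      = ((∫ g, e (dot g a) * e (dot g b) ∂gauss ι) + ∫ g, e (dot g a) * o (dot g b) ∂gauss ι)
        + ((∫ g, o (dot g a) * e (dot g b) ∂gauss ι) + ∫ g, o (dot g a) * o (dot g b) ∂gauss ι) := by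
    have i1 := hi a b hem hem heb heb
    have i2 := hi a b hem hom heb hob
    have i3 := hi a b hom hem hob heb
    have i4 := hi a b hom hom hob hob
    rw [← integral_add i1 i2, ← integral_add i3 i4,
      ← integral_add (f := fun g => e (dot g a) * e (dot g b) + e (dot g a) * o (dot g b))
        (g := fun g => o (dot g a) * e (dot g b) + o (dot g a) * o (dot g b))
        (i1.add i2) (i3.add i4)]
    refine integral_congr_ae (ae_of_all _ fun g => ?_)
    simp only [heo, Pi.add_apply]
    ring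
  rw [hsplit, hx1, hx2, hmean]
  linarith

end Vale.Agent.P157
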