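import Vale.Agent.P157.Grad
import Vale.Agent.P157.Kernel

/-!
# P157: concavity along the interpolation for finitely many configurations
-/

open MeasureTheory ProbabilityTheory Real

namespace Vale.Agent.P157

variable (P : Potential)

/-- Sum of the error terms in the second derivative. -/
noncomputable def errTerm : ℝ :=
  2 * P.b2 * P.b1 ^ 2 + (exp (4 * P.b0) - 1) * (P.b2 + P.b1 ^ 2) ^ 2
    + 4 * (P.b2 + P.b1 ^ 2) * P.b1 ^ 2 * exp (4 * P.b0)

/-- A bounded function. -/
def Bdd {α : Type} (f : α → ℝ) : Prop := ∃ B, ∀ u, |f u| ≤ B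

theorem Bdd.mul {α : Type} {f g : α → ℝ} (hf : Bdd f) (hg : Bdd g) : Bdd fun u => f u * g u := by
  obtain ⟨A, hA⟩ := hf
  obtain ⟨B, hB⟩ := hg
  exact ⟨A * B, fun u => by
    rw [abs_mul]; exact mul_le_mul (hA u) (hB u) (abs_nonneg _) ((abs_nonneg _).trans (hA u))⟩

theorem Bdd.add {α : Type} {f g : α → ℝ} (hf : Bdd f) (hg : Bdd g) : Bdd fun u => f u + g u := by
  obtain ⟨A, hA⟩ := hf
  obtain ⟨B, hB⟩ := hg
  exact ⟨A + B, fun u => (abs_add_le _ _).trans (add_le_add (hA u) (hB u))⟩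

theorem Bdd.sub {α : Type} {f g : α → ℝ} (hf : Bdd f) (hg : Bdd g) : Bdd fun u => f u - g u := by
  obtain ⟨A, hA⟩ := hf
  obtain ⟨B, hB⟩ := hg
  exact ⟨A + B, fun u => (abs_sub _ _).trans (add_le_add (hA u) (hB u))⟩

theorem Bdd.const {α : Type} (c : ℝ) : Bdd fun _ : α => c := ⟨|c|, fun _ => le_rfl⟩

theorem Bdd.sum {α β : Type} [Fintype β] {f : β → α → ℝ} (hf : ∀ b, Bdd (f b)) :
    Bdd fun u => ∑ b, f b u := by
  choose B hB using hf
  exact ⟨∑ b, B b, fun u => (Finset.abs_sum_le_sum_abs _ _).trans (Finset.sum_le_sum fun b _ => hB b u)⟩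

theorem Bdd.ite {α : Type} {f : α → ℝ} (hf : Bdd f) (c : Prop) [Decidable c] :
    Bdd fun u => if c then f u else 0 := by
  split_ifs
  exacts [hf, Bdd.const 0]

section facts

variable {Y : Type} [Fintype Y]

theorem measurable_zsum : Measurable (zsum P (Y := Y)) := by unfold zsum; fun_prop

theorem measurable_lavg : Measurable (lavg P (Y := Y)) := by unfold lavg zsum; fun_prop

theorem measurable_mvec (x : Y) : Measurable fun u => mvec P u x := by
  unfold mvec post zsum; fun_prop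

theorem measurable_qvec (x : Y) : Measurable fun u => qvec P u x := by
  unfold qvec post zsum; fun_prop

theorem measurable_tvec (x : Y) : Measurable fun u => tvec P u x := by
  unfold tvec post zsum; fun_prop

theorem measurable_rvec (D : Y → Y → ℝ) (x : Y) : Measurable fun u => rvec P D u x :=
  Finset.measurable_sum _ fun y _ => (measurable_mvec P y).const_mul _

theorem measurable_sform (D : Y → Y → ℝ) : Measurable (sform P D) :=
  Finset.measurable_sum _ fun y _ => (measurable_mvec P y).mul (measurable_rvec P D y)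

theorem measurable_hess (x y : Y) : Measurable (hess P x y) := by
  classical
  refine Measurable.sub ?_ ((measurable_mvec P x).mul (measurable_mvec P y))
  split_ifs
  exacts [measurable_qvec P x, measurable_const]

theorem measurable_sgrad (D : Y → Y → ℝ) (z : Y) : Measurable (sgrad P D z) :=
  (((measurable_qvec P z).mul (measurable_rvec P D z)).const_mul 2).sub
    (((measurable_mvec P z).mul (measurable_sform P D)).const_mul 2)

theorem measurable_shess (D : Y → Y → ℝ) (z w : Y) : Measurable (shess P D z w) := by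
  classical
  have := measurable_qvec P z
  have := measurable_qvec P w
  have := measurable_mvec P z
  have := measurable_mvec P w
  have := measurable_rvec P D z
  have := measurable_tvec P z
  have := measurable_sform P D
  have := measurable_sgrad P D w
  unfold shess
  split_ifs <;> fun_prop

variable [Nonempty Y]

theorem abs_post_mul_le (u : Y → ℝ) (x : Y) {a A : ℝ} (h : |a| ≤ A) : |post P u x * a| ≤ A := by
  rw [abs_mul, abs_of_nonneg (post_nonneg P u x)]
  exact (mul_le_mul (post_le_one P u x) h (abs_nonneg _) zero_le_one).trans (one_mul A).le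

theorem abs_c_le (s : ℝ) : |P.f2 s + P.f1 s ^ 2| ≤ P.b2 + P.b1 ^ 2 := by
  refine (abs_add_le _ _).trans (add_le_add (P.h2 s) ?_)
  rw [abs_pow]
  exact pow_le_pow_left₀ (abs_nonneg _) (P.h1 s) 2

theorem bdd_mvec (x : Y) : Bdd fun u => mvec P u x :=
  ⟨P.b1, fun u => abs_post_mul_le P u x (P.h1 _)⟩

theorem bdd_qvec (x : Y) : Bdd fun u => qvec P u x :=
  ⟨P.b2 + P.b1 ^ 2, fun u => abs_post_mul_le P u x (abs_c_le P _)⟩

theorem bdd_tvec (x : Y) : Bdd fun u => tvec P u x := by
  refine ⟨P.b1 * (P.b2 + P.b1 ^ 2) + (P.b3 + 2 * (P.b1 * P.b2)), fun u =>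
    abs_post_mul_le P u x ((abs_add_le _ _).trans (add_le_add ?_ ((abs_add_le _ _).trans (add_le_add (P.h3 _) ?_))))⟩
  · rw [abs_mul]; exact mul_le_mul (P.h1 _) (abs_c_le P _) (abs_nonneg _) P.b1_nonneg
  · rw [mul_assoc, abs_mul, abs_two, abs_mul]
    exact mul_le_mul_of_nonneg_left (mul_le_mul (P.h1 _) (P.h2 _) (abs_nonneg _) P.b1_nonneg) zero_le_two

theorem bdd_rvec (D : Y → Y → ℝ) (x : Y) : Bdd fun u => rvec P D u x :=
  Bdd.sum fun y => (Bdd.const _).mul (bdd_mvec P y)

theorem bdd_sform (D : Y → Y → ℝ) : Bdd (sform P D) :=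
  Bdd.sum fun y => (bdd_mvec P y).mul (bdd_rvec P D y)

theorem bdd_hess (x y : Y) : Bdd (hess P x y) := by
  classical
  exact ((bdd_qvec P x).ite _).sub ((bdd_mvec P x).mul (bdd_mvec P y))

theorem bdd_sgrad (D : Y → Y → ℝ) (z : Y) : Bdd (sgrad P D z) :=
  ((Bdd.const 2).mul ((bdd_qvec P z).mul (bdd_rvec P D z))).sub
    ((Bdd.const 2).mul ((bdd_mvec P z).mul (bdd_sform P D)))

theorem bdd_shess (D : Y → Y → ℝ) (z w : Y) : Bdd (shess P D z w) := by
  classical
  exact ((Bdd.const 2).mul ((((bdd_tvec P z).ite _).sub ((bdd_qvec P z).mul (bdd_mvec P w))).mul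
      (bdd_rvec P D z) |>.add ((bdd_qvec P z).mul (((Bdd.const _).mul (bdd_qvec P w)).sub
        ((bdd_rvec P D z).mul (bdd_mvec P w)))))).sub
    ((Bdd.const 2).mul (((((bdd_qvec P z).ite _).sub ((bdd_mvec P z).mul (bdd_mvec P w))).mul
      (bdd_sform P D)).add ((bdd_mvec P z).mul (bdd_sgrad P D w))))

theorem contract_shess {D : Y → Y → ℝ} (hD : ∀ x y, D x y = D y x) (h0 : ∀ x, D x x = 0) (u : Y → ℝ) :
    ∑ z, ∑ w, D z w * shess P D z w u
      = 2 * (∑ z, ∑ w, D z w ^ 2 * (qvec P u z * qvec P u w))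
        - 8 * (∑ z, qvec P u z * rvec P D u z ^ 2) + 6 * sform P D u ^ 2 := by
  classical
  set q := qvec P u
  set m := mvec P u
  set r := rvec P D u
  set S := sform P D u
  have e : ∀ z w, D z w * shess P D z w u
      = 2 * (D z w ^ 2 * (q z * q w)) - (4 * (q z * r z) - 6 * (m z * S)) * (D z w * m w)
        - 4 * m z * (D z w * (q w * r w)) := by
    intro z w
    rcases eq_or_ne z w with rfl | h
    · simp [h0 z]
    · simp only [shess, sgrad, if_neg h, q, m, r, S]; ring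
  have hr : ∀ z, ∑ w, D z w * m w = r z := fun z => rfl
  simp only [e, Finset.sum_sub_distrib, ← Finset.mul_sum, hr]
  have k1 : ∑ z, (4 * (q z * r z) - 6 * (m z * S)) * r z = 4 * (∑ z, q z * r z ^ 2) - 6 * S ^ 2 := by
    have : S ^ 2 = ∑ z, m z * S * r z := by
      rw [sq]; nth_rewrite 1 [show S = ∑ z, m z * r z from rfl]
      rw [Finset.sum_mul]; exact Finset.sum_congr rfl fun z _ => by ring
    rw [this, Finset.mul_sum, Finset.mul_sum, ← Finset.sum_sub_distrib]
    exact Finset.sum_congr rfl fun z _ => by ring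
  have k2 : ∑ z, 4 * m z * ∑ w, D z w * (q w * r w) = 4 * ∑ z, q z * r z ^ 2 := by
    have := sum_swap hD m (fun w => q w * r w)
    simp only [mul_assoc, ← Finset.mul_sum]
    rw [this]
    congr 1
    exact Finset.sum_congr rfl fun z _ => by rw [hr]; ring
  rw [k1, k2]
  ring

theorem contract_hess {D : Y → Y → ℝ} (h0 : ∀ x, D x x = 0) (u : Y → ℝ) :
    ∑ x, ∑ y, D x y * hess P x y u = -sform P D u := by
  classical
  rw [sform, ← Finset.sum_neg_distrib]
  refine Finset.sum_congr rfl fun x _ => ?_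
  rw [rvec, Finset.mul_sum, ← Finset.sum_neg_distrib]
  refine Finset.sum_congr rfl fun y _ => ?_
  rcases eq_or_ne x y with rfl | h
  · simp [h0 x]
  · simp only [hess, if_neg h]; ring

theorem post_bounds (u : Y → ℝ) (x : Y) :
    exp (-(2 * P.b0)) / Fintype.card Y ≤ post P u x ∧ post P u x ≤ exp (2 * P.b0) / Fintype.card Y := by
  have hc : (0 : ℝ) < Fintype.card Y := by exact_mod_cast Fintype.card_pos
  have lo : exp (-P.b0) * Fintype.card Y ≤ zsum P u := by
    calc exp (-P.b0) * Fintype.card Y = ∑ _y : Y, exp (-P.b0) := by simp [mul_comm]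
      _ ≤ _ := Finset.sum_le_sum fun y _ => exp_le_exp.2 (abs_le.1 (P.h0 _)).1
  have up : zsum P u ≤ exp P.b0 * Fintype.card Y := by
    calc zsum P u ≤ ∑ _y : Y, exp P.b0 := Finset.sum_le_sum fun y _ => exp_le_exp.2 (abs_le.1 (P.h0 _)).2
      _ = _ := by simp [mul_comm]
  have b := abs_le.1 (P.h0 (u x))
  constructor
  · rw [post, div_le_div_iff₀ hc (zsum_pos P u)]
    calc exp (-(2 * P.b0)) * zsum P u ≤ exp (-(2 * P.b0)) * (exp P.b0 * Fintype.card Y) :=
          mul_le_mul_of_nonneg_left up (exp_pos _).le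
      _ = exp (-P.b0) * Fintype.card Y := by rw [← mul_assoc, ← exp_add]; ring_nf
      _ ≤ _ := mul_le_mul_of_nonneg_right (exp_le_exp.2 b.1) hc.le
  · rw [post, div_le_div_iff₀ (zsum_pos P u) hc]
    calc exp (P.f0 (u x)) * Fintype.card Y ≤ exp P.b0 * Fintype.card Y :=
          mul_le_mul_of_nonneg_right (exp_le_exp.2 b.2) hc.le
      _ = exp (2 * P.b0) * (exp (-P.b0) * Fintype.card Y) := by rw [← mul_assoc, ← exp_add]; ring_nf
      _ ≤ _ := mul_le_mul_of_nonneg_left lo (exp_pos _).le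

/-- Pointwise lower bound for the contracted second derivative. -/
theorem shess_lower {D : Y → Y → ℝ} (hD : ∀ x y, D x y = D y x) (h0 : ∀ x, D x x = 0) (u : Y → ℝ) :
    2 * ∑ z, ∑ w, (D z w ^ 2 / (Fintype.card Y : ℝ) ^ 2) * (P.f2 (u z) * P.f2 (u w) - errTerm P)
      ≤ ∑ z, ∑ w, D z w * shess P D z w u := by
  rw [contract_shess P hD h0]
  set n : ℝ := (Fintype.card Y : ℝ)
  have hn : 0 < n := by simp only [n]; exact_mod_cast Fintype.card_pos
  set C := P.b2 + P.b1 ^ 2 with hC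
  have hC0 : 0 ≤ C := add_nonneg P.b2_nonneg (sq_nonneg _)
  set E4 := exp (4 * P.b0) with hE4
  set p := post P u with hp
  have pp : ∀ z w, |p z * p w - 1 / n ^ 2| ≤ (E4 - 1) / n ^ 2 ∧ p z * p w ≤ E4 / n ^ 2 := fun z w => by
    have a := post_bounds P u z
    have b := post_bounds P u w
    have lo := mul_le_mul a.1 b.1 (by positivity) (post_nonneg P u z)
    have up := mul_le_mul a.2 b.2 (post_nonneg P u w) (by positivity)
    have e1 : exp (-(2 * P.b0)) / n * (exp (-(2 * P.b0)) / n) = E4⁻¹ / n ^ 2 := by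
      rw [div_mul_div_comm, ← exp_add, hE4, ← exp_neg]; ring_nf
    have e2 : exp (2 * P.b0) / n * (exp (2 * P.b0) / n) = E4 / n ^ 2 := by
      rw [div_mul_div_comm, ← exp_add, hE4]; ring_nf
    rw [e1] at lo; rw [e2] at up
    have h1 : 1 ≤ E4 := one_le_exp (by linarith [P.b0_nonneg])
    refine ⟨abs_le.2 ⟨?_, ?_⟩, up⟩
    · have h2 : 1 - (E4 - 1) ≤ E4⁻¹ := by
        rw [← one_div, le_div_iff₀ (show 0 < E4 by linarith)]
        nlinarith [sq_nonneg (E4 - 1)]
      have : (1 - (E4 - 1)) / n ^ 2 ≤ p z * p w := (div_le_div_of_nonneg_right h2 (sq_nonneg n)).trans lo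
      rw [sub_div] at this; linarith
    · rw [sub_div]; linarith
  set T := ∑ z, ∑ w, D z w ^ 2 * (p z * p w)
  have hR : |∑ z, qvec P u z * rvec P D u z ^ 2| ≤ C * P.b1 ^ 2 * T := by
    refine (Finset.abs_sum_le_sum_abs _ _).trans ?_
    simp only [T, Finset.mul_sum]
    refine Finset.sum_le_sum fun z _ => ?_
    have hr : rvec P D u z ^ 2 ≤ P.b1 ^ 2 * ∑ w, D z w ^ 2 * p w := by
      have cs := Finset.sum_mul_sq_le_sq_mul_sq Finset.univ (fun w => D z w * √(p w))
        (fun w => P.f1 (u w) * √(p w))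
      have e : ∀ w, D z w * √(p w) * (P.f1 (u w) * √(p w)) = D z w * mvec P u w := fun w => by
        rw [mvec, ← hp]
        linear_combination (D z w * P.f1 (u w)) * Real.mul_self_sqrt (post_nonneg P u w)
      have hl : rvec P D u z = ∑ w, D z w * √(p w) * (P.f1 (u w) * √(p w)) := by
        simp only [rvec, e]
      rw [← hl] at cs
      simp only [mul_pow, hp, Real.sq_sqrt (post_nonneg P u _)] at cs
      rw [hp]
      refine cs.trans ((mul_le_mul_of_nonneg_left ?_ (Finset.sum_nonneg fun w _ =>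
        mul_nonneg (sq_nonneg _) (post_nonneg P u w))).trans (mul_comm _ _).le)
      calc ∑ w, P.f1 (u w) ^ 2 * post P u w ≤ ∑ w, P.b1 ^ 2 * post P u w :=
            Finset.sum_le_sum fun w _ => mul_le_mul_of_nonneg_right
              (sq_le_sq' (abs_le.1 (P.h1 _)).1 (abs_le.1 (P.h1 _)).2) (post_nonneg P u w)
        _ = P.b1 ^ 2 := by rw [← Finset.mul_sum, post_sum, mul_one]
    rw [abs_mul, abs_of_nonneg (sq_nonneg (rvec P D u z)), qvec, abs_mul, abs_of_nonneg (post_nonneg P u z)]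
    calc post P u z * |P.f2 (u z) + P.f1 (u z) ^ 2| * rvec P D u z ^ 2
        ≤ post P u z * C * (P.b1 ^ 2 * ∑ w, D z w ^ 2 * p w) :=
          mul_le_mul (mul_le_mul_of_nonneg_left (abs_c_le P _) (post_nonneg P u z)) hr (sq_nonneg _)
            (mul_nonneg (post_nonneg P u z) hC0)
      _ = _ := by
        simp only [Finset.mul_sum]
        exact Finset.sum_congr rfl fun w _ => by rw [← hp]; ring
  have hT : 4 * (C * P.b1 ^ 2 * T) ≤ ∑ z, ∑ w, D z w ^ 2 / n ^ 2 * (4 * C * P.b1 ^ 2 * E4) := by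
    simp only [T, Finset.mul_sum]
    refine Finset.sum_le_sum fun z _ => Finset.sum_le_sum fun w _ => ?_
    have := mul_le_mul_of_nonneg_left (pp z w).2
      (show 0 ≤ 4 * (C * P.b1 ^ 2 * D z w ^ 2) by positivity)
    calc _ = 4 * (C * P.b1 ^ 2 * D z w ^ 2) * (p z * p w) := by ring
      _ ≤ _ := this.trans (le_of_eq (by ring))
  have hQ : ∀ z w, D z w ^ 2 / n ^ 2 * (P.f2 (u z) * P.f2 (u w) - errTerm P)
      + D z w ^ 2 / n ^ 2 * (4 * C * P.b1 ^ 2 * E4) ≤ D z w ^ 2 * (qvec P u z * qvec P u w) := by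
    intro z w
    set a := P.f2 (u z)
    set b := P.f2 (u w)
    set A := P.f1 (u z) ^ 2
    set B := P.f1 (u w) ^ 2
    have hA : A ≤ P.b1 ^ 2 := sq_le_sq' (abs_le.1 (P.h1 _)).1 (abs_le.1 (P.h1 _)).2
    have hB : B ≤ P.b1 ^ 2 := sq_le_sq' (abs_le.1 (P.h1 _)).1 (abs_le.1 (P.h1 _)).2
    have hcc : |(a + A) * (b + B)| ≤ C ^ 2 := by
      rw [abs_mul, sq]; exact mul_le_mul (abs_c_le P _) (abs_c_le P _) (abs_nonneg _) hC0
    have hab : a * b - 2 * P.b2 * P.b1 ^ 2 ≤ (a + A) * (b + B) := by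
      have ha := abs_le.1 (P.h2 (u z))
      have hb := abs_le.1 (P.h2 (u w))
      nlinarith [mul_le_mul_of_nonneg_left hA P.b2_nonneg, mul_le_mul_of_nonneg_left hB P.b2_nonneg,
        sq_nonneg (P.f1 (u z)), sq_nonneg (P.f1 (u w)),
        mul_nonneg (sq_nonneg (P.f1 (u z))) (sq_nonneg (P.f1 (u w)))]
    have hd := abs_le.1 (le_of_eq (abs_mul (p z * p w - 1 / n ^ 2) ((a + A) * (b + B))))
    have hdb := mul_le_mul (pp z w).1 hcc (abs_nonneg _) ((abs_nonneg _).trans (pp z w).1)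
    have key : (a * b - errTerm P + 4 * C * P.b1 ^ 2 * E4) / n ^ 2
        ≤ p z * p w * ((a + A) * (b + B)) := by
      have h1 := div_le_div_of_nonneg_right hab (sq_nonneg n)
      have e : p z * p w * ((a + A) * (b + B))
          = (a + A) * (b + B) / n ^ 2 + (p z * p w - 1 / n ^ 2) * ((a + A) * (b + B)) := by ring
      have e' : (a * b - errTerm P + 4 * C * P.b1 ^ 2 * E4) / n ^ 2
          = (a * b - 2 * P.b2 * P.b1 ^ 2) / n ^ 2 - (E4 - 1) / n ^ 2 * C ^ 2 := by
        simp only [errTerm, ← hC, ← hE4]; ring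
      rw [e, e']
      linarith [hd.1]
    calc _ = D z w ^ 2 * ((a * b - errTerm P + 4 * C * P.b1 ^ 2 * E4) / n ^ 2) := by ring
      _ ≤ D z w ^ 2 * (p z * p w * ((a + A) * (b + B))) := mul_le_mul_of_nonneg_left key (sq_nonneg _)
      _ = _ := by simp only [qvec, hp, a, b, A, B]; ring
  have hQs := Finset.sum_le_sum (s := Finset.univ) fun z _ => Finset.sum_le_sum (s := Finset.univ) fun w _ => hQ z w
  simp only [Finset.sum_add_distrib] at hQs
  nlinarith [(abs_le.1 hR).2, sq_nonneg (sform P D u)]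

end facts

variable {ι Y : Type} [Fintype ι] [Fintype Y] [Nonempty Y]

/-- Expected log average along the interpolation. -/
noncomputable def hmix (w₁ w₂ : Y → ι → ℝ) (q : ℝ) : ℝ :=
  ∫ g, lavg P (mixDot w₁ w₂ q g) ∂gauss ι

/-- Its first derivative. -/
noncomputable def hmix1 (w₁ w₂ : Y → ι → ℝ) (q : ℝ) : ℝ :=
  -(1 / 2) * ∫ g, sform P (gramDiff w₁ w₂) (mixDot w₁ w₂ q g) ∂gauss ι

/-- Its second derivative. -/
noncomputable def hmix2 (w₁ w₂ : Y → ι → ℝ) (q : ℝ) : ℝ :=
  -(1 / 4) * ∫ g, ∑ z, ∑ w, gramDiff w₁ w₂ z w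
    * shess P (gramDiff w₁ w₂) z w (mixDot w₁ w₂ q g) ∂gauss ι

/-- The two derivatives, the continuity and the end values of the interpolation. -/
theorem finite_derivs {w₁ w₂ : Y → ι → ℝ} (h₁ : ∀ y, ∑ i, w₁ y i ^ 2 = 1)
    (h₂ : ∀ y, ∑ i, w₂ y i ^ 2 = 1) (hd : ∀ x y i, w₁ x i * w₂ y i = 0) :
    (∀ q, 0 < q → q < 1 → HasDerivAt (hmix P w₁ w₂) (hmix1 P w₁ w₂ q) q ∧
      HasDerivAt (hmix1 P w₁ w₂) (hmix2 P w₁ w₂ q) q) ∧
    Continuous (hmix P w₁ w₂) ∧
    hmix P w₁ w₂ 1 = ∫ g, lavg P (fun y => dot g (w₁ y)) ∂gauss ι ∧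
    hmix P w₁ w₂ 0 = ∫ g, lavg P (fun y => dot g (w₂ y)) ∂gauss ι := by
  set D := gramDiff w₁ w₂ with hD
  have hs : ∀ x y, D x y = D y x := gramDiff_symm
  have h0 : ∀ x, D x x = 0 := gramDiff_diag h₁ h₂
  set h : ℝ → ℝ := hmix P w₁ w₂ with hh
  set h' : ℝ → ℝ := hmix1 P w₁ w₂ with hh1
  set h'' : ℝ → ℝ := hmix2 P w₁ w₂ with hh2
  have hint : ∀ (F : (Y → ℝ) → ℝ) q, Measurable F → Bdd F →
      Integrable (fun g => F (mixDot w₁ w₂ q g)) (gauss ι) := fun F q hm hb => by
    obtain ⟨B, hB⟩ := hb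
    exact Integrable.of_bound (hm.comp (measurable_mixDot q)).aestronglyMeasurable B
      (ae_of_all _ fun g => hB _)
  have d1 : ∀ q, 0 < q → q < 1 → HasDerivAt h (h' q) q := by
    intro q hq hq1
    rw [hh, hh1]
    unfold hmix
    obtain ⟨B, hB⟩ : ∃ B, ∀ (u : Y → ℝ), |lavg P u| ≤ B ∧ (∀ x, |mvec P u x| ≤ B)
        ∧ ∀ x y, |hess P x y u| ≤ B := by
      choose Bm hBm using fun x : Y => bdd_mvec P x
      choose Bh hBh using fun z : Y × Y => bdd_hess P z.1 z.2
      have hm0 : ∀ x, 0 ≤ Bm x := fun x => (abs_nonneg _).trans (hBm x 0)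
      have hh0 : ∀ z, 0 ≤ Bh z := fun z => (abs_nonneg _).trans (hBh z 0)
      have hm1 := fun x => Finset.single_le_sum (fun x _ => hm0 x) (Finset.mem_univ x)
      have hh1 := fun z => Finset.single_le_sum (fun z _ => hh0 z) (Finset.mem_univ z)
      have s1 := Finset.sum_nonneg (s := Finset.univ) fun x _ => hm0 x
      have s2 := Finset.sum_nonneg (s := Finset.univ) fun z _ => hh0 z
      exact ⟨P.b0 + ∑ x, Bm x + ∑ z, Bh z, fun u =>
        ⟨by linarith [abs_lavg_le P u], fun x => by linarith [hBm x u, hm1 x, P.b0_nonneg],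
          fun x y => by linarith [hBh (x, y) u, hh1 (x, y), P.b0_nonneg]⟩⟩
    refine (interp (lavg_grad P) (mvec_grad P) (measurable_lavg P) (measurable_mvec P)
      (measurable_hess P) (fun u => (hB u).1) (fun x u => (hB u).2.1 x) (fun x y u => (hB u).2.2 x y)
      hd hq hq1).congr_deriv ?_
    have e : ∀ g, sform P D (mixDot w₁ w₂ q g) = -∑ x, ∑ y, D x y * hess P x y (mixDot w₁ w₂ q g) :=
      fun g => by rw [contract_hess P h0, neg_neg]
    simp only [hmix1, ← hD, e, integral_neg]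
    rw [integral_finsetSum _ fun x _ => integrable_finsetSum _ fun y _ =>
      (hint _ q (measurable_hess P x y) (bdd_hess P x y)).const_mul _, neg_mul_neg, Finset.mul_sum]
    refine Finset.sum_congr rfl fun x _ => ?_
    rw [integral_finsetSum _ fun y _ => (hint _ q (measurable_hess P x y) (bdd_hess P x y)).const_mul _,
      Finset.mul_sum]
    refine Finset.sum_congr rfl fun y _ => ?_
    rw [integral_const_mul]
    ring
  have d2 : ∀ q, 0 < q → q < 1 → HasDerivAt h' (h'' q) q := by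
    intro q hq hq1
    obtain ⟨B, hB⟩ : ∃ B, ∀ (u : Y → ℝ), |sform P D u| ≤ B ∧ (∀ x, |sgrad P D x u| ≤ B)
        ∧ ∀ x y, |shess P D x y u| ≤ B := by
      obtain ⟨Bs, hBs⟩ := bdd_sform P D
      choose Bm hBm using fun x : Y => bdd_sgrad P D x
      choose Bh hBh using fun z : Y × Y => bdd_shess P D z.1 z.2
      have hm0 : ∀ x, 0 ≤ Bm x := fun x => (abs_nonneg _).trans (hBm x 0)
      have hh0 : ∀ z, 0 ≤ Bh z := fun z => (abs_nonneg _).trans (hBh z 0)
      have hm1 := fun x => Finset.single_le_sum (fun x _ => hm0 x) (Finset.mem_univ x)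
      have hh1 := fun z => Finset.single_le_sum (fun z _ => hh0 z) (Finset.mem_univ z)
      have s1 := Finset.sum_nonneg (s := Finset.univ) fun x _ => hm0 x
      have s2 := Finset.sum_nonneg (s := Finset.univ) fun z _ => hh0 z
      have s0 := (abs_nonneg _).trans (hBs 0)
      exact ⟨Bs + ∑ x, Bm x + ∑ z, Bh z, fun u =>
        ⟨by linarith [hBs u], fun x => by linarith [hBm x u, hm1 x],
          fun x y => by linarith [hBh (x, y) u, hh1 (x, y)]⟩⟩
    refine ((interp (sform_grad P hs) (sgrad_grad P hs) (measurable_sform P D) (measurable_sgrad P D)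
      (measurable_shess P D) (fun u => (hB u).1) (fun x u => (hB u).2.1 x) (fun x y u => (hB u).2.2 x y)
      hd hq hq1).const_mul (-(1 / 2))).congr_deriv ?_
    simp only [hh2, hmix2, ← hD]
    rw [integral_finsetSum _ fun x _ => integrable_finsetSum _ fun y _ =>
      (hint _ q (measurable_shess P D x y) (bdd_shess P D x y)).const_mul _, Finset.mul_sum, Finset.mul_sum]
    refine Finset.sum_congr rfl fun x _ => ?_
    rw [integral_finsetSum _ fun y _ => (hint _ q (measurable_shess P D x y) (bdd_shess P D x y)).const_mul _,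
      Finset.mul_sum, Finset.mul_sum]
    refine Finset.sum_congr rfl fun y _ => ?_
    rw [integral_const_mul]
    ring
  have hc : Continuous h := by
    refine continuous_of_dominated
      (fun q => ((measurable_lavg P).comp (measurable_mixDot q)).aestronglyMeasurable)
      (bound := fun _ => P.b0) (fun q => ae_of_all _ fun g => abs_lavg_le P _) (integrable_const _)
      (ae_of_all _ fun g => ?_)
    have hl : Continuous (lavg P (Y := Y)) := by
      refine Continuous.log ?_ fun u =>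
        (div_pos (zsum_pos P u) (by exact_mod_cast Fintype.card_pos)).ne'
      unfold zsum; fun_prop
    exact hl.comp (continuous_mixDot g)
  have e1 : h 1 = ∫ g, lavg P (fun y => dot g (w₁ y)) ∂gauss ι := by
    simp only [hh, hmix]
    congr 1; funext g; congr 1; funext y
    simp [mixDot, mixVec, dot]
  have e2 : h 0 = ∫ g, lavg P (fun y => dot g (w₂ y)) ∂gauss ι := by
    simp only [hh, hmix]
    congr 1; funext g; congr 1; funext y
    simp [mixDot, mixVec, dot]
  exact ⟨fun q hq hq1 => ⟨d1 q hq hq1, d2 q hq hq1⟩, hc, e1, e2⟩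

/-- Concavity in the interpolation parameter, given a nonnegative integrated second derivative. -/
theorem finite_mix_of (hpos : ∀ (D : Y → Y → ℝ), (∀ x y, D x y = D y x) → (∀ x, D x x = 0) →
      ∀ a : Y → ι → ℝ, (∀ y, ∑ i, a y i ^ 2 = 1) →
        0 ≤ ∫ g, ∑ z, ∑ w, D z w * shess P D z w (fun y => dot g (a y)) ∂gauss ι)
    {w₁ w₂ : Y → ι → ℝ} (h₁ : ∀ y, ∑ i, w₁ y i ^ 2 = 1)
    (h₂ : ∀ y, ∑ i, w₂ y i ^ 2 = 1) (hd : ∀ x y i, w₁ x i * w₂ y i = 0) {p : ℝ} (hp : 0 ≤ p)
    (hp1 : p ≤ 1) :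
    p * ∫ g, lavg P (fun y => dot g (w₁ y)) ∂gauss ι
      + (1 - p) * ∫ g, lavg P (fun y => dot g (w₂ y)) ∂gauss ι
      ≤ ∫ g, lavg P (fun y => dot g (mixVec w₁ w₂ p y)) ∂gauss ι := by
  obtain ⟨hder, hc, e1, e2⟩ := finite_derivs P h₁ h₂ hd
  have d3 : ∀ q, 0 < q → q < 1 → hmix2 P w₁ w₂ q ≤ 0 := by
    intro q hq hq1
    have := hpos (gramDiff w₁ w₂) gramDiff_symm (gramDiff_diag h₁ h₂) (mixVec w₁ w₂ q)
      (mixVec_unit h₁ h₂ hd hq.le hq1.le)
    simp only [hmix2]
    unfold mixDot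
    linarith
  have hin : ∀ {q : ℝ}, q ∈ interior (Set.Icc (0:ℝ) 1) → 0 < q ∧ q < 1 := fun {q} hq => by
    rwa [interior_Icc] at hq
  have conc := concaveOn_of_hasDerivWithinAt2_nonpos (convex_Icc 0 1) hc.continuousOn
    (fun q hq => (hder q (hin hq).1 (hin hq).2).1.hasDerivWithinAt)
    (fun q hq => (hder q (hin hq).1 (hin hq).2).2.hasDerivWithinAt)
    (fun q hq => d3 q (hin hq).1 (hin hq).2)
  have key := conc.2 (x := 1) (by simp) (y := 0) (by simp) hp (sub_nonneg.2 hp1) (add_sub_cancel p 1)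
  simp only [smul_eq_mul, mul_one, mul_zero, add_zero] at key
  rw [e1, e2] at key
  exact key

/-- The integrated second derivative is nonnegative for weak potentials. -/
theorem finite_hpos {κ : ℝ} (hK : ∀ a b : ι → ℝ, ∑ i, a i ^ 2 = 1 → ∑ i, b i ^ 2 = 1 →
      κ ≤ ∫ g, P.f2 (dot g a) * P.f2 (dot g b) ∂gauss ι)
    (hE : errTerm P ≤ κ) {D : Y → Y → ℝ} (hs : ∀ x y, D x y = D y x) (h0 : ∀ x, D x x = 0)
    {v : Y → ι → ℝ} (hu : ∀ y, ∑ i, v y i ^ 2 = 1) :
    0 ≤ ∫ g, ∑ z, ∑ w, D z w * shess P D z w (fun y => dot g (v y)) ∂gauss ι := by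
  set n : ℝ := (Fintype.card Y : ℝ)
  have hint : ∀ (F : (Y → ℝ) → ℝ), Measurable F → Bdd F →
      Integrable (fun g => F (fun y => dot g (v y))) (gauss ι) := fun F hm hb => by
    obtain ⟨B, hB⟩ := hb
    exact Integrable.of_bound (hm.comp (measurable_pi_lambda _ fun y =>
      measurable_dot_left (v y))).aestronglyMeasurable B (ae_of_all _ fun g => hB _)
  have hff : ∀ z w, Integrable
      (fun g => P.f2 (dot g (v z)) * P.f2 (dot g (v w))) (gauss ι) := fun z w =>
    hint (fun u => P.f2 (u z) * P.f2 (u w)) (by fun_prop)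
      (Bdd.mul ⟨P.b2, fun u => P.h2 _⟩ ⟨P.b2, fun u => P.h2 _⟩)
  have i1 : ∀ z w, Integrable (fun g => D z w ^ 2 / n ^ 2
      * (P.f2 (dot g (v z)) * P.f2 (dot g (v w)) - errTerm P)) (gauss ι) :=
    fun z w => ((hff z w).sub (integrable_const _)).const_mul _
  have hle := integral_mono
    ((integrable_finsetSum _ fun z _ => integrable_finsetSum _ fun w _ => i1 z w).const_mul 2)
    (integrable_finsetSum _ fun x _ => integrable_finsetSum _ fun y _ =>
      (hint _ (measurable_shess P D x y) (bdd_shess P D x y)).const_mul (D x y))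
    (fun g => shess_lower P hs h0 (fun y => dot g (v y)))
  rw [integral_const_mul, integral_finsetSum _ fun z _ => integrable_finsetSum _ fun w _ => i1 z w] at hle
  have hnn : 0 ≤ ∑ z, ∫ g, ∑ w, D z w ^ 2 / n ^ 2
      * (P.f2 (dot g (v z)) * P.f2 (dot g (v w)) - errTerm P) ∂gauss ι := by
    refine Finset.sum_nonneg fun z _ => ?_
    rw [integral_finsetSum _ fun w _ => i1 z w]
    refine Finset.sum_nonneg fun w _ => ?_
    rw [integral_const_mul]
    refine mul_nonneg (by positivity) ?_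
    rw [integral_sub (hff z w) (integrable_const _), integral_const, probReal_univ, one_smul]
    have := hK _ _ (hu z) (hu w)
    linarith
  linarith

end Vale.Agent.P157
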