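import Vale.Agent.P157.Interp

/-!
# P157: derivatives of a finite log average
-/

open MeasureTheory ProbabilityTheory Real

namespace Vale.Agent.P157

/-- A bounded potential with three bounded derivatives. -/
structure Potential where
  /-- The potential. -/
  f0 : ℝ → ℝ
  /-- First derivative. -/
  f1 : ℝ → ℝ
  /-- Second derivative. -/
  f2 : ℝ → ℝ
  /-- Third derivative. -/
  f3 : ℝ → ℝ
  d0 : ∀ x, HasDerivAt f0 (f1 x) x
  d1 : ∀ x, HasDerivAt f1 (f2 x) x
  d2 : ∀ x, HasDerivAt f2 (f3 x) x
  /-- Bound on the potential. -/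
  b0 : ℝ
  /-- Bound on the first derivative. -/
  b1 : ℝ
  /-- Bound on the second derivative. -/
  b2 : ℝ
  /-- Bound on the third derivative. -/
  b3 : ℝ
  h0 : ∀ x, |f0 x| ≤ b0
  h1 : ∀ x, |f1 x| ≤ b1
  h2 : ∀ x, |f2 x| ≤ b2
  h3 : ∀ x, |f3 x| ≤ b3

variable (P : Potential)

theorem Potential.b0_nonneg : 0 ≤ P.b0 := (abs_nonneg _).trans (P.h0 0)
theorem Potential.b1_nonneg : 0 ≤ P.b1 := (abs_nonneg _).trans (P.h1 0)
theorem Potential.b2_nonneg : 0 ≤ P.b2 := (abs_nonneg _).trans (P.h2 0)
theorem Potential.b3_nonneg : 0 ≤ P.b3 := (abs_nonneg _).trans (P.h3 0)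

@[fun_prop]
theorem Potential.continuous0 : Continuous P.f0 :=
  continuous_iff_continuousAt.2 fun x => (P.d0 x).continuousAt

@[fun_prop]
theorem Potential.measurable0 : Measurable P.f0 := P.continuous0.measurable

@[fun_prop]
theorem Potential.measurable1 : Measurable P.f1 :=
  (continuous_iff_continuousAt.2 fun x => (P.d1 x).continuousAt).measurable

@[fun_prop]
theorem Potential.measurable2 : Measurable P.f2 :=
  (continuous_iff_continuousAt.2 fun x => (P.d2 x).continuousAt).measurable

@[fun_prop]
theorem Potential.measurable3 : Measurable P.f3 := by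
  rw [show P.f3 = deriv P.f2 from funext fun x => ((P.d2 x).deriv).symm]
  exact measurable_deriv P.f2

variable {Y : Type} [Fintype Y]

/-- Normalisation. -/
noncomputable def zsum (u : Y → ℝ) : ℝ := ∑ y, exp (P.f0 (u y))

/-- The log average. -/
noncomputable def lavg (u : Y → ℝ) : ℝ := log (zsum P u / Fintype.card Y)

/-- Posterior weights. -/
noncomputable def post (u : Y → ℝ) (x : Y) : ℝ := exp (P.f0 (u x)) / zsum P u

/-- First derivatives of the log average. -/
noncomputable def mvec (u : Y → ℝ) (x : Y) : ℝ := post P u x * P.f1 (u x)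

/-- Posterior times the second logarithmic derivative of the weight. -/
noncomputable def qvec (u : Y → ℝ) (x : Y) : ℝ := post P u x * (P.f2 (u x) + P.f1 (u x) ^ 2)

/-- Third order term. -/
noncomputable def tvec (u : Y → ℝ) (x : Y) : ℝ :=
  post P u x * (P.f1 (u x) * (P.f2 (u x) + P.f1 (u x) ^ 2) + (P.f3 (u x) + 2 * P.f1 (u x) * P.f2 (u x)))

/-- Contraction of a symmetric matrix with the first derivatives. -/
noncomputable def rvec (D : Y → Y → ℝ) (u : Y → ℝ) (x : Y) : ℝ := ∑ y, D x y * mvec P u y

/-- The quadratic form of the first derivatives. -/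
noncomputable def sform (D : Y → Y → ℝ) (u : Y → ℝ) : ℝ := ∑ x, mvec P u x * rvec P D u x

open Classical in
/-- Second derivatives of the log average. -/
noncomputable def hess (x y : Y) (u : Y → ℝ) : ℝ :=
  (if x = y then qvec P u x else 0) - mvec P u x * mvec P u y

/-- Gradient of the quadratic form. -/
noncomputable def sgrad (D : Y → Y → ℝ) (z : Y) (u : Y → ℝ) : ℝ :=
  2 * (qvec P u z * rvec P D u z) - 2 * (mvec P u z * sform P D u)

open Classical in
/-- Hessian of the quadratic form. -/
noncomputable def shess (D : Y → Y → ℝ) (z w : Y) (u : Y → ℝ) : ℝ :=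
  2 * (((if z = w then tvec P u z else 0) - qvec P u z * mvec P u w) * rvec P D u z
      + qvec P u z * (D z w * qvec P u w - rvec P D u z * mvec P u w))
    - 2 * (((if z = w then qvec P u z else 0) - mvec P u z * mvec P u w) * sform P D u
      + mvec P u z * sgrad P D w u)

variable [Nonempty Y]

theorem zsum_pos (u : Y → ℝ) : 0 < zsum P u :=
  Finset.sum_pos (fun _ _ => exp_pos _) Finset.univ_nonempty

theorem post_nonneg (u : Y → ℝ) (x : Y) : 0 ≤ post P u x :=
  div_nonneg (exp_pos _).le (zsum_pos P u).le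

theorem post_sum (u : Y → ℝ) : ∑ x, post P u x = 1 := by
  simp only [post, ← Finset.sum_div]
  exact div_self (zsum_pos P u).ne'

theorem post_le_one (u : Y → ℝ) (x : Y) : post P u x ≤ 1 := by
  rw [← post_sum P u]
  exact Finset.single_le_sum (fun y _ => post_nonneg P u y) (Finset.mem_univ x)

theorem abs_lavg_le (u : Y → ℝ) : |lavg P u| ≤ P.b0 := by
  have hc : (0 : ℝ) < Fintype.card Y := by exact_mod_cast Fintype.card_pos
  have lo : exp (-P.b0) ≤ zsum P u / Fintype.card Y := by
    rw [le_div_iff₀ hc]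
    calc exp (-P.b0) * Fintype.card Y = ∑ _y : Y, exp (-P.b0) := by simp [mul_comm]
      _ ≤ _ := Finset.sum_le_sum fun y _ => exp_le_exp.2 (abs_le.1 (P.h0 _)).1
  have up : zsum P u / Fintype.card Y ≤ exp P.b0 := by
    rw [div_le_iff₀ hc]
    calc zsum P u ≤ ∑ _y : Y, exp P.b0 := Finset.sum_le_sum fun y _ => exp_le_exp.2 (abs_le.1 (P.h0 _)).2
      _ = _ := by simp [mul_comm]
  rw [lavg, abs_le]
  constructor
  · exact (log_exp (-P.b0)).symm.le.trans (log_le_log (exp_pos _) lo)
  · exact (log_le_log ((exp_pos _).trans_le lo) up).trans (log_exp _).le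

section curve

variable {c : ℝ → Y → ℝ} {d : Y → ℝ} {t : ℝ} (hc : ∀ y, HasDerivAt (fun s => c s y) (d y) t)
include hc

theorem zsum_deriv :
    HasDerivAt (fun s => zsum P (c s)) (zsum P (c t) * ∑ y, mvec P (c t) y * d y) t := by
  refine (HasDerivAt.fun_sum fun y _ => ((P.d0 _).comp t (hc y)).exp).congr_deriv ?_
  have := (zsum_pos P (c t)).ne'
  rw [Finset.mul_sum]
  refine Finset.sum_congr rfl fun y _ => ?_
  simp only [mvec, post, Function.comp]
  field_simp

theorem post_deriv (x : Y) : HasDerivAt (fun s => post P (c s) x)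
    (post P (c t) x * (P.f1 (c t x) * d x - ∑ y, mvec P (c t) y * d y)) t := by
  refine ((((P.d0 _).comp t (hc x)).exp).div (zsum_deriv P hc) (zsum_pos P (c t)).ne').congr_deriv ?_
  have := (zsum_pos P (c t)).ne'
  simp only [post, Function.comp]
  field_simp

theorem mvec_deriv (x : Y) : HasDerivAt (fun s => mvec P (c s) x)
    (qvec P (c t) x * d x - mvec P (c t) x * ∑ y, mvec P (c t) y * d y) t := by
  refine ((post_deriv P hc x).mul ((P.d1 _).comp t (hc x))).congr_deriv ?_
  simp only [qvec, mvec, Function.comp]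
  ring

theorem qvec_deriv (x : Y) : HasDerivAt (fun s => qvec P (c s) x)
    (tvec P (c t) x * d x - qvec P (c t) x * ∑ y, mvec P (c t) y * d y) t := by
  refine ((post_deriv P hc x).mul (((P.d2 _).comp t (hc x)).add
    (((P.d1 _).comp t (hc x)).pow 2))).congr_deriv ?_
  simp only [qvec, tvec, Function.comp, Pi.add_apply, Pi.pow_apply]
  push_cast
  ring

theorem rvec_deriv (D : Y → Y → ℝ) (x : Y) : HasDerivAt (fun s => rvec P D (c s) x)
    ((∑ y, D x y * (qvec P (c t) y * d y)) - rvec P D (c t) x * ∑ y, mvec P (c t) y * d y) t := by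
  refine (HasDerivAt.fun_sum fun y _ => (mvec_deriv P hc y).const_mul (D x y)).congr_deriv ?_
  simp only [rvec, mul_sub, Finset.sum_sub_distrib, Finset.sum_mul, mul_assoc]

end curve

omit [Nonempty Y] in
theorem sum_swap {D : Y → Y → ℝ} (hD : ∀ x y, D x y = D y x) (a b : Y → ℝ) :
    ∑ x, a x * ∑ y, D x y * b y = ∑ y, b y * ∑ x, D y x * a x := by
  simp only [Finset.mul_sum]
  rw [Finset.sum_comm]
  exact Finset.sum_congr rfl fun y _ => Finset.sum_congr rfl fun x _ => by rw [hD x y]; ring

theorem lavg_grad : HasGrad (lavg P (Y := Y)) (fun x u => mvec P u x) := by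
  intro c d t hc
  have hcard : (Fintype.card Y : ℝ) ≠ 0 := by exact_mod_cast Fintype.card_ne_zero
  have hz := (zsum_pos P (c t)).ne'
  refine (((zsum_deriv P hc).div_const _).log (div_ne_zero hz hcard)).congr_deriv ?_
  field_simp

theorem mvec_grad (x : Y) : HasGrad (fun u => mvec P u x) (hess P x) := by
  classical
  intro c d t hc
  refine (mvec_deriv P hc x).congr_deriv ?_
  have e : ∀ y, hess P x y (c t) * d y
      = (if x = y then qvec P (c t) x * d y else 0) - mvec P (c t) x * (mvec P (c t) y * d y) :=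
    fun y => by simp only [hess]; split_ifs <;> ring
  simp only [e, Finset.sum_sub_distrib, ← Finset.mul_sum]
  rw [Finset.sum_ite_eq Finset.univ x (fun y => qvec P (c t) x * d y), if_pos (Finset.mem_univ x)]

theorem sform_grad {D : Y → Y → ℝ} (hD : ∀ x y, D x y = D y x) :
    HasGrad (sform P D) (sgrad P D) := by
  intro c d t hc
  refine (HasDerivAt.fun_sum fun x _ => (mvec_deriv P hc x).mul (rvec_deriv P hc D x)).congr_deriv ?_
  have key : ∑ x, mvec P (c t) x * ∑ y, D x y * (qvec P (c t) y * d y)
      = ∑ y, qvec P (c t) y * d y * rvec P D (c t) y :=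
    sum_swap hD (fun x => mvec P (c t) x) (fun y => qvec P (c t) y * d y)
  set A := ∑ y, mvec P (c t) y * d y with hA
  simp only [mul_sub, sub_mul, Finset.sum_add_distrib, Finset.sum_sub_distrib]
  rw [key]
  have e1 : ∑ x, mvec P (c t) x * A * rvec P D (c t) x = A * sform P D (c t) := by
    rw [sform, Finset.mul_sum]; exact Finset.sum_congr rfl fun x _ => by ring
  have e2 : ∑ x, mvec P (c t) x * (rvec P D (c t) x * A) = A * sform P D (c t) := by
    rw [sform, Finset.mul_sum]; exact Finset.sum_congr rfl fun x _ => by ring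
  rw [e1, e2]
  have e3 : ∀ z, sgrad P D z (c t) * d z
      = 2 * (qvec P (c t) z * d z * rvec P D (c t) z) - 2 * sform P D (c t) * (mvec P (c t) z * d z) :=
    fun z => by simp only [sgrad]; ring
  simp only [e3, Finset.sum_sub_distrib, ← Finset.mul_sum, ← hA]
  have e4 : ∑ x, qvec P (c t) x * d x * rvec P D (c t) x
      = ∑ x, qvec P (c t) x * d x * rvec P D (c t) x := rfl
  ring

theorem sgrad_grad {D : Y → Y → ℝ} (hD : ∀ x y, D x y = D y x) (z : Y) :
    HasGrad (sgrad P D z) (shess P D z) := by
  classical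
  intro c d t hc
  refine ((((qvec_deriv P hc z).mul (rvec_deriv P hc D z)).const_mul 2).sub
    (((mvec_deriv P hc z).mul (sform_grad P hD c d t hc)).const_mul 2)).congr_deriv ?_
  set q := qvec P (c t)
  set m := mvec P (c t)
  set r := rvec P D (c t)
  set S := sform P D (c t)
  set T := tvec P (c t)
  have e : ∀ w, shess P D z w (c t) * d w
      = (if z = w then 2 * (T z * r z - q z * S) * d w else 0) + 2 * q z * (D z w * (q w * d w))
        - (4 * (q z * r z) - 2 * (m z * S)) * (m w * d w) - 2 * m z * (sgrad P D w (c t) * d w) :=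
    fun w => by simp only [shess, q, m, r, S, T]; split_ifs <;> ring
  simp only [e, Finset.sum_sub_distrib, Finset.sum_add_distrib, ← Finset.mul_sum]
  rw [Finset.sum_ite_eq Finset.univ z (fun w => 2 * (T z * r z - q z * S) * d w),
    if_pos (Finset.mem_univ z)]
  ring

end Vale.Agent.P157
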