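import Vale.Agent.P157.Kernel
import Vale.Agent.P150.Gauss

/-!
# P157: interpolation between two orthogonal families of Gaussian fields
-/

open MeasureTheory ProbabilityTheory Real Filter Topology

namespace Vale.Agent.P157

/-- `G` is the gradient of `Φ`, stated along curves. -/
def HasGrad {Y : Type} [Fintype Y] (Φ : (Y → ℝ) → ℝ) (G : Y → (Y → ℝ) → ℝ) : Prop :=
  ∀ (c : ℝ → Y → ℝ) (d : Y → ℝ) (t : ℝ), (∀ y, HasDerivAt (fun s => c s y) (d y) t) →
    HasDerivAt (fun s => Φ (c s)) (∑ y, G y (c t) * d y) t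

variable {ι Y : Type} [Fintype ι] [Fintype Y] {w₁ w₂ : Y → ι → ℝ}

/-- The mixed field. -/
noncomputable def mixVec (w₁ w₂ : Y → ι → ℝ) (p : ℝ) (y : Y) (i : ι) : ℝ :=
  √p * w₁ y i + √(1 - p) * w₂ y i

/-- The mixed field evaluated on a Gaussian vector. -/
noncomputable def mixDot (w₁ w₂ : Y → ι → ℝ) (p : ℝ) (g : ι → ℝ) (y : Y) : ℝ :=
  dot g (mixVec w₁ w₂ p y)

/-- Difference of the two Gram matrices. -/
def gramDiff (w₁ w₂ : Y → ι → ℝ) (x y : Y) : ℝ :=
  ∑ i, w₁ x i * w₁ y i - ∑ i, w₂ x i * w₂ y i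

omit [Fintype Y] in
theorem gramDiff_symm (x y : Y) : gramDiff w₁ w₂ x y = gramDiff w₁ w₂ y x := by
  simp only [gramDiff, mul_comm]

omit [Fintype Y] in
theorem gramDiff_diag (h₁ : ∀ y, ∑ i, w₁ y i ^ 2 = 1) (h₂ : ∀ y, ∑ i, w₂ y i ^ 2 = 1) (y : Y) :
    gramDiff w₁ w₂ y y = 0 := by
  simp only [gramDiff, ← sq, h₁, h₂, sub_self]

theorem measurable_mixDot (p : ℝ) : Measurable fun g => mixDot w₁ w₂ p g :=
  measurable_pi_lambda _ fun _ => measurable_dot_left _

omit [Fintype Y] in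
theorem continuous_mixDot (g : ι → ℝ) : Continuous fun p => mixDot w₁ w₂ p g := by
  unfold mixDot mixVec dot; fun_prop

omit [Fintype Y] in
theorem mixVec_unit (h₁ : ∀ y, ∑ i, w₁ y i ^ 2 = 1) (h₂ : ∀ y, ∑ i, w₂ y i ^ 2 = 1)
    (hd : ∀ x y i, w₁ x i * w₂ y i = 0) {p : ℝ} (hp : 0 ≤ p) (hp1 : p ≤ 1) (y : Y) :
    ∑ i, mixVec w₁ w₂ p y i ^ 2 = 1 := by
  have e : ∀ i, mixVec w₁ w₂ p y i ^ 2 = p * w₁ y i ^ 2 + (1 - p) * w₂ y i ^ 2 := fun i => by
    simp only [mixVec]
    linear_combination w₁ y i ^ 2 * sq_sqrt hp + w₂ y i ^ 2 * sq_sqrt (sub_nonneg.2 hp1)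
      + (2 * √p * √(1 - p)) * hd y y i
  simp only [e, Finset.sum_add_distrib, ← Finset.mul_sum, h₁, h₂]
  ring

/-- The derivative of a Gaussian average along the interpolation. -/
theorem interp {Φ : (Y → ℝ) → ℝ} {G : Y → (Y → ℝ) → ℝ} {H : Y → Y → (Y → ℝ) → ℝ}
    (hΦ : HasGrad Φ G) (hG : ∀ x, HasGrad (G x) (H x)) (mΦ : Measurable Φ)
    (mG : ∀ x, Measurable (G x)) (mH : ∀ x y, Measurable (H x y)) {B : ℝ} (bΦ : ∀ u, |Φ u| ≤ B)
    (bG : ∀ x u, |G x u| ≤ B) (bH : ∀ x y u, |H x y u| ≤ B)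
    (hd : ∀ x y i, w₁ x i * w₂ y i = 0) {p : ℝ} (hp0 : 0 < p) (hp1 : p < 1) :
    HasDerivAt (fun q => ∫ g, Φ (mixDot w₁ w₂ q g) ∂gauss ι)
      (∑ x, ∑ y, gramDiff w₁ w₂ x y / 2 * ∫ g, H x y (mixDot w₁ w₂ p g) ∂gauss ι) p := by
  classical
  set V : ℝ → Y → ι → ℝ := fun q y i => w₁ y i * (1 / (2 * √q)) - w₂ y i * (1 / (2 * √(1 - q)))
    with hV
  set S : Set ℝ := Set.Ioo (p / 2) ((1 + p) / 2) with hS
  have hSn : S ∈ 𝓝 p := Ioo_mem_nhds (by linarith) (by linarith)
  have hco : ∀ i : ι, Integrable (fun g : ι → ℝ => g i) (gauss ι) := fun i => P150.integrable_coord i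
  have hcg : ∀ (i : ι) (f : (ι → ℝ) → ℝ), Measurable f → (∀ g, |f g| ≤ B) →
      Integrable (fun g => g i * f g) (gauss ι) := fun i f hm hb =>
    (hco i).mul_bdd hm.aestronglyMeasurable (ae_of_all _ hb)
  have hder : ∀ g q, q ∈ S → HasDerivAt (fun s => Φ (mixDot w₁ w₂ s g))
      (∑ x, G x (mixDot w₁ w₂ q g) * dot g (V q x)) q := by
    intro g q hq
    refine hΦ _ _ q fun y => ?_
    unfold mixDot mixVec dot
    refine (HasDerivAt.fun_sum fun i _ => ?_)
    have a1 := (hasDerivAt_sqrt (x := q) (by linarith [hq.1])).mul_const (w₁ y i)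
    have a2 := (((hasDerivAt_id q).const_sub 1).sqrt (by simp only [id]; linarith [hq.2])).mul_const (w₂ y i)
    refine ((a1.add a2).const_mul (g i)).congr_deriv ?_
    simp only [hV, id]
    ring
  have hm : ∀ q, Measurable fun g => mixDot w₁ w₂ q g := measurable_mixDot
  set K : Y → ι → ℝ := fun y i => |w₁ y i| * (1 / (2 * √(p / 2))) + |w₂ y i| * (1 / (2 * √((1 - p) / 2))) with hK
  have hF := hasDerivAt_integral_of_dominated_loc_of_deriv_le (μ := gauss ι) (s := S)
    (F := fun q g => Φ (mixDot w₁ w₂ q g))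
    (F' := fun q g => ∑ x, G x (mixDot w₁ w₂ q g) * dot g (V q x))
    (bound := fun g => ∑ x, B * ∑ i, |g i| * K x i) (x₀ := p) hSn
    (Filter.Eventually.of_forall fun q => (mΦ.comp (hm q)).aestronglyMeasurable)
    (Integrable.of_bound (mΦ.comp (hm p)).aestronglyMeasurable B (ae_of_all _ fun g => bΦ _))
    (Measurable.aestronglyMeasurable (Finset.measurable_sum _ fun x _ =>
      ((mG x).comp (hm p)).mul (measurable_dot_left _)))
    (ae_of_all _ fun g q hq => by
      refine (Finset.abs_sum_le_sum_abs _ _).trans (Finset.sum_le_sum fun x _ => ?_)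
      rw [abs_mul]
      refine mul_le_mul (bG _ _) ?_ (abs_nonneg _) ((abs_nonneg _).trans (bG x 0))
      refine (Finset.abs_sum_le_sum_abs _ _).trans (Finset.sum_le_sum fun i _ => ?_)
      rw [abs_mul]
      refine mul_le_mul_of_nonneg_left ?_ (abs_nonneg _)
      have k1 : 1 / (2 * √q) ≤ 1 / (2 * √(p / 2)) :=
        one_div_le_one_div_of_le (by have := Real.sqrt_pos.2 (show 0 < p / 2 by linarith); linarith)
          (by linarith [Real.sqrt_le_sqrt hq.1.le])
      have k2 : 1 / (2 * √(1 - q)) ≤ 1 / (2 * √((1 - p) / 2)) :=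
        one_div_le_one_div_of_le (by have := Real.sqrt_pos.2 (show 0 < (1 - p) / 2 by linarith); linarith)
          (by linarith [Real.sqrt_le_sqrt (show (1 - p) / 2 ≤ 1 - q by linarith [hq.2])])
      simp only [hV, hK]
      refine (abs_sub _ _).trans ?_
      rw [abs_mul, abs_mul, abs_of_nonneg (show (0:ℝ) ≤ 1 / (2 * √q) by positivity),
        abs_of_nonneg (show (0:ℝ) ≤ 1 / (2 * √(1 - q)) by positivity)]
      exact add_le_add (mul_le_mul_of_nonneg_left k1 (abs_nonneg _))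
        (mul_le_mul_of_nonneg_left k2 (abs_nonneg _)))
    (integrable_finsetSum _ fun x _ => (integrable_finsetSum _ fun i _ =>
      ((hco i).abs.mul_const _)).const_mul _)
    (ae_of_all _ fun g q hq => hder g q hq)
  refine hF.2.congr_deriv ?_
  have mGc : ∀ x, Measurable fun g => G x (mixDot w₁ w₂ p g) := fun x => (mG x).comp (hm p)
  have mHc : ∀ x y, Measurable fun g => H x y (mixDot w₁ w₂ p g) := fun x y => (mH x y).comp (hm p)
  have ibp : ∀ x i, ∫ g, g i * G x (mixDot w₁ w₂ p g) ∂gauss ι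
      = ∑ y, mixVec w₁ w₂ p y i * ∫ g, H x y (mixDot w₁ w₂ p g) ∂gauss ι := by
    intro x i
    have h := P150.gauss_ibp (κ := ι) i (φ := fun g => G x (mixDot w₁ w₂ p g))
      (φ' := fun g => ∑ y, H x y (mixDot w₁ w₂ p g) * mixVec w₁ w₂ p y i)
      ((mG x).comp (hm p))
      (Finset.measurable_sum _ fun y _ => ((mH x y).comp (hm p)).mul_const _)
      (B := B) (B' := ∑ y, B * |mixVec w₁ w₂ p y i|) (fun g => bG _ _)
      (fun g => (Finset.abs_sum_le_sum_abs _ _).trans (Finset.sum_le_sum fun y _ => by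
        rw [abs_mul]; exact mul_le_mul_of_nonneg_right (bH _ _ _) (abs_nonneg _)))
      (fun g s => hG x (fun s => mixDot w₁ w₂ p (Function.update g i s)) _ s fun y => by
        unfold mixDot dot
        simp only [← Finset.add_sum_erase _ _ (Finset.mem_univ i), Function.update_self]
        have hrest : ∀ t : ℝ, ∑ j ∈ Finset.univ.erase i, Function.update g i t j * mixVec w₁ w₂ p y j
            = ∑ j ∈ Finset.univ.erase i, g j * mixVec w₁ w₂ p y j := fun t =>
          Finset.sum_congr rfl fun j hj => by rw [Function.update_of_ne (Finset.ne_of_mem_erase hj)]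
        simp only [hrest]
        simpa using ((hasDerivAt_id s).mul_const (mixVec w₁ w₂ p y i)).add_const
          (∑ j ∈ Finset.univ.erase i, g j * mixVec w₁ w₂ p y j))
    refine h.trans ?_
    show ∫ g, _ ∂gauss ι = _
    rw [integral_finsetSum _ fun y _ => (Integrable.of_bound (mHc x y).aestronglyMeasurable
      B (ae_of_all _ fun g => bH _ _ _)).mul_const _]
    exact Finset.sum_congr rfl fun y _ => by rw [integral_mul_const]; ring
  have hI : ∀ x, Integrable (fun g => G x (mixDot w₁ w₂ p g) * dot g (V p x)) (gauss ι) := by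
    intro x
    simp only [dot, Finset.mul_sum]
    exact integrable_finsetSum _ fun i _ =>
      ((hcg i _ (mGc x) fun g => bG _ _).mul_const (V p x i)).congr
        (ae_of_all _ fun g => by ring)
  rw [integral_finsetSum _ fun x _ => hI x]
  refine Finset.sum_congr rfl fun x _ => ?_
  have e : ∀ g, G x (mixDot w₁ w₂ p g) * dot g (V p x)
      = ∑ i, V p x i * (g i * G x (mixDot w₁ w₂ p g)) := fun g => by
    rw [dot, Finset.mul_sum]; exact Finset.sum_congr rfl fun i _ => by ring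
  simp only [e]
  rw [integral_finsetSum _ fun i _ => (hcg i _ (mGc x) fun g => bG _ _).const_mul _]
  simp only [integral_const_mul, ibp, Finset.mul_sum]
  rw [Finset.sum_comm]
  refine Finset.sum_congr rfl fun y _ => ?_
  simp only [← mul_assoc, ← Finset.sum_mul]
  congr 1
  simp only [gramDiff, ← Finset.sum_sub_distrib, Finset.sum_div]
  refine Finset.sum_congr rfl fun i _ => ?_
  have s1 := (Real.sqrt_pos.2 hp0).ne'
  have s2 := (Real.sqrt_pos.2 (show 0 < 1 - p by linarith)).ne'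
  have z1 := hd x y i
  have z2 := hd y x i
  simp only [hV, mixVec]
  field_simp
  linear_combination (√(1 - p) ^ 2) * z1 - (√p ^ 2) * z2

end Vale.Agent.P157
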