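import Vale.Agent.P157.Defs

/-!
# P157: general one-block and multi-block averages
-/

open MeasureTheory ProbabilityTheory Real

namespace Vale.Agent.P157

/-- The dot product on `ι → ℝ`. -/
def dot {ι : Type} [Fintype ι] (g x : ι → ℝ) : ℝ := ∑ i, g i * x i

theorem continuous_dot {ι : Type} [Fintype ι] :
    Continuous fun z : (ι → ℝ) × (ι → ℝ) => dot z.1 z.2 := by
  unfold dot; fun_prop

/-- The standard Gaussian measure on `ι → ℝ`. -/
noncomputable def gauss (ι : Type) [Fintype ι] : Measure (ι → ℝ) :=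
  Measure.pi fun _ => gaussianReal 0 1

instance gauss_isProb (ι : Type) [Fintype ι] : IsProbabilityMeasure (gauss ι) := by
  unfold gauss; infer_instance

/-- A continuous weight with values between `exp (-L)` and `exp L`. -/
def BddWeight (U : ℝ → ℝ) (L : ℝ) : Prop :=
  0 ≤ L ∧ Continuous U ∧ ∀ u, exp (-L) ≤ U u ∧ U u ≤ exp L

/-- One constraint: the expected log of the average weight. -/
noncomputable def oneStep {ι X : Type} [Fintype ι] [MeasurableSpace X] (U : ℝ → ℝ)
    (μ : Measure X) (v : X → ι → ℝ) : ℝ :=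
  ∫ g, Real.log (∫ x, U (dot g (v x)) ∂μ) ∂gauss ι

/-- Several constraints, each with its own field. -/
noncomputable def manyStep {ι X A : Type} [Fintype ι] [Fintype A] [MeasurableSpace X]
    (U : ℝ → ℝ) (μ : Measure X) (w : A → X → ι → ℝ) : ℝ :=
  ∫ G, Real.log (∫ x, ∏ a, U (dot (G a) (w a x)) ∂μ) ∂(Measure.pi fun _ : A => gauss ι)

/-- `U` makes the expected log concave along two orthogonal blocks of unit fields. -/
def MixIneq (U : ℝ → ℝ) : Prop :=
  ∀ (ι X : Type) [Fintype ι] [MeasurableSpace X] (μ : Measure X) [IsProbabilityMeasure μ]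
    (v w₁ w₂ : X → ι → ℝ) (p : ℝ), 0 ≤ p → p ≤ 1 → Measurable v → Measurable w₁ → Measurable w₂ →
    (∀ x i, v x i = √p * w₁ x i + √(1 - p) * w₂ x i) → (∀ x y i, w₁ x i * w₂ y i = 0) →
    (∀ᵐ x ∂μ, ∑ i, w₁ x i ^ 2 = 1) → (∀ᵐ x ∂μ, ∑ i, w₂ x i ^ 2 = 1) →
    p * oneStep U μ w₁ + (1 - p) * oneStep U μ w₂ ≤ oneStep U μ v

end Vale.Agent.P157
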