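import Vale.Agent.P157.Sampling
import Vale.Agent.P157.Replica

/-!
# P157: strong concavity for constants minus positive definite functions, and its stability
-/

open MeasureTheory ProbabilityTheory Real

namespace Vale.Agent.P157

section algebra

variable {Y : Type} [Fintype Y]

/-- The contracted second derivative as a function of the two vectors it uses. -/
def cform (D : Y → Y → ℝ) (m q : Y → ℝ) : ℝ :=
  2 * (∑ z, ∑ w, D z w ^ 2 * (q z * q w)) - 8 * (∑ z, q z * (∑ w, D z w * m w) ^ 2)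
    + 6 * (∑ z, m z * ∑ w, D z w * m w) ^ 2

variable [Nonempty Y]

/-- The contracted second derivative is Lipschitz in the two vectors at scale one over the size. -/
theorem cform_lip (D : Y → Y → ℝ) {m m' q q' : Y → ℝ} {K δ : ℝ}
    (hm : ∀ y, |m y| ≤ K / Fintype.card Y) (hm' : ∀ y, |m' y| ≤ K / Fintype.card Y)
    (hq : ∀ y, |q y| ≤ K / Fintype.card Y) (hq' : ∀ y, |q' y| ≤ K / Fintype.card Y)
    (dm : ∀ y, |m y - m' y| ≤ δ * (K / Fintype.card Y))
    (dq : ∀ y, |q y - q' y| ≤ δ * (K / Fintype.card Y)) :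
    |cform D m q - cform D m' q'|
      ≤ (4 * K ^ 2 + 24 * K ^ 3 + 24 * K ^ 4) * δ
        * ((∑ z, ∑ w, D z w ^ 2) / (Fintype.card Y : ℝ) ^ 2) := by
  obtain ⟨y0⟩ := ‹Nonempty Y›
  set n : ℝ := (Fintype.card Y : ℝ) with hn
  have hn0 : 0 < n := by rw [hn]; exact_mod_cast Fintype.card_pos
  set k := K / n with hk
  have hk0 : 0 ≤ k := (abs_nonneg _).trans (hm y0)
  have hK : K = k * n := by rw [hk]; field_simp
  have hdk : 0 ≤ δ * k := (abs_nonneg _).trans (dm y0)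
  set Q := ∑ z, ∑ w, D z w ^ 2 with hQ
  have t1 : |∑ z, ∑ w, D z w ^ 2 * (q z * q w) - ∑ z, ∑ w, D z w ^ 2 * (q' z * q' w)|
      ≤ 2 * (δ * k) * k * Q := by
    rw [hQ, Finset.mul_sum, ← Finset.sum_sub_distrib]
    refine (Finset.abs_sum_le_sum_abs _ _).trans (Finset.sum_le_sum fun z _ => ?_)
    rw [Finset.mul_sum, ← Finset.sum_sub_distrib]
    refine (Finset.abs_sum_le_sum_abs _ _).trans (Finset.sum_le_sum fun w _ => ?_)
    rw [← mul_sub, abs_mul, abs_of_nonneg (sq_nonneg (D z w)), mul_comm]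
    refine mul_le_mul_of_nonneg_right ?_ (sq_nonneg _)
    rw [show q z * q w - q' z * q' w = (q z - q' z) * q w + q' z * (q w - q' w) by ring]
    refine (abs_add_le _ _).trans ?_
    rw [abs_mul, abs_mul]
    have a := mul_le_mul (dq z) (hq w) (abs_nonneg _) hdk
    have b := mul_le_mul (hq' z) (dq w) (abs_nonneg _) hk0
    linarith
  set r : Y → ℝ := fun z => ∑ w, D z w * m w with hr
  set r' : Y → ℝ := fun z => ∑ w, D z w * m' w with hr'
  set A : Y → ℝ := fun z => ∑ w, |D z w| with hA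
  have hA0 : ∀ z, 0 ≤ A z := fun z => Finset.sum_nonneg fun w _ => abs_nonneg _
  have hrow : ∀ (v : Y → ℝ) (c : ℝ), (∀ y, |v y| ≤ c) → ∀ z, |∑ w, D z w * v w| ≤ c * A z := by
    intro v c hv z
    rw [hA, Finset.mul_sum]
    refine (Finset.abs_sum_le_sum_abs _ _).trans (Finset.sum_le_sum fun w _ => ?_)
    rw [abs_mul, mul_comm]
    exact mul_le_mul_of_nonneg_right (hv w) (abs_nonneg _)
  have r1 : ∀ z, |r z| ≤ k * A z := hrow m k hm
  have r2 : ∀ z, |r' z| ≤ k * A z := hrow m' k hm'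
  have r3 : ∀ z, |r z - r' z| ≤ δ * k * A z := fun z => by
    have := hrow (fun w => m w - m' w) _ dm z
    simpa only [hr, hr', mul_sub, Finset.sum_sub_distrib] using this
  have hA2 : ∀ z, A z ^ 2 ≤ n * ∑ w, D z w ^ 2 := fun z => by
    have := sq_sum_le_card_mul_sum_sq (s := Finset.univ) (f := fun w => |D z w|)
    simpa only [sq_abs, Finset.card_univ] using this
  have t2 : |∑ z, q z * r z ^ 2 - ∑ z, q' z * r' z ^ 2| ≤ 3 * (δ * k) * k ^ 2 * (n * Q) := by
    rw [hQ, Finset.mul_sum, Finset.mul_sum, ← Finset.sum_sub_distrib]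
    refine (Finset.abs_sum_le_sum_abs _ _).trans (Finset.sum_le_sum fun z _ => ?_)
    refine le_trans ?_ (mul_le_mul_of_nonneg_left (hA2 z) (mul_nonneg (mul_nonneg (by norm_num) hdk)
      (sq_nonneg k)))
    rw [show q z * r z ^ 2 - q' z * r' z ^ 2
      = (q z - q' z) * r z ^ 2 + q' z * ((r z - r' z) * (r z + r' z)) by ring]
    refine (abs_add_le _ _).trans ?_
    rw [abs_mul, abs_mul, abs_mul, abs_pow]
    have a := mul_le_mul (dq z) (pow_le_pow_left₀ (abs_nonneg _) (r1 z) 2) (by positivity) hdk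
    have s : |r z + r' z| ≤ 2 * (k * A z) := (abs_add_le _ _).trans (by linarith [r1 z, r2 z])
    have b := mul_le_mul (hq' z)
      (mul_le_mul (r3 z) s (abs_nonneg _) (mul_nonneg hdk (hA0 z))) (by positivity) hk0
    calc _ ≤ δ * k * (k * A z) ^ 2 + k * (δ * k * A z * (2 * (k * A z))) := add_le_add a b
      _ = _ := by ring
  have hT : (∑ z, A z) ^ 2 ≤ n * (n * Q) := by
    refine sq_sum_le_card_mul_sum_sq.trans ?_
    rw [Finset.card_univ, ← hn]
    refine mul_le_mul_of_nonneg_left ?_ hn0.le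
    rw [hQ, Finset.mul_sum]
    exact Finset.sum_le_sum fun z _ => hA2 z
  set W := ∑ z, A z with hW
  have hW0 : 0 ≤ W := Finset.sum_nonneg fun z _ => hA0 z
  have sb : ∀ (v s : Y → ℝ) (c c' : ℝ), (∀ z, |v z| ≤ c) → (∀ z, |s z| ≤ c' * A z) → 0 ≤ c →
      |∑ z, v z * s z| ≤ c * c' * W := by
    intro v s c c' hv hs hc
    rw [hW, Finset.mul_sum]
    refine (Finset.abs_sum_le_sum_abs _ _).trans (Finset.sum_le_sum fun z _ => ?_)
    rw [abs_mul, mul_assoc]
    exact mul_le_mul (hv z) (hs z) (abs_nonneg _) hc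
  have s1 := sb m r k k hm r1 hk0
  have s2 := sb m' r' k k hm' r2 hk0
  have s3 : |∑ z, m z * r z - ∑ z, m' z * r' z| ≤ 2 * (δ * k) * k * W := by
    have e : ∑ z, m z * r z - ∑ z, m' z * r' z
        = ∑ z, (m z - m' z) * r z + ∑ z, m' z * (r z - r' z) := by
      rw [← Finset.sum_sub_distrib, ← Finset.sum_add_distrib]
      exact Finset.sum_congr rfl fun z _ => by ring
    rw [e]
    refine (abs_add_le _ _).trans ?_
    have a := sb (fun z => m z - m' z) r (δ * k) k dm r1 hdk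
    have b := sb m' (fun z => r z - r' z) k (δ * k) hm' r3 hk0
    linarith
  have t3 : |(∑ z, m z * r z) ^ 2 - (∑ z, m' z * r' z) ^ 2| ≤ 4 * (δ * k) * k ^ 3 * (n * (n * Q)) := by
    refine le_trans ?_ (mul_le_mul_of_nonneg_left hT (mul_nonneg (mul_nonneg (by norm_num) hdk)
      (by positivity)))
    rw [sq_sub_sq, abs_mul]
    have s : |∑ z, m z * r z + ∑ z, m' z * r' z| ≤ 2 * (k * k * W) :=
      (abs_add_le _ _).trans (by linarith)
    calc _ ≤ 2 * (k * k * W) * (2 * (δ * k) * k * W) :=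
          mul_le_mul s s3 (abs_nonneg _) (by positivity)
      _ = _ := by ring
  have e : cform D m q - cform D m' q'
      = 2 * (∑ z, ∑ w, D z w ^ 2 * (q z * q w) - ∑ z, ∑ w, D z w ^ 2 * (q' z * q' w))
        - 8 * (∑ z, q z * r z ^ 2 - ∑ z, q' z * r' z ^ 2)
        + 6 * ((∑ z, m z * r z) ^ 2 - (∑ z, m' z * r' z) ^ 2) := by
    simp only [cform, hr, hr']; ring
  have a1 := abs_le.1 t1
  have a2 := abs_le.1 t2
  have a3 := abs_le.1 t3
  have f : (4 * K ^ 2 + 24 * K ^ 3 + 24 * K ^ 4) * δ * (Q / n ^ 2)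
      = 2 * (2 * (δ * k) * k * Q) + 8 * (3 * (δ * k) * k ^ 2 * (n * Q))
        + 6 * (4 * (δ * k) * k ^ 3 * (n * (n * Q))) := by
    rw [hK]; field_simp; ring
  rw [e, f, abs_le]
  constructor <;> linarith

end algebra

section near

variable (P Q : Potential) {Y : Type} [Fintype Y] [Nonempty Y]

/-- The constant in the Lipschitz bound for posterior vectors. -/
noncomputable def lipK (B : ℝ) : ℝ := exp (4 * B) * (1 + 4 * B + 2 * B ^ 2)

theorem vectors_lip {B δ : ℝ} (hP : P.b0 ≤ B ∧ P.b1 ≤ B ∧ P.b2 ≤ B)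
    (hQ : Q.b0 ≤ B ∧ Q.b1 ≤ B ∧ Q.b2 ≤ B)
    (d0 : ∀ x, |P.f0 x - Q.f0 x| ≤ δ) (d1 : ∀ x, |P.f1 x - Q.f1 x| ≤ δ)
    (d2 : ∀ x, |P.f2 x - Q.f2 x| ≤ δ) (hδB : δ ≤ B) (u : Y → ℝ) (y : Y) :
    |mvec P u y| ≤ lipK B / Fintype.card Y ∧ |mvec Q u y| ≤ lipK B / Fintype.card Y ∧
    |qvec P u y| ≤ lipK B / Fintype.card Y ∧ |qvec Q u y| ≤ lipK B / Fintype.card Y ∧
    |mvec P u y - mvec Q u y| ≤ δ * (lipK B / Fintype.card Y) ∧
    |qvec P u y - qvec Q u y| ≤ δ * (lipK B / Fintype.card Y) := by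
  set n : ℝ := (Fintype.card Y : ℝ) with hn
  have hn0 : 0 < n := by rw [hn]; exact_mod_cast Fintype.card_pos
  have hδ : 0 ≤ δ := (abs_nonneg _).trans (d0 0)
  have hB : 0 ≤ B := P.b0_nonneg.trans hP.1
  set E2 := exp (2 * B) with hE2
  set E4 := exp (4 * B) with hE4
  have h24 : E2 ≤ E4 := exp_le_exp.2 (by linarith)
  have hE0 : 0 < E2 := exp_pos _
  have pb : ∀ (R : Potential), R.b0 ≤ B → ∀ x, 0 ≤ post R u x ∧ post R u x ≤ E2 / n := fun R hR x =>
    ⟨post_nonneg R u x, (post_bounds R u x).2.trans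
      (div_le_div_of_nonneg_right (exp_le_exp.2 (by linarith)) hn0.le)⟩
  have hlog : ∀ x, post P u x ≤ post Q u x * exp (2 * δ) ∧ post Q u x ≤ post P u x * exp (2 * δ) := by
    have key : ∀ (R S : Potential), (∀ x, |R.f0 x - S.f0 x| ≤ δ) → ∀ x,
        post R u x ≤ post S u x * exp (2 * δ) := by
      intro R S hRS x
      have hz : exp (-δ) * zsum S u ≤ zsum R u := by
        rw [zsum, zsum, Finset.mul_sum]
        refine Finset.sum_le_sum fun w _ => ?_
        rw [← exp_add, exp_le_exp]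
        linarith [(abs_le.1 (hRS (u w))).1]
      have hs := zsum_pos S u
      rw [post, post, div_mul_eq_mul_div, div_le_div_iff₀ (zsum_pos R u) hs]
      have hu : exp (R.f0 (u x)) ≤ exp δ * exp (S.f0 (u x)) := by
        rw [← exp_add, exp_le_exp]
        linarith [(abs_le.1 (hRS (u x))).2]
      calc exp (R.f0 (u x)) * zsum S u ≤ exp δ * exp (S.f0 (u x)) * zsum S u :=
            mul_le_mul_of_nonneg_right hu hs.le
        _ = exp (S.f0 (u x)) * exp (2 * δ) * (exp (-δ) * zsum S u) := by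
            rw [show exp δ = exp (2 * δ) * exp (-δ) by rw [← exp_add]; ring_nf]; ring
        _ ≤ _ := mul_le_mul_of_nonneg_left hz (by positivity)
    exact fun x => ⟨key P Q d0 x, key Q P (fun z => by rw [abs_sub_comm]; exact d0 z) x⟩
  have dp : |post P u y - post Q u y| ≤ δ * (2 * E4 / n) := by
    have p1 := pb P hP.1 y
    have p2 := pb Q hQ.1 y
    have hexp : exp (2 * δ) - 1 ≤ 2 * δ * exp (2 * δ) := by
      have := add_one_le_exp (-(2 * δ))
      have e : exp (2 * δ) * exp (-(2 * δ)) = 1 := by rw [← exp_add, add_neg_cancel, exp_zero]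
      nlinarith [exp_pos (2 * δ)]
    have h2 : exp (2 * δ) ≤ E2 := exp_le_exp.2 (by linarith)
    have e4 : E2 * E2 = E4 := by rw [hE2, hE4, ← exp_add]; ring_nf
    have one : ∀ a b : ℝ, 0 ≤ b → b ≤ E2 / n → a ≤ b * exp (2 * δ) → a - b ≤ δ * (2 * E4 / n) := by
      intro a b hb hb' hab
      calc a - b ≤ b * (exp (2 * δ) - 1) := by linarith
        _ ≤ b * (2 * δ * exp (2 * δ)) := mul_le_mul_of_nonneg_left hexp hb
        _ ≤ E2 / n * (2 * δ * E2) :=
          mul_le_mul hb' (mul_le_mul_of_nonneg_left h2 (by linarith)) (by positivity) (by positivity)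
        _ = _ := by rw [← e4]; ring
    rw [abs_le]
    constructor
    · linarith [one _ _ p1.1 p1.2 (hlog y).2]
    · linarith [one _ _ p2.1 p2.2 (hlog y).1]
  set C := B + B ^ 2 with hC
  have b1 : ∀ (R : Potential), R.b1 ≤ B → ∀ x, |R.f1 x| ≤ B := fun R h x => (R.h1 x).trans h
  have b2 : ∀ (R : Potential), R.b1 ≤ B → R.b2 ≤ B → ∀ x, |R.f2 x + R.f1 x ^ 2| ≤ C := fun R h h' x =>
    (abs_c_le R x).trans (add_le_add h' (pow_le_pow_left₀ R.b1_nonneg h 2))
  have hpE : ∀ (R : Potential), R.b0 ≤ B → ∀ a A : ℝ, |a| ≤ A →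
      |post R u y * a| ≤ E2 / n * A := fun R hR a A ha => by
    rw [abs_mul, abs_of_nonneg (pb R hR y).1]
    exact mul_le_mul (pb R hR y).2 ha (abs_nonneg _) (div_nonneg hE0.le hn0.le)
  have hdc : |(P.f2 (u y) + P.f1 (u y) ^ 2) - (Q.f2 (u y) + Q.f1 (u y) ^ 2)| ≤ δ * (1 + 2 * B) := by
    rw [show (P.f2 (u y) + P.f1 (u y) ^ 2) - (Q.f2 (u y) + Q.f1 (u y) ^ 2)
      = (P.f2 (u y) - Q.f2 (u y)) + (P.f1 (u y) - Q.f1 (u y)) * (P.f1 (u y) + Q.f1 (u y)) by ring]
    refine (abs_add_le _ _).trans ?_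
    rw [abs_mul]
    have s : |P.f1 (u y) + Q.f1 (u y)| ≤ 2 * B :=
      (abs_add_le _ _).trans (by linarith [b1 P hP.2.1 (u y), b1 Q hQ.2.1 (u y)])
    have := mul_le_mul (d1 (u y)) s (abs_nonneg _) hδ
    linarith [d2 (u y)]
  have diff : ∀ a a' A A' : ℝ, |a| ≤ A → |a - a'| ≤ δ * A' → 0 ≤ A' →
      |post P u y * a - post Q u y * a'| ≤ δ * ((2 * E4 * A + E4 * A') / n) := by
    intro a a' A A' ha hd hA'
    rw [show post P u y * a - post Q u y * a'
      = (post P u y - post Q u y) * a + post Q u y * (a - a') by ring]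
    refine (abs_add_le _ _).trans ?_
    have x1 := mul_le_mul dp ha (abs_nonneg _) ((abs_nonneg _).trans dp)
    have x2 := (hpE Q hQ.1 _ _ hd).trans
      (mul_le_mul_of_nonneg_right (div_le_div_of_nonneg_right h24 hn0.le) (mul_nonneg hδ hA'))
    rw [abs_mul]
    refine (add_le_add x1 x2).trans (le_of_eq ?_)
    ring
  have step : ∀ {a A : ℝ}, |a| ≤ E2 / n * A → A ≤ 1 + 4 * B + 2 * B ^ 2 → 0 ≤ A →
      |a| ≤ lipK B / n := fun {a A} ha hA hA0 => ha.trans (by
    rw [lipK, div_mul_eq_mul_div]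
    exact div_le_div_of_nonneg_right (mul_le_mul h24 hA hA0 (exp_pos _).le) hn0.le)
  refine ⟨step (hpE P hP.1 _ _ (b1 P hP.2.1 _)) (by nlinarith) hB,
    step (hpE Q hQ.1 _ _ (b1 Q hQ.2.1 _)) (by nlinarith) hB,
    step (hpE P hP.1 _ _ (b2 P hP.2.1 hP.2.2 _)) (by nlinarith) (by positivity),
    step (hpE Q hQ.1 _ _ (b2 Q hQ.2.1 hQ.2.2 _)) (by nlinarith) (by positivity), ?_, ?_⟩
  · refine (diff _ _ B 1 (b1 P hP.2.1 _) (by rw [mul_one]; exact d1 _) zero_le_one).trans ?_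
    refine mul_le_mul_of_nonneg_left (div_le_div_of_nonneg_right ?_ hn0.le) hδ
    rw [lipK, ← hE4]; nlinarith [exp_pos (4 * B)]
  · refine (diff _ _ C (1 + 2 * B) (b2 P hP.2.1 hP.2.2 _) hdc (by linarith)).trans ?_
    refine mul_le_mul_of_nonneg_left (div_le_div_of_nonneg_right ?_ hn0.le) hδ
    rw [lipK, ← hE4, hC]; ring_nf; exact le_rfl

variable {ι : Type} [Fintype ι]

/-- The constant in the stability of the interpolation. -/
noncomputable def lipL (B : ℝ) : ℝ := 4 * lipK B ^ 2 + 24 * lipK B ^ 3 + 24 * lipK B ^ 4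

theorem contract_eq_cform {D : Y → Y → ℝ} (hD : ∀ x y, D x y = D y x) (h0 : ∀ x, D x x = 0)
    (u : Y → ℝ) :
    ∑ z, ∑ w, D z w * shess P D z w u = cform D (mvec P u) (qvec P u) := by
  rw [contract_shess P hD h0]
  rfl

/-- Nearby potentials have nearly the same defect of concavity. -/
theorem finite_near {B δ : ℝ} (hP : P.b0 ≤ B ∧ P.b1 ≤ B ∧ P.b2 ≤ B)
    (hQ : Q.b0 ≤ B ∧ Q.b1 ≤ B ∧ Q.b2 ≤ B)
    (d0 : ∀ x, |P.f0 x - Q.f0 x| ≤ δ) (d1 : ∀ x, |P.f1 x - Q.f1 x| ≤ δ)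
    (d2 : ∀ x, |P.f2 x - Q.f2 x| ≤ δ) (hδB : δ ≤ B)
    {w₁ w₂ : Y → ι → ℝ} (h₁ : ∀ y, ∑ i, w₁ y i ^ 2 = 1) (h₂ : ∀ y, ∑ i, w₂ y i ^ 2 = 1)
    (hd : ∀ x y i, w₁ x i * w₂ y i = 0) {p : ℝ} (hp : 0 ≤ p) (hp1 : p ≤ 1) :
    p * (∫ g, lavg P (fun y => dot g (w₁ y)) ∂gauss ι - ∫ g, lavg Q (fun y => dot g (w₁ y)) ∂gauss ι)
      + (1 - p) * (∫ g, lavg P (fun y => dot g (w₂ y)) ∂gauss ι
          - ∫ g, lavg Q (fun y => dot g (w₂ y)) ∂gauss ι)
      ≤ ∫ g, lavg P (fun y => dot g (mixVec w₁ w₂ p y)) ∂gauss ι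
          - ∫ g, lavg Q (fun y => dot g (mixVec w₁ w₂ p y)) ∂gauss ι
        + p * (1 - p) * (lipL B * δ / 8
          * ((∑ z, ∑ w, gramDiff w₁ w₂ z w ^ 2) / (Fintype.card Y : ℝ) ^ 2)) := by
  obtain ⟨derP, hcP, e1P, e2P⟩ := finite_derivs P h₁ h₂ hd
  obtain ⟨derQ, hcQ, e1Q, e2Q⟩ := finite_derivs Q h₁ h₂ hd
  set D := gramDiff w₁ w₂ with hD
  have hs : ∀ x y, D x y = D y x := gramDiff_symm
  have h0 : ∀ x, D x x = 0 := gramDiff_diag h₁ h₂
  set T := (∑ z, ∑ w, D z w ^ 2) / (Fintype.card Y : ℝ) ^ 2 with hT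
  set Λ := lipL B * δ * T / 4 with hΛ
  set G : ℝ → ℝ := fun q => hmix P w₁ w₂ q - hmix Q w₁ w₂ q - Λ * q ^ 2 / 2 with hG
  have d3 : ∀ q, 0 < q → q < 1 → hmix2 P w₁ w₂ q - hmix2 Q w₁ w₂ q - Λ ≤ 0 := by
    intro q hq hq1
    have hi : ∀ R : Potential,
        Integrable (fun g => ∑ z, ∑ w, D z w * shess R D z w (mixDot w₁ w₂ q g)) (gauss ι) :=
      fun R => integrable_finsetSum _ fun z _ => integrable_finsetSum _ fun w _ => by
        obtain ⟨b, hb⟩ := bdd_shess R D z w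
        exact (Integrable.of_bound ((measurable_shess R D z w).comp (measurable_mixDot q)).aestronglyMeasurable
          b (ae_of_all _ fun g => hb _)).const_mul _
    have hle := integral_mono (hi Q) ((hi P).add (integrable_const (lipL B * δ * T))) fun g => by
      have v := vectors_lip P Q hP hQ d0 d1 d2 hδB (mixDot w₁ w₂ q g)
      have := abs_le.1 (cform_lip D (fun y => (v y).1) (fun y => (v y).2.1) (fun y => (v y).2.2.1)
        (fun y => (v y).2.2.2.1) (fun y => (v y).2.2.2.2.1) (fun y => (v y).2.2.2.2.2))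
      simp only [Pi.add_apply, contract_eq_cform _ hs h0]
      rw [← hT] at this
      simp only [lipL]
      linarith [this.1]
    simp only [Pi.add_apply] at hle
    rw [integral_add (hi P) (integrable_const _), integral_const, probReal_univ, one_smul] at hle
    simp only [hmix2, ← hD, hΛ]
    linarith
  have hin : ∀ {q : ℝ}, q ∈ interior (Set.Icc (0:ℝ) 1) → 0 < q ∧ q < 1 := fun {q} hq => by
    rwa [interior_Icc] at hq
  have g1 : ∀ q, 0 < q → q < 1 →
      HasDerivAt G (hmix1 P w₁ w₂ q - hmix1 Q w₁ w₂ q - Λ * q) q := fun q hq hq1 => by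
    refine (((derP q hq hq1).1.sub (derQ q hq hq1).1).sub
      (((hasDerivAt_pow 2 q).const_mul Λ).div_const 2)).congr_deriv ?_
    ring
  have g2 : ∀ q, 0 < q → q < 1 → HasDerivAt (fun q => hmix1 P w₁ w₂ q - hmix1 Q w₁ w₂ q - Λ * q)
      (hmix2 P w₁ w₂ q - hmix2 Q w₁ w₂ q - Λ) q := fun q hq hq1 => by
    refine (((derP q hq hq1).2.sub (derQ q hq hq1).2).sub
      ((hasDerivAt_id q).const_mul Λ)).congr_deriv ?_
    ring
  have conc := concaveOn_of_hasDerivWithinAt2_nonpos (convex_Icc 0 1)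
    ((hcP.sub hcQ).sub (by fun_prop : Continuous fun q : ℝ => Λ * q ^ 2 / 2)).continuousOn
    (fun q hq => (g1 q (hin hq).1 (hin hq).2).hasDerivWithinAt)
    (fun q hq => (g2 q (hin hq).1 (hin hq).2).hasDerivWithinAt)
    (fun q hq => d3 q (hin hq).1 (hin hq).2)
  have key := conc.2 (x := 1) (by simp) (y := 0) (by simp) hp (sub_nonneg.2 hp1) (add_sub_cancel p 1)
  simp only [smul_eq_mul, mul_one, mul_zero, add_zero, Pi.sub_apply] at key
  rw [e1P, e2P, e1Q, e2Q, hΛ] at key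
  have ev : ∀ R : Potential,
      hmix R w₁ w₂ p = ∫ g, lavg R (fun y => dot g (mixVec w₁ w₂ p y)) ∂gauss ι := fun R => rfl
  rw [ev P, ev Q] at key
  linarith

end near

section strong

variable {ι X : Type} [Fintype ι] [MeasurableSpace X]

/-- The exponential is strongly convex on a half line. -/
theorem exp_strong {a b m p : ℝ} (ha : m ≤ a) (hb : m ≤ b) (hp : 0 ≤ p) (hp1 : p ≤ 1) :
    exp (p * a + (1 - p) * b) + exp m / 2 * (p * (1 - p)) * (a - b) ^ 2
      ≤ p * exp a + (1 - p) * exp b := by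
  have hc : ConvexOn ℝ (Set.Ici m) fun x => exp x - exp m / 2 * x ^ 2 := by
    refine convexOn_of_hasDerivWithinAt2_nonneg (convex_Ici m)
      (f' := fun x => exp x - exp m * x) (f'' := fun x => exp x - exp m) (by fun_prop)
      (fun x _ => ?_) (fun x _ => ?_) fun x hx => ?_
    · refine (((hasDerivAt_exp x).sub ((hasDerivAt_pow 2 x).const_mul (exp m / 2))).congr_deriv ?_).hasDerivWithinAt
      ring
    · refine (((hasDerivAt_exp x).sub ((hasDerivAt_id x).const_mul (exp m))).congr_deriv ?_).hasDerivWithinAt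
      simp
    · rw [interior_Ici] at hx
      linarith [exp_le_exp.2 (Set.mem_Ioi.1 hx).le]
  have h := hc.2 (x := a) ha (y := b) hb hp (sub_nonneg.2 hp1) (add_sub_cancel p 1)
  simp only [smul_eq_mul] at h
  linear_combination h

/-- The weight that makes the second moment strongly convex. -/
noncomputable def kap (ν : Measure ℝ) : ℝ := ∫ s, s ^ 2 * exp (-s ^ 2) ∂ν

theorem kap_bdd (s : ℝ) : |s ^ 2 * exp (-s ^ 2)| ≤ 1 := by
  rw [abs_of_nonneg (by positivity)]
  calc s ^ 2 * exp (-s ^ 2) ≤ exp (s ^ 2) * exp (-s ^ 2) :=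
        mul_le_mul_of_nonneg_right (by linarith [add_one_le_exp (s ^ 2)]) (exp_pos _).le
    _ = 1 := by rw [← exp_add, add_neg_cancel, exp_zero]

theorem kap_sym (ν : Measure ℝ) [IsFiniteMeasure ν] :
    ∫ s, s ^ 2 * exp (-s ^ 2) ∂symNu ν = kap ν := by
  have hi : ∀ (m : Measure ℝ) [IsFiniteMeasure m], Integrable (fun s => s ^ 2 * exp (-s ^ 2)) m :=
    fun m _ => Integrable.of_bound (by fun_prop) 1 (ae_of_all _ fun s => by
      simpa only [Real.norm_eq_abs] using kap_bdd s)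
  rw [symNu, integral_smul_measure, integral_add_measure (hi _) (hi _),
    integral_map (by fun_prop) (by fun_prop), kap]
  simp only [neg_sq, smul_eq_mul, ENNReal.toReal_inv, ENNReal.toReal_ofNat]
  ring

theorem kap_pos (ν : Measure ℝ) [IsFiniteMeasure ν] (h : ν {0}ᶜ ≠ 0) : 0 < kap ν := by
  rw [kap, integral_pos_iff_support_of_nonneg (fun s => by positivity)
    (Integrable.of_bound (by fun_prop) 1 (ae_of_all _ fun s => by
      simpa only [Real.norm_eq_abs] using kap_bdd s))]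
  have e : (Function.support fun s : ℝ => s ^ 2 * exp (-s ^ 2)) = {0}ᶜ := by
    ext s; simp [exp_ne_zero]
  rw [e]
  exact pos_iff_ne_zero.2 h

variable [Fintype X] [MeasurableSingletonClass X]

/-- Strong convexity of the second moment along orthogonal blocks. -/
theorem moment_two_strong (ν : Measure ℝ) [IsFiniteMeasure ν] (μ : Measure X) [IsProbabilityMeasure μ]
    {w₁ w₂ : X → ι → ℝ} (h₁ : ∀ y, ∑ i, w₁ y i ^ 2 = 1) (h₂ : ∀ y, ∑ i, w₂ y i ^ 2 = 1)
    (hd : ∀ x y i, w₁ x i * w₂ y i = 0) {p : ℝ} (hp : 0 ≤ p) (hp1 : p ≤ 1) :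
    moment ν μ (mixVec w₁ w₂ p) 2
      + p * (1 - p) / 2 * (kap ν ^ 2 * ∫ x, ∫ x', gramDiff w₁ w₂ x x' ^ 2 ∂μ ∂μ)
      ≤ p * moment ν μ w₁ 2 + (1 - p) * moment ν μ w₂ 2 := by
  set v := mixVec w₁ w₂ p with hv
  have hm : ∀ w : X → ι → ℝ, Measurable w := fun w => measurable_of_finite w
  set D := gramDiff w₁ w₂ with hD
  set k : ℝ → ℝ := fun s => s ^ 2 * exp (-s ^ 2) with hk
  set ρ := μ.prod (symNu ν) with hρ
  set F : (X × ℝ) × (X × ℝ) → ℝ := fun z => D z.1.1 z.2.1 ^ 2 * (k z.1.2 * k z.2.2) with hF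
  have hFm : Measurable F := by
    have : Measurable fun z : X × X => D z.1 z.2 ^ 2 := measurable_of_finite _
    exact (this.comp ((measurable_fst.comp measurable_fst).prodMk (measurable_fst.comp measurable_snd))).mul
      (by fun_prop)
  obtain ⟨b, hb⟩ : ∃ b, ∀ x x', D x x' ^ 2 ≤ b :=
    ⟨∑ z : X × X, D z.1 z.2 ^ 2, fun x x' => Finset.single_le_sum
      (f := fun z : X × X => D z.1 z.2 ^ 2) (fun z _ => sq_nonneg _) (Finset.mem_univ (x, x'))⟩
  have hFb : ∀ z, ‖F z‖ ≤ b := fun z => by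
    rw [Real.norm_eq_abs, hF, abs_mul, abs_mul, abs_of_nonneg (sq_nonneg (D z.1.1 z.2.1))]
    exact (mul_le_mul (hb _ _) (mul_le_one₀ (kap_bdd _) (abs_nonneg _) (kap_bdd _))
      (by positivity) ((sq_nonneg _).trans (hb z.1.1 z.2.1))).trans (mul_one b).le
  have eF : ∫ z, F z ∂ρ.prod ρ = kap ν ^ 2 * ∫ x, ∫ x', D x x' ^ 2 ∂μ ∂μ := by
    rw [integral_prod _ (Integrable.of_bound hFm.aestronglyMeasurable b (ae_of_all _ hFb))]
    have inner : ∀ a : X × ℝ, ∫ z, F (a, z) ∂ρ = (∫ x', D a.1 x' ^ 2 ∂μ) * kap ν * k a.2 := by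
      intro a
      have e : ∀ z : X × ℝ, F (a, z) = k a.2 * (D a.1 z.1 ^ 2 * k z.2) := fun z => by simp only [hF]; ring
      simp only [e]
      rw [integral_const_mul, hρ, integral_prod_mul (fun x' => D a.1 x' ^ 2) k, hk, kap_sym]
      ring
    simp only [inner]
    rw [hρ, integral_prod_mul (fun x => (∫ x', D x x' ^ 2 ∂μ) * kap ν) k, hk, kap_sym,
      integral_mul_const]
    ring
  set π2 := Measure.pi fun _ : Fin 2 => ρ with hπ
  have eP : ∫ y, F (y 0, y 1) ∂π2 = ∫ z, F z ∂ρ.prod ρ :=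
    integral_of_preserving (measurePreserving_finTwoArrow ρ) hFm
  rw [← eF, ← eP, moment_eq ν μ (hm v), moment_eq ν μ (hm w₁), moment_eq ν μ (hm w₂),
    ← integral_const_mul, ← integral_const_mul, ← integral_const_mul]
  have hi : ∀ w : X → ι → ℝ, Integrable (fun y => exp (-(∑ i, freq w y i ^ 2) / 2)) π2 := fun w => by
    refine Integrable.of_bound ?_ 1 (ae_of_all _ fun y => ?_)
    · have := freq_measurable (k := 2) (hm w)
      exact (by fun_prop : Measurable fun y : Fin 2 → X × ℝ =>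
        exp (-(∑ i, freq w y i ^ 2) / 2)).aestronglyMeasurable
    · rw [Real.norm_eq_abs, abs_of_pos (exp_pos _), exp_le_one_iff, neg_div, neg_nonpos]
      positivity
  have hFi : Integrable (fun y : Fin 2 → X × ℝ => F (y 0, y 1)) π2 :=
    Integrable.of_bound (hFm.comp ((measurable_pi_apply 0).prodMk (measurable_pi_apply 1))).aestronglyMeasurable
      b (ae_of_all _ fun y => hFb _)
  rw [← integral_add (hi _) (hFi.const_mul _),
    ← integral_add ((hi _).const_mul _) ((hi _).const_mul _)]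
  refine integral_mono ((hi _).add (hFi.const_mul _)) (((hi _).const_mul _).add ((hi _).const_mul _))
    fun y => ?_
  set x := (y 0).1
  set x' := (y 1).1
  set s := (y 0).2
  set t := (y 1).2
  have sq2 : ∀ w : X → ι → ℝ, (∀ z, ∑ i, w z i ^ 2 = 1) →
      ∑ i, freq w y i ^ 2 = s ^ 2 + t ^ 2 + 2 * (s * t) * ∑ i, w x i * w x' i := by
    intro w hw
    have e : ∀ i, freq w y i ^ 2 = s ^ 2 * w x i ^ 2 + t ^ 2 * w x' i ^ 2
        + 2 * (s * t) * (w x i * w x' i) := fun i => by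
      simp only [freq, Fin.sum_univ_two, s, t, x, x']; ring
    simp only [e, Finset.sum_add_distrib, ← Finset.mul_sum, hw, mul_one]
  have up : ∀ w : X → ι → ℝ, (∀ z, ∑ i, w z i ^ 2 = 1) →
      ∑ i, freq w y i ^ 2 ≤ 2 * (s ^ 2 + t ^ 2) := by
    intro w hw
    have : ∀ i, freq w y i ^ 2 ≤ 2 * (s ^ 2 * w x i ^ 2 + t ^ 2 * w x' i ^ 2) := fun i => by
      simp only [freq, Fin.sum_univ_two, s, t, x, x']
      nlinarith [sq_nonneg ((y 0).2 * w (y 0).1 i - (y 1).2 * w (y 1).1 i)]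
    refine (Finset.sum_le_sum fun i _ => this i).trans (le_of_eq ?_)
    simp only [← Finset.mul_sum, Finset.sum_add_distrib, hw, mul_one]
  have hvu : ∀ z, ∑ i, v z i ^ 2 = 1 := mixVec_unit h₁ h₂ hd hp hp1
  have hR : ∑ i, v x i * v x' i = p * ∑ i, w₁ x i * w₁ x' i + (1 - p) * ∑ i, w₂ x i * w₂ x' i := by
    rw [Finset.mul_sum, Finset.mul_sum, ← Finset.sum_add_distrib]
    refine Finset.sum_congr rfl fun i _ => ?_
    simp only [hv, mixVec]
    linear_combination w₁ x i * w₁ x' i * sq_sqrt hp + w₂ x i * w₂ x' i * sq_sqrt (sub_nonneg.2 hp1)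
      + √p * √(1 - p) * hd x x' i + √p * √(1 - p) * hd x' x i
  have key := exp_strong (m := -(s ^ 2 + t ^ 2)) (a := -(∑ i, freq w₁ y i ^ 2) / 2)
    (b := -(∑ i, freq w₂ y i ^ 2) / 2) (by linarith [up w₁ h₁]) (by linarith [up w₂ h₂]) hp hp1
  refine le_trans (le_of_eq ?_) key
  simp only [Pi.add_apply, hF, hk, hD, gramDiff]
  rw [sq2 v hvu, sq2 w₁ h₁, sq2 w₂ h₂, hR,
    show exp (-(s ^ 2 + t ^ 2)) = exp (-s ^ 2) * exp (-t ^ 2) by rw [← exp_add]; ring_nf]
  congr 1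
  · congr 1; ring
  · ring

/-- Strong concavity of the one step average for a constant minus a positive definite function. -/
theorem oneStep_strong (ν : Measure ℝ) [IsFiniteMeasure ν] {c : ℝ} (hc : ν.real Set.univ < c)
    (μ : Measure X) [IsProbabilityMeasure μ]
    {w₁ w₂ : X → ι → ℝ} (h₁ : ∀ y, ∑ i, w₁ y i ^ 2 = 1) (h₂ : ∀ y, ∑ i, w₂ y i ^ 2 = 1)
    (hd : ∀ x y i, w₁ x i * w₂ y i = 0) {p : ℝ} (hp : 0 ≤ p) (hp1 : p ≤ 1) :
    let U := fun u => c - ∫ s, cos (s * u) ∂ν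
    p * oneStep U μ w₁ + (1 - p) * oneStep U μ w₂
      + p * (1 - p) * (kap ν ^ 2 / (4 * c ^ 2) * ∫ x, ∫ x', gramDiff w₁ w₂ x x' ^ 2 ∂μ ∂μ)
      ≤ oneStep U μ (mixVec w₁ w₂ p) := by
  intro U
  have hm : ∀ w : X → ι → ℝ, Measurable w := fun w => measurable_of_finite w
  have hc0 : 0 < c := measureReal_nonneg.trans_lt hc
  set e := p * (1 - p) * (kap ν ^ 2 / (4 * c ^ 2) * ∫ x, ∫ x', gramDiff w₁ w₂ x x' ^ 2 ∂μ ∂μ) with he
  have hh := hasSum_le (fun n => ?_)
    ((oneStep_hasSum ν hc μ (hm (mixVec w₁ w₂ p))).add (hasSum_ite_eq 1 e))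
    (((oneStep_hasSum ν hc μ (hm w₁)).mul_left p).add ((oneStep_hasSum ν hc μ (hm w₂)).mul_left (1 - p)))
  · simp only [U]; linarith
  · rw [← mul_div_assoc, ← mul_div_assoc, ← add_div]
    split_ifs with h
    · subst h
      have := moment_two_strong ν μ h₁ h₂ hd hp hp1
      have hden : (0 : ℝ) < c ^ (1 + 1) * ((1 : ℕ) + 1) := by positivity
      rw [le_div_iff₀ hden, add_mul, div_mul_cancel₀ _ hden.ne', he]
      refine le_trans (le_of_eq ?_) this
      push_cast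
      field_simp
      ring
    · rw [add_zero]
      exact div_le_div_of_nonneg_right (moment_convex ν μ hp hp1 (hm _) (hm _) (hm _)
        (fun x i => rfl) hd _) (by positivity)

end strong

theorem integral_uniform {n : ℕ} [NeZero n] (f : Fin n → ℝ) :
    ∫ k, f k ∂(PMF.uniformOfFintype (Fin n)).toMeasure = (∑ k, f k) / n := by
  rw [PMF.integral_eq_sum]
  simp [Finset.mul_sum, div_eq_inv_mul]

/-- The mixing inequality holds near a constant minus a positive definite function. -/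
theorem mixIneq_near (P Q : Potential) (ν : Measure ℝ) [IsFiniteMeasure ν] {c : ℝ}
    (hc : ν.real Set.univ < c) (hQU : ∀ u, exp (Q.f0 u) = c - ∫ s, cos (s * u) ∂ν) {B δ : ℝ}
    (hP : P.b0 ≤ B ∧ P.b1 ≤ B ∧ P.b2 ≤ B) (hQ : Q.b0 ≤ B ∧ Q.b1 ≤ B ∧ Q.b2 ≤ B)
    (d0 : ∀ x, |P.f0 x - Q.f0 x| ≤ δ) (d1 : ∀ x, |P.f1 x - Q.f1 x| ≤ δ)
    (d2 : ∀ x, |P.f2 x - Q.f2 x| ≤ δ) (hδB : δ ≤ B)
    (hsmall : lipL B * δ / 8 ≤ kap ν ^ 2 / (4 * c ^ 2)) : MixIneq fun x => exp (P.f0 x) := by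
  refine mixIneq_of_fin P fun ι _ n _ w₁ w₂ p hp hp1 h₁ h₂ hd => ?_
  set μ := (PMF.uniformOfFintype (Fin n)).toMeasure
  have hs := oneStep_strong ν hc μ h₁ h₂ hd hp hp1
  have eU : ∀ w : Fin n → ι → ℝ, oneStep (fun u => c - ∫ s, cos (s * u) ∂ν) μ w
      = ∫ g, lavg Q (fun y => dot g (w y)) ∂gauss ι := fun w => by
    rw [oneStep]
    refine integral_congr_ae (ae_of_all _ fun g => ?_)
    simp only [μ, integral_uniform, lavg, zsum, Fintype.card_fin, hQU]
  have eT : ∫ x, ∫ x', gramDiff w₁ w₂ x x' ^ 2 ∂μ ∂μ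
      = (∑ z, ∑ w, gramDiff w₁ w₂ z w ^ 2) / (Fintype.card (Fin n) : ℝ) ^ 2 := by
    simp only [μ, integral_uniform, Fintype.card_fin, ← Finset.sum_div, div_div, sq (n : ℝ)]
  simp only [eU, eT] at hs
  have hn := finite_near P Q hP hQ d0 d1 d2 hδB h₁ h₂ hd hp hp1
  have := mul_le_mul_of_nonneg_left (mul_le_mul_of_nonneg_right hsmall
    (show (0 : ℝ) ≤ (∑ z, ∑ w, gramDiff w₁ w₂ z w ^ 2) / (Fintype.card (Fin n) : ℝ) ^ 2 by positivity))
    (mul_nonneg hp (sub_nonneg.2 hp1))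
  linarith

section base

variable (ν : Measure ℝ) [IsFiniteMeasure ν]

theorem pow_integrable (h3 : Integrable (fun s => |s| ^ 3) ν) {k : ℕ} (hk : k ≤ 3) :
    Integrable (fun s => |s| ^ k) ν := by
  refine ((integrable_const (1 : ℝ)).add h3).mono' (by fun_prop) (ae_of_all _ fun s => ?_)
  simp only [Real.norm_eq_abs, Pi.add_apply, abs_pow, abs_abs]
  rcases le_total |s| 1 with h | h
  · linarith [pow_le_one₀ (n := k) (abs_nonneg s) h, pow_nonneg (abs_nonneg s) 3]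
  · linarith [pow_le_pow_right₀ h hk]

omit [IsFiniteMeasure ν] in
/-- Differentiation of a trigonometric moment. -/
theorem trig_deriv {k : ℕ} (hk : Integrable (fun s => |s| ^ k) ν)
    (hk1 : Integrable (fun s => |s| ^ (k + 1)) ν) {F F' : ℝ → ℝ} (hd : ∀ x, HasDerivAt F (F' x) x)
    (hF : ∀ x, |F x| ≤ 1) (hF' : ∀ x, |F' x| ≤ 1) (hFc : Continuous F) (hF'c : Continuous F') (u : ℝ) :
    HasDerivAt (fun u => ∫ s, s ^ k * F (s * u) ∂ν) (∫ s, s ^ (k + 1) * F' (s * u) ∂ν) u := by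
  refine (hasDerivAt_integral_of_dominated_loc_of_deriv_le (s := Set.univ)
    (F' := fun u s => s ^ (k + 1) * F' (s * u)) (bound := fun s => |s| ^ (k + 1)) Filter.univ_mem
    (Filter.Eventually.of_forall fun x => (by fun_prop : Continuous fun s => s ^ k * F (s * x)).aestronglyMeasurable)
    ?_ (by fun_prop : Continuous fun s => s ^ (k + 1) * F' (s * u)).aestronglyMeasurable
    (ae_of_all _ fun s x _ => ?_) hk1 (ae_of_all _ fun s x _ => ?_)).2
  · refine hk.mono' (by fun_prop : Continuous fun s => s ^ k * F (s * u)).aestronglyMeasurable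
      (ae_of_all _ fun s => ?_)
    rw [Real.norm_eq_abs, abs_mul, abs_pow]
    exact mul_le_of_le_one_right (by positivity) (hF _)
  · rw [Real.norm_eq_abs, abs_mul, abs_pow]
    exact mul_le_of_le_one_right (by positivity) (hF' _)
  · refine (((hd (s * x)).comp x ((hasDerivAt_id x).const_mul s)).const_mul (s ^ k)).congr_deriv ?_
    simp; ring

omit [IsFiniteMeasure ν] in
theorem trig_bound {k : ℕ} (hk : Integrable (fun s => |s| ^ k) ν) {F : ℝ → ℝ}
    (hF : ∀ x, |F x| ≤ 1) (u : ℝ) :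
    |∫ s, s ^ k * F (s * u) ∂ν| ≤ ∫ s, |s| ^ k ∂ν := by
  rw [← Real.norm_eq_abs]
  refine norm_integral_le_of_norm_le hk (ae_of_all _ fun s => ?_)
  rw [Real.norm_eq_abs, abs_mul, abs_pow]
  exact mul_le_of_le_one_right (by positivity) (hF _)

/-- The logarithm of a constant minus a positive definite function, as a potential. -/
theorem base_potential {c : ℝ} (hc : ν.real Set.univ < c) (h3 : Integrable (fun s => |s| ^ 3) ν) :
    ∃ Q : Potential, (∀ u, exp (Q.f0 u) = c - ∫ s, cos (s * u) ∂ν) ∧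
      Q.f0 = fun u => log (c - ∫ s, cos (s * u) ∂ν) := by
  set U : ℝ → ℝ := fun u => c - ∫ s, cos (s * u) ∂ν with hU
  set V1 : ℝ → ℝ := fun u => ∫ s, s ^ 1 * sin (s * u) ∂ν with hV1
  set V2 : ℝ → ℝ := fun u => ∫ s, s ^ 2 * cos (s * u) ∂ν with hV2
  set V3 : ℝ → ℝ := fun u => ∫ s, s ^ 3 * -sin (s * u) ∂ν with hV3
  obtain ⟨L, hL0, -, hL⟩ := bddWeight_sub ν hc
  have hU0 : ∀ u, 0 < U u := fun u => (exp_pos _).trans_le (hL u).1
  have hsn : ∀ x, |-sin x| ≤ 1 := fun x => by rw [abs_neg]; exact abs_sin_le_one x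
  have i0 := pow_integrable ν h3 (show 0 ≤ 3 by norm_num)
  have i1 := pow_integrable ν h3 (show 1 ≤ 3 by norm_num)
  have i2 := pow_integrable ν h3 (show 2 ≤ 3 by norm_num)
  have d0 : ∀ u, HasDerivAt U (V1 u) u := fun u => by
    have := ((trig_deriv ν (k := 0) i0 i1 hasDerivAt_cos abs_cos_le_one hsn continuous_cos
      continuous_sin.neg u).const_sub c)
    simp only [pow_zero, one_mul, zero_add, mul_neg, integral_neg, neg_neg] at this
    simpa only [hU, hV1] using this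
  have d1 : ∀ u, HasDerivAt V1 (V2 u) u :=
    trig_deriv ν (k := 1) i1 i2 hasDerivAt_sin abs_sin_le_one abs_cos_le_one continuous_sin continuous_cos
  have d2 : ∀ u, HasDerivAt V2 (V3 u) u :=
    trig_deriv ν (k := 2) i2 h3 hasDerivAt_cos abs_cos_le_one hsn continuous_cos continuous_sin.neg
  set M1 := ∫ s, |s| ^ 1 ∂ν
  set M2 := ∫ s, |s| ^ 2 ∂ν
  set M3 := ∫ s, |s| ^ 3 ∂ν
  set i := exp L
  have hinv : ∀ u, |(U u)⁻¹| ≤ i := fun u => by
    rw [abs_of_pos (inv_pos.2 (hU0 u)), inv_le_comm₀ (hU0 u) (exp_pos _), ← exp_neg]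
    exact (hL u).1
  have n1 : ∀ u, |V1 u| ≤ M1 := trig_bound ν i1 abs_sin_le_one
  have n2 : ∀ u, |V2 u| ≤ M2 := trig_bound ν i2 abs_cos_le_one
  have n3 : ∀ u, |V3 u| ≤ M3 := trig_bound ν h3 hsn
  have r : ∀ {V : ℝ → ℝ} {M : ℝ}, (∀ u, |V u| ≤ M) → ∀ u, |V u / U u| ≤ M * i := fun {V M} hV u => by
    rw [div_eq_mul_inv, abs_mul]
    exact mul_le_mul (hV u) (hinv u) (abs_nonneg _) ((abs_nonneg _).trans (hV u))
  let Q : Potential :=
    { f0 := fun u => log (U u)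
      f1 := fun u => V1 u / U u
      f2 := fun u => V2 u / U u - (V1 u / U u) ^ 2
      f3 := fun u => V3 u / U u - 3 * (V2 u / U u) * (V1 u / U u) + 2 * (V1 u / U u) ^ 3
      d0 := fun u => (d0 u).log (hU0 u).ne'
      d1 := fun u => by
        refine ((d1 u).div (d0 u) (hU0 u).ne').congr_deriv ?_
        have := (hU0 u).ne'
        field_simp
      d2 := fun u => by
        refine (((d2 u).div (d0 u) (hU0 u).ne').sub (((d1 u).div (d0 u) (hU0 u).ne').pow 2)).congr_deriv ?_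
        have := (hU0 u).ne'
        simp only [Pi.div_apply]
        push_cast
        field_simp
        ring
      b0 := L
      b1 := M1 * i
      b2 := M2 * i + (M1 * i) ^ 2
      b3 := M3 * i + 3 * (M2 * i) * (M1 * i) + 2 * (M1 * i) ^ 3
      h0 := fun u => abs_le.2 ⟨(log_exp (-L)).symm.le.trans (log_le_log (exp_pos _) (hL u).1),
        (log_le_log (hU0 u) (hL u).2).trans (log_exp L).le⟩
      h1 := r n1
      h2 := fun u => (abs_sub _ _).trans (add_le_add (r n2 u) (by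
        rw [abs_pow]; exact pow_le_pow_left₀ (abs_nonneg _) (r n1 u) 2))
      h3 := fun u => by
        have a := r n1 u
        have b := r n2 u
        refine (abs_add_le _ _).trans (add_le_add ((abs_sub _ _).trans (add_le_add (r n3 u) ?_)) ?_)
        · rw [abs_mul, abs_mul, abs_of_pos (show (0 : ℝ) < 3 by norm_num)]
          exact mul_le_mul (mul_le_mul_of_nonneg_left b (by norm_num)) a (abs_nonneg _)
            (mul_nonneg (by norm_num) ((abs_nonneg _).trans b))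
        · rw [abs_mul, abs_two, abs_pow]
          exact mul_le_mul_of_nonneg_left (pow_le_pow_left₀ (abs_nonneg _) a 3) zero_le_two }
  exact ⟨Q, fun u => exp_log (hU0 u), rfl⟩

end base

end Vale.Agent.P157
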