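import Vale.Agent.P157.Sampling

/-!
# P157: potentials that are nearly quadratic, with bounds independent of their size
-/

open MeasureTheory ProbabilityTheory Real Filter Topology

namespace Vale.Agent.P157

variable {ι Y : Type} [Fintype ι] [Fintype Y] [Nonempty Y]

/-- The majorant used for moments. -/
noncomputable def wt (x : ℝ) : ℝ := exp (x ^ 2 / 4)

theorem wt_pos (x : ℝ) : 0 < wt x := exp_pos _

@[fun_prop]
theorem measurable_wt : Measurable wt := by unfold wt; fun_prop

theorem exp_mean3 (a b c : ℝ) : 3 * exp ((a + b + c) / 3) ≤ exp a + exp b + exp c := by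
  set m := (a + b + c) / 3 with hm
  have h : ∀ r, exp m * (1 + (r - m)) ≤ exp r := fun r => by
    rw [show exp r = exp m * exp (r - m) by rw [← exp_add]; ring_nf]
    exact mul_le_mul_of_nonneg_left (by linarith [add_one_le_exp (r - m)]) (exp_pos _).le
  have e : exp m * (1 + (a - m)) + exp m * (1 + (b - m)) + exp m * (1 + (c - m)) = 3 * exp m := by
    have : a + b + c = 3 * m := by rw [hm]; ring
    linear_combination (exp m) * this
  linarith [h a, h b, h c]

theorem sq_exp_le {x y z a : ℝ} (ha : a ≤ 1 / 24) :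
    x ^ 2 * exp (a * (x ^ 2 + y ^ 2 + z ^ 2)) ≤ 8 * (wt x + wt y + wt z) := by
  have h1 : x ^ 2 ≤ 24 * exp (x ^ 2 / 24) := by linarith [add_one_le_exp (x ^ 2 / 24)]
  refine (mul_le_mul_of_nonneg_right h1 (exp_pos _).le).trans ?_
  have h2 : exp (x ^ 2 / 24) * exp (a * (x ^ 2 + y ^ 2 + z ^ 2))
      ≤ exp ((x ^ 2 / 4 + y ^ 2 / 4 + z ^ 2 / 4) / 3) := by
    rw [← exp_add, exp_le_exp]
    nlinarith [mul_le_mul_of_nonneg_right ha (show 0 ≤ x ^ 2 + y ^ 2 + z ^ 2 by positivity),
      sq_nonneg x, sq_nonneg y, sq_nonneg z]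
  have h3 := exp_mean3 (x ^ 2 / 4) (y ^ 2 / 4) (z ^ 2 / 4)
  simp only [wt]
  nlinarith [exp_pos (x ^ 2 / 24)]

theorem exp_sq_le_one_add {a x : ℝ} (ha : 0 ≤ a) (ha' : a ≤ 1 / 4) :
    exp (a * x ^ 2) ≤ 1 + 4 * a * (wt x - 1) := by
  have h := convexOn_exp.2 (Set.mem_univ (x ^ 2 / 4)) (Set.mem_univ (0 : ℝ))
    (show (0 : ℝ) ≤ 4 * a by linarith) (show (0 : ℝ) ≤ 1 - 4 * a by linarith) (by ring)
  simp only [smul_eq_mul, mul_zero, add_zero, exp_zero, mul_one] at h
  rw [show 4 * a * (x ^ 2 / 4) = a * x ^ 2 by ring] at h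
  simp only [wt]
  linarith

theorem integral_wt_gaussian :
    Integrable wt (gaussianReal 0 1) ∧ ∫ x, wt x ∂gaussianReal 0 1 ≤ 2 := by
  have e : ∀ x, gaussianPDFReal 0 1 x * wt x = (√(2 * π))⁻¹ * exp (-(1 / 4) * x ^ 2) := fun x => by
    simp only [gaussianPDFReal, wt, NNReal.coe_one, mul_one, sub_zero]
    rw [mul_assoc, ← exp_add]
    ring_nf
  have hi : Integrable wt (gaussianReal 0 1) := by
    rw [gaussianReal_of_var_ne_zero 0 one_ne_zero]
    refine (integrable_withDensity_iff_integrable_smul' (measurable_gaussianPDF 0 1)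
      (ae_of_all _ fun x => gaussianPDF_lt_top)).2 ?_
    refine ((integrable_exp_neg_mul_sq (show (0 : ℝ) < 1 / 4 by norm_num)).const_mul
      (√(2 * π))⁻¹).congr (ae_of_all _ fun x => ?_)
    simp only [toReal_gaussianPDF, smul_eq_mul, e]
  refine ⟨hi, ?_⟩
  rw [integral_gaussianReal_eq_integral_smul one_ne_zero]
  simp only [smul_eq_mul, e, integral_const_mul]
  rw [integral_gaussian, inv_mul_le_iff₀ (by positivity)]
  refine (Real.sqrt_le_sqrt (show π / (1 / 4) ≤ 4 * (2 * π) by linarith [pi_pos])).trans ?_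
  rw [Real.sqrt_mul (by norm_num), show (4 : ℝ) = 2 * 2 by norm_num,
    Real.sqrt_mul_self (by norm_num)]
  linarith

theorem integral_wt_dot {v : ι → ℝ} (hv : ∑ i, v i ^ 2 = 1) :
    Integrable (fun g => wt (dot g v)) (gauss ι) ∧ ∫ g, wt (dot g v) ∂gauss ι ≤ 2 := by
  refine ⟨?_, ?_⟩
  · exact (MeasurePreserving.integrable_comp ⟨measurable_dot_left v, gauss_map_dot hv⟩
      integral_wt_gaussian.1.aestronglyMeasurable).2 integral_wt_gaussian.1
  · rw [integral_dot hv measurable_wt]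
    exact integral_wt_gaussian.2

/-- A potential close to `s u^2 / 2`, with error of relative order `ε u^2`. -/
structure QuadLike (P : Potential) (s ε : ℝ) : Prop where
  q0 : ∀ x, |P.f0 x| ≤ |s| * x ^ 2 / 2
  q1 : ∀ x, P.f1 x ^ 2 ≤ s ^ 2 * x ^ 2
  q2 : ∀ x, |P.f2 x| ≤ |s|
  qd : ∀ x, |P.f2 x - s| ≤ |s| * ε * x ^ 2

variable (P : Potential) {s ε : ℝ}

theorem post_pair_lower (u : Y → ℝ) (z w : Y) :
    3 + P.f0 (u z) + P.f0 (u w) - 2 * (zsum P u / Fintype.card Y)
      ≤ (Fintype.card Y : ℝ) ^ 2 * (post P u z * post P u w) := by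
  set n : ℝ := (Fintype.card Y : ℝ)
  have hn : 0 < n := by simp only [n]; exact_mod_cast Fintype.card_pos
  have hZ : 0 < zsum P u / n := div_pos (zsum_pos P u) hn
  have e : n ^ 2 * (post P u z * post P u w)
      = exp (P.f0 (u z) + P.f0 (u w) - 2 * log (zsum P u / n)) := by
    rw [exp_sub, exp_add, two_mul (log _), exp_add, exp_log hZ, post, post]
    have := (zsum_pos P u).ne'
    field_simp
  rw [e]
  linarith [add_one_le_exp (P.f0 (u z) + P.f0 (u w) - 2 * log (zsum P u / n)),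
    log_le_sub_one_of_pos hZ]

theorem post_pair_upper (u : Y → ℝ) (z w : Y) :
    (Fintype.card Y : ℝ) ^ 2 * (post P u z * post P u w)
      ≤ ∑ a, exp (P.f0 (u z) + P.f0 (u w) - 2 * P.f0 (u a)) / Fintype.card Y := by
  set n : ℝ := (Fintype.card Y : ℝ)
  have hn : 0 < n := by simp only [n]; exact_mod_cast Fintype.card_pos
  have hZ : 0 < zsum P u / n := div_pos (zsum_pos P u) hn
  set L := log (zsum P u / n)
  have e : n ^ 2 * (post P u z * post P u w)
      = exp (P.f0 (u z) + P.f0 (u w)) * exp (-(2 * L)) := by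
    rw [exp_neg, two_mul L, exp_add, exp_add, exp_log hZ, post, post]
    have := (zsum_pos P u).ne'
    field_simp
  rw [e, ← Finset.sum_div, le_div_iff₀ hn]
  have h : ∀ a, exp (-(2 * L)) * (1 + -2 * (exp (P.f0 (u a) - L) - 1)) ≤ exp (-(2 * P.f0 (u a))) := by
    intro a
    set r := P.f0 (u a) - L
    rw [show exp (-(2 * P.f0 (u a))) = exp (-(2 * L)) * exp (-(2 * r)) by
      rw [← exp_add]; simp only [r]; ring_nf]
    refine mul_le_mul_of_nonneg_left ?_ (exp_pos _).le
    have h1 : exp (-(2 * r)) * exp r * exp r = 1 := by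
      rw [← exp_add, ← exp_add, show -(2 * r) + r + r = 0 by ring, exp_zero]
    nlinarith [exp_pos r, exp_pos (-(2 * r)), sq_nonneg (exp r - 1),
      mul_pos (exp_pos r) (exp_pos r)]
  have hs := Finset.sum_le_sum (s := Finset.univ) fun a _ => h a
  have hsum : ∑ a, exp (P.f0 (u a) - L) = n := by
    simp only [exp_sub, ← Finset.sum_div, L, exp_log hZ]
    show zsum P u / (zsum P u / n) = n
    have := (zsum_pos P u).ne'
    field_simp
  rw [← Finset.mul_sum, Finset.sum_add_distrib, ← Finset.mul_sum, Finset.sum_sub_distrib, hsum,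
    Finset.sum_const, Finset.card_univ, nsmul_eq_mul, mul_one, sub_self, mul_zero, add_zero] at hs
  have e2 : ∀ a, exp (P.f0 (u z) + P.f0 (u w) - 2 * P.f0 (u a))
      = exp (P.f0 (u z) + P.f0 (u w)) * exp (-(2 * P.f0 (u a))) := fun a => by
    rw [← exp_add]; ring_nf
  simp only [e2, ← Finset.mul_sum]
  rw [mul_assoc]
  exact mul_le_mul_of_nonneg_left hs (exp_pos _).le

variable {P}

theorem shess_lower_quad (hP : QuadLike P s ε) (hs : |s| ≤ 1 / 48) (hε : 0 ≤ ε) {D : Y → Y → ℝ}
    (hD : ∀ x y, D x y = D y x) (h0 : ∀ x, D x x = 0) (u : Y → ℝ) :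
    s ^ 2 / (Fintype.card Y : ℝ) ^ 2 * ∑ z, ∑ w, D z w ^ 2 *
        (2 - (32 * ε + 104 * |s|) * (wt (u z) + wt (u w) + (∑ a, wt (u a)) / Fintype.card Y))
      ≤ ∑ z, ∑ w, D z w * shess P D z w u := by
  rw [contract_shess P hD h0]
  set n : ℝ := (Fintype.card Y : ℝ) with hn'
  have hn : 0 < n := by simp only [n]; exact_mod_cast Fintype.card_pos
  set p := post P u with hp
  set a := |s| with ha
  have ha0 : 0 ≤ a := abs_nonneg s
  have ha2 : s ^ 2 = a ^ 2 := (sq_abs s).symm
  have hR : ∑ z, qvec P u z * rvec P D u z ^ 2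
      ≤ ∑ z, ∑ w, D z w ^ 2 * (p z * p w) * ((a + s ^ 2 * u z ^ 2) * (s ^ 2 * u w ^ 2)) := by
    refine Finset.sum_le_sum fun z _ => ?_
    have hr : rvec P D u z ^ 2 ≤ ∑ w, p w * (D z w * P.f1 (u w)) ^ 2 := by
      have cs := Finset.sum_mul_sq_le_sq_mul_sq Finset.univ (fun w => √(p w))
        (fun w => √(p w) * (D z w * P.f1 (u w)))
      have e : ∀ w, √(p w) * (√(p w) * (D z w * P.f1 (u w))) = D z w * mvec P u w := fun w => by
        rw [mvec, ← hp]
        linear_combination (D z w * P.f1 (u w)) * Real.mul_self_sqrt (post_nonneg P u w)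
      simp only [e] at cs
      simp only [mul_pow, hp, Real.sq_sqrt (post_nonneg P u _), post_sum, one_mul] at cs
      simpa only [rvec, mul_pow, hp] using cs
    have hq : qvec P u z ≤ p z * (a + s ^ 2 * u z ^ 2) :=
      mul_le_mul_of_nonneg_left (add_le_add ((abs_le.1 (hP.q2 _)).2) (hP.q1 _)) (post_nonneg P u z)
    refine (mul_le_mul_of_nonneg_right hq (sq_nonneg _)).trans ?_
    refine (mul_le_mul_of_nonneg_left hr (mul_nonneg (post_nonneg P u z) (by positivity))).trans ?_
    rw [Finset.mul_sum]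
    refine Finset.sum_le_sum fun w _ => ?_
    have hz := post_nonneg P u z
    have hw := post_nonneg P u w
    calc p z * (a + s ^ 2 * u z ^ 2) * (p w * (D z w * P.f1 (u w)) ^ 2)
        = D z w ^ 2 * (p z * p w) * ((a + s ^ 2 * u z ^ 2) * P.f1 (u w) ^ 2) := by ring
      _ ≤ _ := mul_le_mul_of_nonneg_left (mul_le_mul_of_nonneg_left (hP.q1 _) (by positivity))
          (by rw [hp]; positivity)
  have key : ∀ z w, D z w ^ 2 * (s ^ 2 / n ^ 2 *
        (2 - (32 * ε + 104 * a) * (wt (u z) + wt (u w) + (∑ b, wt (u b)) / n)))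
      ≤ 2 * (D z w ^ 2 * (qvec P u z * qvec P u w))
        - 8 * (D z w ^ 2 * (p z * p w) * ((a + s ^ 2 * u z ^ 2) * (s ^ 2 * u w ^ 2))) := by
    intro z w
    set x := u z with hx
    set y := u w with hy
    set M := (∑ b, wt (u b)) / n with hM
    set S := wt x + wt y + M with hS
    set T := n ^ 2 * (p z * p w) with hT
    have hT0 : 0 ≤ T := by
      have := post_nonneg P u z
      have := post_nonneg P u w
      rw [hT, hp]; positivity
    have hlo : 1 - 4 * a * S ≤ T := by
      have h := post_pair_lower P u z w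
      rw [← hn', ← hp, ← hT] at h
      have hb : ∀ r, |P.f0 r| ≤ 2 * a * wt r := fun r => (hP.q0 r).trans (by
        have := mul_le_mul_of_nonneg_left (add_one_le_exp (r ^ 2 / 4)) ha0
        simp only [wt, ← ha]; nlinarith)
      have hz : zsum P u / n ≤ 1 + 2 * a * (M - 1) := by
        rw [hM, zsum, div_le_iff₀ hn]
        calc ∑ b, exp (P.f0 (u b)) ≤ ∑ b, (1 + 2 * a * (wt (u b) - 1)) := by
              refine Finset.sum_le_sum fun b _ => ?_
              refine le_trans (exp_le_exp.2 ((abs_le.1 (hP.q0 _)).2.trans (le_of_eq ?_)))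
                ((exp_sq_le_one_add (a := a / 2) (x := u b) (by linarith) (by linarith)).trans (le_of_eq ?_))
              · rw [← ha]; ring
              · ring
          _ = _ := by
            simp only [Finset.sum_add_distrib, Finset.sum_sub_distrib, ← Finset.mul_sum,
              Finset.sum_const, Finset.card_univ, nsmul_eq_mul, mul_one, ← hn']
            field_simp
      have hM0 : 0 ≤ M := div_nonneg (Finset.sum_nonneg fun b _ => (wt_pos _).le) hn.le
      nlinarith [(abs_le.1 (hb x)).1, (abs_le.1 (hb y)).1, wt_pos x, wt_pos y]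
    have hup : ∀ r : ℝ, T * (r ^ 2 * exp (a * x ^ 2))
        ≤ ∑ b, r ^ 2 * exp (1 / 24 * (x ^ 2 + y ^ 2 + u b ^ 2)) / n := fun r => by
      have h := post_pair_upper P u z w
      rw [← hn', ← hp, ← hT] at h
      refine (mul_le_mul_of_nonneg_right h (by positivity)).trans ?_
      rw [Finset.sum_mul]
      refine Finset.sum_le_sum fun b _ => ?_
      rw [div_mul_eq_mul_div, mul_comm, mul_assoc, ← exp_add]
      refine div_le_div_of_nonneg_right (mul_le_mul_of_nonneg_left (exp_le_exp.2 ?_) (sq_nonneg r)) hn.le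
      rw [← hx, ← hy]
      have f1 := (abs_le.1 (hP.q0 x)).2
      have f2 := (abs_le.1 (hP.q0 y)).2
      have f3 := (abs_le.1 (hP.q0 (u b))).1
      rw [← ha] at f1 f2 f3
      nlinarith [mul_nonneg (sub_nonneg.2 hs) (sq_nonneg x), mul_nonneg (sub_nonneg.2 hs) (sq_nonneg y),
        mul_nonneg (sub_nonneg.2 hs) (sq_nonneg (u b)), sq_nonneg x, sq_nonneg y, sq_nonneg (u b)]
    have hsum : ∀ G : ℝ → ℝ, (∀ b, G b ≤ 8 * (wt x + wt y + wt b)) →
        ∑ b, G (u b) / n ≤ 8 * S := fun G hG => by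
      refine (Finset.sum_le_sum fun b _ => div_le_div_of_nonneg_right (hG (u b)) hn.le).trans (le_of_eq ?_)
      simp only [← Finset.sum_div, ← Finset.mul_sum, Finset.sum_add_distrib, Finset.sum_const,
        Finset.card_univ, nsmul_eq_mul, ← hn', hS, hM]
      field_simp
    have hX : T * (x ^ 2 * exp (a * x ^ 2)) ≤ 8 * S :=
      (hup x).trans (hsum (fun b => x ^ 2 * exp (1 / 24 * (x ^ 2 + y ^ 2 + b ^ 2)))
        fun b => sq_exp_le le_rfl)
    have hY : T * (y ^ 2 * exp (a * x ^ 2)) ≤ 8 * S :=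
      (hup y).trans (hsum (fun b => y ^ 2 * exp (1 / 24 * (x ^ 2 + y ^ 2 + b ^ 2))) fun b => by
        have := sq_exp_le (x := y) (y := x) (z := b) (a := 1 / 24) le_rfl
        rw [show y ^ 2 + x ^ 2 = x ^ 2 + y ^ 2 by ring] at this
        linarith)
    have he1 : 1 ≤ exp (a * x ^ 2) := one_le_exp (by positivity)
    have he2 : 1 + a * x ^ 2 ≤ exp (a * x ^ 2) := by linarith [add_one_le_exp (a * x ^ 2)]
    have hx1 : T * x ^ 2 ≤ 8 * S :=
      (mul_le_mul_of_nonneg_left (le_mul_of_one_le_right (sq_nonneg x) he1) hT0).trans hX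
    have hy1 : T * y ^ 2 ≤ 8 * S :=
      (mul_le_mul_of_nonneg_left (le_mul_of_one_le_right (sq_nonneg y) he1) hT0).trans hY
    have hy2 : T * (y ^ 2 * (1 + a * x ^ 2)) ≤ 8 * S :=
      (mul_le_mul_of_nonneg_left (mul_le_mul_of_nonneg_left he2 (sq_nonneg y)) hT0).trans hY
    have hqq : s ^ 2 * (1 - (ε + a) * (x ^ 2 + y ^ 2))
        ≤ (P.f2 x + P.f1 x ^ 2) * (P.f2 y + P.f1 y ^ 2) := by
      have b1 : |(P.f2 x - s) * P.f2 y| ≤ a * ε * x ^ 2 * a := by
        rw [abs_mul]; exact mul_le_mul (hP.qd x) (hP.q2 y) (abs_nonneg _) (by positivity)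
      have b2 : |s * (P.f2 y - s)| ≤ a * (a * ε * y ^ 2) := by
        rw [abs_mul, ← ha]; exact mul_le_mul_of_nonneg_left (hP.qd y) ha0
      have b3 : |P.f1 x ^ 2 * P.f2 y| ≤ s ^ 2 * x ^ 2 * a := by
        rw [abs_mul, abs_of_nonneg (sq_nonneg _)]
        exact mul_le_mul (hP.q1 x) (hP.q2 y) (abs_nonneg _) (by positivity)
      have b4 : |P.f2 x * P.f1 y ^ 2| ≤ a * (s ^ 2 * y ^ 2) := by
        rw [abs_mul, abs_of_nonneg (sq_nonneg (P.f1 y))]
        exact mul_le_mul (hP.q2 x) (hP.q1 y) (sq_nonneg _) ha0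
      have hAB := mul_nonneg (sq_nonneg (P.f1 x)) (sq_nonneg (P.f1 y))
      have l1 := (abs_le.1 b1).1
      have l2 := (abs_le.1 b2).1
      have l3 := (abs_le.1 b3).1
      have l4 := (abs_le.1 b4).1
      rw [ha2] at l3 l4 ⊢
      linarith
    have main : s ^ 2 * (2 - (32 * ε + 104 * a) * S)
        ≤ 2 * (T * ((P.f2 x + P.f1 x ^ 2) * (P.f2 y + P.f1 y ^ 2)))
          - 8 * (T * ((a + s ^ 2 * x ^ 2) * (s ^ 2 * y ^ 2))) := by
      have m1 := mul_le_mul_of_nonneg_left hqq hT0
      have m2 : T * ((a + s ^ 2 * x ^ 2) * (s ^ 2 * y ^ 2)) = s ^ 2 * a * (T * (y ^ 2 * (1 + a * x ^ 2))) := by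
        rw [ha2]; ring
      have m3 := mul_le_mul_of_nonneg_left hy2 (show 0 ≤ s ^ 2 * a by positivity)
      have m4 := mul_le_mul_of_nonneg_left (add_le_add hx1 hy1)
        (show 0 ≤ s ^ 2 * (ε + a) by positivity)
      have m5 := mul_le_mul_of_nonneg_left hlo (sq_nonneg s)
      linarith
    have hd := mul_le_mul_of_nonneg_left (div_le_div_of_nonneg_right main (sq_nonneg n)) (sq_nonneg (D z w))
    refine le_trans (le_of_eq ?_) (hd.trans (le_of_eq ?_))
    · simp only [hS]; ring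
    · simp only [qvec, hT, hp, hx, hy]
      field_simp
  have hk := Finset.sum_le_sum (s := Finset.univ) fun z _ => Finset.sum_le_sum (s := Finset.univ) fun w _ => key z w
  simp only [Finset.sum_sub_distrib, ← Finset.mul_sum] at hk
  have e : s ^ 2 / n ^ 2 * ∑ z, ∑ w, D z w ^ 2 *
        (2 - (32 * ε + 104 * a) * (wt (u z) + wt (u w) + (∑ b, wt (u b)) / n))
      = ∑ z, ∑ w, D z w ^ 2 * (s ^ 2 / n ^ 2 *
        (2 - (32 * ε + 104 * a) * (wt (u z) + wt (u w) + (∑ b, wt (u b)) / n))) := by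
    simp only [Finset.mul_sum]
    exact Finset.sum_congr rfl fun z _ => Finset.sum_congr rfl fun w _ => by ring
  rw [e]
  nlinarith [sq_nonneg (sform P D u)]

/-- Near quadratic weak potentials satisfy the mixing inequality, whatever their size. -/
theorem mixIneq_quad (hP : QuadLike P s ε) (hs : 312 * |s| + 96 * ε ≤ 1) (hε : 0 ≤ ε) :
    MixIneq fun x => exp (P.f0 x) := by
  refine mixIneq_of P fun ι Y _ _ _ D hD h0 v hv => ?_
  have hs' : |s| ≤ 1 / 48 := by linarith [abs_nonneg s]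
  set c := 32 * ε + 104 * |s| with hc
  have hc0 : 0 ≤ c := by positivity
  set n : ℝ := (Fintype.card Y : ℝ)
  have hn : 0 < n := by simp only [n]; exact_mod_cast Fintype.card_pos
  have iw : ∀ y, Integrable (fun g => wt (dot g (v y))) (gauss ι) := fun y => (integral_wt_dot (hv y)).1
  have hw : ∀ y, ∫ g, wt (dot g (v y)) ∂gauss ι ≤ 2 := fun y => (integral_wt_dot (hv y)).2
  have iS : ∀ z w, Integrable (fun g =>
      wt (dot g (v z)) + wt (dot g (v w)) + (∑ a, wt (dot g (v a))) / n) (gauss ι) := fun z w =>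
    ((iw z).add (iw w)).add ((integrable_finsetSum _ fun a _ => iw a).div_const n)
  have iT : ∀ z w, Integrable (fun g => D z w ^ 2 *
      (2 - c * (wt (dot g (v z)) + wt (dot g (v w)) + (∑ a, wt (dot g (v a))) / n))) (gauss ι) :=
    fun z w => ((integrable_const _).sub ((iS z w).const_mul c)).const_mul _
  have iH : ∀ z w, Integrable (fun g => D z w * shess P D z w (fun y => dot g (v y))) (gauss ι) := by
    intro z w
    obtain ⟨B, hB⟩ := bdd_shess P D z w
    exact (Integrable.of_bound ((measurable_shess P D z w).comp (measurable_pi_lambda _ fun y =>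
      measurable_dot_left (v y))).aestronglyMeasurable B (ae_of_all _ fun g => hB _)).const_mul _
  refine le_trans ?_ (integral_mono ((integrable_finsetSum _ fun z _ => integrable_finsetSum _ fun w _ =>
    iT z w).const_mul (s ^ 2 / n ^ 2)) (integrable_finsetSum _ fun z _ => integrable_finsetSum _ fun w _ =>
    iH z w) fun g => shess_lower_quad hP hs' hε hD h0 fun y => dot g (v y))
  rw [integral_const_mul, integral_finsetSum _ fun z _ => integrable_finsetSum _ fun w _ => iT z w]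
  refine mul_nonneg (by positivity) (Finset.sum_nonneg fun z _ => ?_)
  rw [integral_finsetSum _ fun w _ => iT z w]
  refine Finset.sum_nonneg fun w _ => ?_
  rw [integral_const_mul]
  refine mul_nonneg (sq_nonneg _) ?_
  rw [integral_sub (integrable_const _) ((iS z w).const_mul c), integral_const, probReal_univ, one_smul,
    integral_const_mul]
  have e2 : ∫ g, (wt (dot g (v z)) + wt (dot g (v w))) ∂gauss ι ≤ 4 := by
    rw [integral_add (iw z) (iw w)]; linarith [hw z, hw w]
  have e3 : ∫ g, (∑ a, wt (dot g (v a))) / n ∂gauss ι ≤ 2 := by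
    rw [integral_div, integral_finsetSum _ fun a _ => iw a, div_le_iff₀ hn]
    calc ∑ a, ∫ g, wt (dot g (v a)) ∂gauss ι ≤ ∑ _a : Y, (2 : ℝ) := Finset.sum_le_sum fun a _ => hw a
      _ = 2 * n := by simp [n, mul_comm]
  have e4 : ∫ g, (wt (dot g (v z)) + wt (dot g (v w)) + (∑ a, wt (dot g (v a))) / n) ∂gauss ι ≤ 6 := by
    refine (integral_add ((iw z).add (iw w)) ((integrable_finsetSum _ fun a _ => iw a).div_const n)).le.trans ?_
    simp only [Pi.add_apply]
    linarith
  have e5 := mul_le_mul_of_nonneg_left e4 hc0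
  linarith

end Vale.Agent.P157
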