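import Mathlib

/-!
# P157: direction and length of a standard Gaussian vector are independent
-/

open MeasureTheory ProbabilityTheory Real Metric Set
open scoped RealInnerProductSpace

namespace Vale.Agent.P157

variable (E : Type) [NormedAddCommGroup E] [InnerProductSpace ℝ E] [FiniteDimensional ℝ E]
  [MeasurableSpace E] [BorelSpace E]

/-- Normalised surface measure, as a measure on the ambient space. -/
noncomputable def sphereLaw : Measure E :=
  (((volume : Measure E).toSphere univ)⁻¹ • (volume : Measure E).toSphere).map Subtype.val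

theorem toSphere_univ_ne [Nontrivial E] : (volume : Measure E).toSphere univ ≠ 0 :=
  fun h => Measure.toSphere_ne_zero (volume : Measure E) (Measure.measure_univ_eq_zero.1 h)

instance sphereLaw_isProb [Nontrivial E] : IsProbabilityMeasure (sphereLaw E) := by
  have : IsProbabilityMeasure (((volume : Measure E).toSphere univ)⁻¹ • (volume : Measure E).toSphere) :=
    ⟨by rw [Measure.smul_apply, smul_eq_mul,
      ENNReal.inv_mul_cancel (toSphere_univ_ne E) (measure_ne_top _ _)]⟩
  exact Measure.isProbabilityMeasure_map (by fun_prop)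

theorem sphereLaw_norm : ∀ᵐ z ∂sphereLaw E, ‖z‖ = 1 := by
  rw [sphereLaw, ae_map_iff (by fun_prop) (measurableSet_eq_fun continuous_norm.measurable measurable_const)]
  exact ae_of_all _ fun z => by simp

/-- The unnormalised Gaussian density. -/
noncomputable def rawGauss : Measure E :=
  (volume : Measure E).withDensity fun z => ENNReal.ofReal (exp (-‖z‖ ^ 2 / 2))

omit [FiniteDimensional ℝ E] [MeasurableSpace E] [BorelSpace E] in
theorem cexp_gauss (z t : E) :
    Complex.exp (-(1 / 2 : ℂ) * (‖z‖ : ℂ) ^ 2 + Complex.I * (⟪t, z⟫ : ℝ))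
      = (exp (-‖z‖ ^ 2 / 2) : ℝ) • Complex.exp ((⟪z, t⟫ : ℝ) * Complex.I) := by
  rw [real_inner_comm, Complex.real_smul, Complex.ofReal_exp, ← Complex.exp_add]
  congr 1
  push_cast
  ring

theorem integrable_gauss : Integrable (fun z : E => exp (-‖z‖ ^ 2 / 2)) := by
  have h := (GaussianFourier.integrable_cexp_neg_mul_sq_norm_add (V := E)
    (b := (1 / 2 : ℂ)) (by norm_num) 0 0).norm
  refine h.congr (ae_of_all _ fun z => ?_)
  simp only [zero_mul, add_zero, Complex.norm_exp]
  norm_num [← Complex.ofReal_pow]
  ring_nf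

instance rawGauss_finite : IsFiniteMeasure (rawGauss E) :=
  isFiniteMeasure_withDensity_ofReal (integrable_gauss E).2

theorem charFun_rawGauss (t : E) :
    charFun (rawGauss E) t
      = ((π : ℂ) / (1 / 2)) ^ (Module.finrank ℝ E / 2 : ℂ) * Complex.exp (-(‖t‖ : ℂ) ^ 2 / 2) := by
  rw [charFun_apply, rawGauss, integral_withDensity_eq_integral_toReal_smul (by fun_prop)
    (ae_of_all _ fun _ => ENNReal.ofReal_lt_top)]
  simp_rw [ENNReal.toReal_ofReal (exp_pos _).le, ← cexp_gauss]
  rw [GaussianFourier.integral_cexp_neg_mul_sq_norm_add (by norm_num) Complex.I t]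
  congr 2
  rw [Complex.I_sq]
  ring

theorem stdGaussian_eq_rawGauss :
    stdGaussian E = (rawGauss E univ)⁻¹ • rawGauss E := by
  have h0 : rawGauss E univ ≠ 0 := by
    rw [rawGauss, withDensity_apply _ MeasurableSet.univ, setLIntegral_univ,
      ← ofReal_integral_eq_lintegral_ofReal (integrable_gauss E) (ae_of_all _ fun _ => (exp_pos _).le)]
    rw [ne_eq, ENNReal.ofReal_eq_zero, not_le]
    exact integral_exp_pos (integrable_gauss E)
  have : IsProbabilityMeasure ((rawGauss E univ)⁻¹ • rawGauss E) :=
    ⟨by rw [Measure.smul_apply, smul_eq_mul, ENNReal.inv_mul_cancel h0 (measure_ne_top _ _)]⟩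
  apply Measure.ext_of_charFun
  funext t
  have hz := charFun_rawGauss E 0
  rw [charFun_zero] at hz
  simp only [norm_zero, Complex.ofReal_zero, ne_eq, OfNat.ofNat_ne_zero, not_false_eq_true,
    zero_pow, neg_zero, zero_div, Complex.exp_zero, mul_one] at hz
  rw [charFun_stdGaussian, charFun_apply, integral_smul_measure, ← charFun_apply, charFun_rawGauss,
    ← hz, ENNReal.toReal_inv, ← measureReal_def, Complex.real_smul]
  have hr : ((rawGauss E).real univ : ℂ) ≠ 0 := by
    exact_mod_cast (ENNReal.toReal_ne_zero.2 ⟨h0, measure_ne_top _ _⟩)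
  push_cast
  field_simp

theorem polar_law [Nontrivial E] : ∃ ρ : Measure ℝ, IsProbabilityMeasure ρ ∧ (∀ᵐ r ∂ρ, 0 < r) ∧
    MeasurePreserving (fun z : E => (‖z‖⁻¹ • z, ‖z‖)) (stdGaussian E) ((sphereLaw E).prod ρ) := by
  let T : Measure (sphere (0 : E) 1) := (volume : Measure E).toSphere
  let V : Measure (Ioi (0 : ℝ)) := Measure.volumeIoiPow (Module.finrank ℝ E - 1)
  let Ψ : Ioi (0 : ℝ) → ENNReal := fun r => ENNReal.ofReal (exp (-(r.1) ^ 2 / 2))
  let φ : sphere (0 : E) 1 × Ioi (0 : ℝ) → E :=
    Subtype.val ∘ (homeomorphUnitSphereProd E).symm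
  have hφm : Measurable φ := measurable_subtype_coe.comp (Homeomorph.measurable _)
  have hφ : ∀ w, φ w = w.2.1 • w.1.1 := fun w => by simp [φ, homeomorphUnitSphereProd]
  have hvol : (volume : Measure E) = (T.prod V).map φ := by
    have h := (Measure.measurePreserving_homeomorphUnitSphereProd (volume : Measure E))
    have h2 : ((T.prod V).map (homeomorphUnitSphereProd E).symm)
        = (volume : Measure E).comap (Subtype.val : ({0}ᶜ : Set E) → E) := by
      rw [← h.map_eq, Measure.map_map (Homeomorph.measurable _) (Homeomorph.measurable _)]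
      simp
    rw [← Measure.map_map measurable_subtype_coe (Homeomorph.measurable _), h2,
      map_comap_subtype_coe (measurableSet_singleton 0).compl, restrict_compl_singleton]
  have hmap : (rawGauss E).map (fun z : E => (‖z‖⁻¹ • z, ‖z‖))
      = (T.map Subtype.val).prod ((V.withDensity Ψ).map Subtype.val) := by
    have hF : Measurable fun z : E => (‖z‖⁻¹ • z, ‖z‖) := by fun_prop
    have hwd : rawGauss E = ((T.prod V).withDensity (fun w => Ψ w.2)).map φ := by
      refine Measure.ext fun s hs => ?_
      rw [rawGauss, withDensity_apply _ hs, hvol, setLIntegral_map hs (by fun_prop) hφm,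
        Measure.map_apply hφm hs, withDensity_apply _ (hφm hs)]
      refine setLIntegral_congr_fun (hφm hs) fun w _ => ?_
      have : ‖φ w‖ = w.2.1 := by
        rw [hφ, norm_smul, norm_eq_of_mem_sphere, mul_one, Real.norm_eq_abs, abs_of_pos w.2.2]
      simp only [Ψ, this]
    have hsf : SFinite (V.withDensity Ψ) := inferInstance
    rw [hwd, Measure.map_map hF hφm, Measure.map_prod_map _ _ measurable_subtype_coe
      measurable_subtype_coe, prod_withDensity_right (by fun_prop)]
    congr 1
    funext w
    have hn : ‖φ w‖ = w.2.1 := by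
      rw [hφ, norm_smul, norm_eq_of_mem_sphere, mul_one, Real.norm_eq_abs, abs_of_pos w.2.2]
    simp only [Function.comp_apply, Prod.map, hn]
    rw [hφ, inv_smul_smul₀ w.2.2.ne']
  let ρ : Measure ℝ := (T univ * (rawGauss E univ)⁻¹) • (V.withDensity Ψ).map Subtype.val
  have hmp : (stdGaussian E).map (fun z : E => (‖z‖⁻¹ • z, ‖z‖)) = (sphereLaw E).prod ρ := by
    rw [stdGaussian_eq_rawGauss, Measure.map_smul, hmap]
    simp only [sphereLaw, ρ, Measure.map_smul, Measure.prod_smul_left, Measure.prod_smul_right,
      smul_smul]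
    congr 1
    show _ = (T univ * _) * (T univ)⁻¹
    rw [mul_comm (T univ), mul_assoc, ENNReal.mul_inv_cancel (toSphere_univ_ne E) (measure_ne_top _ _),
      mul_one]
  have hρ : IsProbabilityMeasure ρ := by
    constructor
    have h1 := congrArg (fun m : Measure (E × ℝ) => m univ) hmp
    have hz : IsProbabilityMeasure ((stdGaussian E).map (fun z : E => (‖z‖⁻¹ • z, ‖z‖))) :=
      Measure.isProbabilityMeasure_map (by fun_prop)
    rw [measure_univ, ← univ_prod_univ, Measure.prod_prod, measure_univ, one_mul] at h1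
    exact h1.symm
  refine ⟨ρ, hρ, ?_, ⟨by fun_prop, hmp⟩⟩
  refine Measure.ae_smul_measure ?_ _
  rw [ae_map_iff (by fun_prop) measurableSet_Ioi]
  exact ae_of_all _ fun r => r.2

end Vale.Agent.P157
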