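import Vale.Agent.P157.Finite
import Vale.Agent.P157.Blocks

/-!
# P157: from finitely many configurations to an arbitrary probability space
-/

open MeasureTheory ProbabilityTheory Real Filter Topology

namespace Vale.Agent.P157

variable (P : Potential) {ι X : Type} [Fintype ι] [MeasurableSpace X]

theorem log_dist {a b M : ℝ} (ha : exp (-M) ≤ a) (hb : exp (-M) ≤ b) :
    |log a - log b| ≤ exp M * |a - b| := by
  have key : ∀ {a b : ℝ}, exp (-M) ≤ a → exp (-M) ≤ b → log a - log b ≤ exp M * |a - b| := by
    intro a b ha hb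
    have hb0 : 0 < b := (exp_pos _).trans_le hb
    have ha0 : 0 < a := (exp_pos _).trans_le ha
    have h := log_le_sub_one_of_pos (div_pos ha0 hb0)
    rw [log_div ha0.ne' hb0.ne'] at h
    have e : a / b - 1 = (a - b) / b := by field_simp
    have h2 : (a - b) / b ≤ |a - b| / exp (-M) :=
      (div_le_div_of_nonneg_right (le_abs_self _) hb0.le).trans
        (div_le_div_of_nonneg_left (abs_nonneg _) (exp_pos _) hb)
    rw [exp_neg, div_inv_eq_mul, mul_comm] at h2
    linarith
  rw [abs_le]
  constructor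
  · have := key hb ha; rw [abs_sub_comm b] at this; linarith
  · exact key ha hb

/-- The sampled one-step average. -/
noncomputable def sampled (μ : Measure X) (v : X → ι → ℝ) (n : ℕ) : ℝ :=
  ∫ s, (∫ g, lavg P (fun k : Fin n => dot g (v (s k))) ∂gauss ι) ∂(Measure.pi fun _ : Fin n => μ)

theorem sampled_integrable (μ : Measure X) [IsProbabilityMeasure μ] {v : X → ι → ℝ} (hv : Measurable v)
    (n : ℕ) [NeZero n] :
    Integrable (fun z : (Fin n → X) × (ι → ℝ) => lavg P (fun k : Fin n => dot z.2 (v (z.1 k))))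
      ((Measure.pi fun _ : Fin n => μ).prod (gauss ι)) := by
  refine Integrable.of_bound ?_ P.b0 (ae_of_all _ fun z => abs_lavg_le P _)
  refine ((measurable_lavg P).comp (measurable_pi_lambda _ fun k => ?_)).aestronglyMeasurable
  exact continuous_dot.measurable.comp (measurable_snd.prodMk
    (hv.comp ((measurable_pi_apply k).comp measurable_fst)))

theorem sampled_close (μ : Measure X) [IsProbabilityMeasure μ] {v : X → ι → ℝ} (hv : Measurable v)
    (n : ℕ) [NeZero n] :
    |sampled P μ v n - oneStep (fun x => exp (P.f0 x)) μ v| ≤ exp P.b0 * exp P.b0 / √(n : ℝ) := by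
  have hn : (0 : ℝ) < n := by exact_mod_cast Nat.pos_of_ne_zero (NeZero.ne n)
  set ρ := Measure.pi fun _ : Fin n => μ with hρ
  set e : ℝ := exp P.b0 with he
  have he0 : 0 < e := exp_pos _
  have hb : ∀ x, exp (-P.b0) ≤ exp (P.f0 x) ∧ exp (P.f0 x) ≤ e := fun x =>
    ⟨exp_le_exp.2 (abs_le.1 (P.h0 x)).1, exp_le_exp.2 (abs_le.1 (P.h0 x)).2⟩
  have hfi := sampled_integrable P μ hv n
  set I : (ι → ℝ) → ℝ := fun g => ∫ x, exp (P.f0 (dot g (v x))) ∂μ with hI
  have hXm : ∀ g, Measurable fun x => exp (P.f0 (dot g (v x))) := fun g =>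
    (P.measurable0.comp (continuous_dot.measurable.comp (measurable_const.prodMk hv))).exp
  have hXi : ∀ g, Integrable (fun x => exp (P.f0 (dot g (v x)))) μ := fun g =>
    Integrable.of_bound (hXm g).aestronglyMeasurable e (ae_of_all _ fun x => by
      rw [Real.norm_eq_abs, abs_of_pos (exp_pos _)]; exact (hb _).2)
  have hIlo : ∀ g, exp (-P.b0) ≤ I g := fun g => by
    simpa using integral_mono (integrable_const (exp (-P.b0))) (hXi g) fun x => (hb _).1
  have hIup : ∀ g, I g ≤ e := fun g => by
    simpa using integral_mono (hXi g) (integrable_const e) fun x => (hb _).2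
  have hIm : Measurable I := by
    have : Measurable fun z : (ι → ℝ) × X => exp (P.f0 (dot z.1 (v z.2))) :=
      (P.measurable0.comp (continuous_dot.measurable.comp
        (measurable_fst.prodMk (hv.comp measurable_snd)))).exp
    exact this.stronglyMeasurable.integral_prod_right'.measurable
  have hdev : ∀ g, |∫ s, lavg P (fun k : Fin n => dot g (v (s k))) ∂ρ - log (I g)| ≤ e * e / √(n : ℝ) := by
    intro g
    set Z : (Fin n → X) → ℝ := fun s => ∑ k, exp (P.f0 (dot g (v (s k)))) with hZ
    have hterm : MemLp (fun x => exp (P.f0 (dot g (v x)))) 2 μ :=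
      MemLp.of_bound (hXm g).aestronglyMeasurable e (ae_of_all _ fun x => by
        rw [Real.norm_eq_abs, abs_of_pos (exp_pos _)]; exact (hb _).2)
    have hZ2 : MemLp Z 2 ρ := memLp_finsetSum _ fun k _ =>
      hterm.comp_measurePreserving (measurePreserving_eval (fun _ : Fin n => μ) k)
    have hmean : ∫ s, Z s ∂ρ = n * I g := by
      have hti : ∀ k : Fin n, Integrable (fun s : Fin n → X => exp (P.f0 (dot g (v (s k))))) ρ := fun k =>
        (hterm.comp_measurePreserving (measurePreserving_eval (fun _ : Fin n => μ) k)).integrable one_le_two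
      show ∫ s, ∑ k, exp (P.f0 (dot g (v (s k)))) ∂ρ = _
      rw [integral_finsetSum _ fun k _ => hti k]
      rw [Finset.sum_congr rfl fun k _ => integral_of_preserving
        (measurePreserving_eval (fun _ : Fin n => μ) k) (f := fun x => exp (P.f0 (dot g (v x)))) (hXm g)]
      simp [hI]
    have hvar : ∫ s, (Z s - n * I g) ^ 2 ∂ρ ≤ n * e ^ 2 := by
      rw [← hmean, ← variance_eq_integral hZ2.aemeasurable]
      have h := variance_sum_pi (μ := fun _ : Fin n => μ)
        (X := fun _ x => exp (P.f0 (dot g (v x)))) (fun _ => hterm)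
      have e1 : (∑ k : Fin n, fun s : Fin n → X => exp (P.f0 (dot g (v (s k))))) = Z := by
        funext s; simp [hZ]
      rw [e1] at h
      rw [hρ, h]
      refine (Finset.sum_le_sum (g := fun _ => e ^ 2) fun k _ => ?_).trans (le_of_eq (by simp))
      refine (variance_le_expectation_sq (hXm g).aestronglyMeasurable).trans ?_
      refine (integral_mono_of_nonneg (ae_of_all _ fun x => sq_nonneg _) (integrable_const (e ^ 2))
        (ae_of_all _ fun x => ?_)).trans (le_of_eq (by simp))
      exact pow_le_pow_left₀ (exp_pos _).le (hb _).2 2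
    have hr : 0 < √(n : ℝ) * e := mul_pos (Real.sqrt_pos.2 hn) he0
    have hsub : MemLp (fun s => Z s - n * I g) 2 ρ := hZ2.sub (memLp_const (n * I g))
    have hsq : Integrable (fun s => (Z s - n * I g) ^ 2) ρ := hsub.integrable_sq
    have habs : Integrable (fun s => |Z s - n * I g|) ρ := (hsub.integrable one_le_two).abs
    have h2 := integral_mono (habs.const_mul 2) ((hsq.div_const _).add (integrable_const _))
      fun s => two_mul_abs_le (d := Z s - n * I g) hr
    simp only [Pi.add_apply] at h2
    rw [integral_const_mul, integral_add (hsq.div_const _) (integrable_const _), integral_div,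
      integral_const, probReal_univ, one_smul] at h2
    have h3 : ∫ s, |Z s - n * I g| ∂ρ ≤ √(n : ℝ) * e := by
      have : (∫ s, (Z s - n * I g) ^ 2 ∂ρ) / (√(n : ℝ) * e) ≤ √(n : ℝ) * e := by
        rw [div_le_iff₀ hr]
        refine hvar.trans (le_of_eq ?_)
        linear_combination (-(e ^ 2)) * Real.mul_self_sqrt hn.le
      linarith
    have hli : Integrable (fun s => lavg P (fun k : Fin n => dot g (v (s k)))) ρ := by
      refine Integrable.of_bound ?_ P.b0 (ae_of_all _ fun s => abs_lavg_le P _)
      exact ((measurable_lavg P).comp (measurable_pi_lambda _ fun k =>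
        continuous_dot.measurable.comp (measurable_const.prodMk (hv.comp (measurable_pi_apply k))))).aestronglyMeasurable
    have hpt : ∀ s, |lavg P (fun k : Fin n => dot g (v (s k))) - log (I g)| ≤ e / n * |Z s - n * I g| := by
      intro s
      have ez : zsum P (fun k : Fin n => dot g (v (s k))) = Z s := rfl
      rw [lavg, ez, Fintype.card_fin]
      refine (log_dist (M := P.b0) ?_ (hIlo g)).trans (le_of_eq ?_)
      · rw [le_div_iff₀ hn]
        calc exp (-P.b0) * n = ∑ _k : Fin n, exp (-P.b0) := by simp [mul_comm]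
          _ ≤ _ := Finset.sum_le_sum fun k _ => (hb _).1
      · rw [show Z s / (n : ℝ) - I g = (Z s - n * I g) / n by field_simp, abs_div, abs_of_pos hn]
        ring
    calc |∫ s, lavg P (fun k : Fin n => dot g (v (s k))) ∂ρ - log (I g)|
        = |∫ s, (lavg P (fun k : Fin n => dot g (v (s k))) - log (I g)) ∂ρ| := by
          rw [integral_sub hli (integrable_const _)]; simp
      _ ≤ ∫ s, e / n * |Z s - n * I g| ∂ρ :=
          abs_integral_le_integral_abs.trans (integral_mono (hli.sub (integrable_const _)).abs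
            (habs.const_mul _) hpt)
      _ ≤ e / n * (√(n : ℝ) * e) := by
          rw [integral_const_mul]; exact mul_le_mul_of_nonneg_left h3 (by positivity)
      _ = e * e / √(n : ℝ) := by
          have hs0 := Real.sqrt_pos.2 hn
          field_simp
          linear_combination Real.mul_self_sqrt hn.le
  have hli : Integrable (fun g => log (I g)) (gauss ι) :=
    Integrable.of_bound hIm.log.aestronglyMeasurable P.b0 (ae_of_all _ fun g => by
      rw [Real.norm_eq_abs, abs_le]
      exact ⟨(log_exp (-P.b0)).symm.le.trans (log_le_log (exp_pos _) (hIlo g)),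
        (log_le_log ((exp_pos _).trans_le (hIlo g)) (hIup g)).trans (log_exp _).le⟩)
  rw [sampled, integral_integral_swap hfi, oneStep, ← hρ]
  show |∫ g, _ ∂gauss ι - ∫ g, log (I g) ∂gauss ι| ≤ _
  rw [← integral_sub hfi.integral_prod_right hli]
  refine abs_integral_le_integral_abs.trans ((integral_mono (hfi.integral_prod_right.sub hli).abs
    (integrable_const _) hdev).trans (le_of_eq ?_))
  simp

/-- Mixing inequalities for every finite family give the same for every probability space. -/
theorem mixIneq_of_fin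
    (hfin : ∀ (ι : Type) [Fintype ι] (n : ℕ) [NeZero n] (w₁ w₂ : Fin n → ι → ℝ) (p : ℝ),
      0 ≤ p → p ≤ 1 → (∀ y, ∑ i, w₁ y i ^ 2 = 1) → (∀ y, ∑ i, w₂ y i ^ 2 = 1) →
      (∀ x y i, w₁ x i * w₂ y i = 0) →
      p * ∫ g, lavg P (fun y => dot g (w₁ y)) ∂gauss ι
        + (1 - p) * ∫ g, lavg P (fun y => dot g (w₂ y)) ∂gauss ι
        ≤ ∫ g, lavg P (fun y => dot g (mixVec w₁ w₂ p y)) ∂gauss ι) :
    MixIneq fun x => exp (P.f0 x) := by
  intro ι X _ _ μ _ v w₁ w₂ p hp hp1 hv h₁ h₂ hvw hd hn₁ hn₂
  set U : ℝ → ℝ := fun x => exp (P.f0 x)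
  set C := exp P.b0 * exp P.b0
  have main : ∀ n : ℕ, p * oneStep U μ w₁ + (1 - p) * oneStep U μ w₂
      ≤ oneStep U μ v + 2 * C / √((n + 1 : ℕ) : ℝ) := by
    intro n
    have c0 := abs_le.1 (sampled_close P μ hv (n + 1))
    have c1 := abs_le.1 (sampled_close P μ h₁ (n + 1))
    have c2 := abs_le.1 (sampled_close P μ h₂ (n + 1))
    have key : p * sampled P μ w₁ (n + 1) + (1 - p) * sampled P μ w₂ (n + 1) ≤ sampled P μ v (n + 1) := by
      have i0 := (sampled_integrable P μ hv (n + 1)).integral_prod_left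
      have i1 := (sampled_integrable P μ h₁ (n + 1)).integral_prod_left
      have i2 := (sampled_integrable P μ h₂ (n + 1)).integral_prod_left
      simp only [sampled]
      rw [← integral_const_mul, ← integral_const_mul, ← integral_add (i1.const_mul _) (i2.const_mul _)]
      refine integral_mono_ae ((i1.const_mul _).add (i2.const_mul _)) i0 ?_
      filter_upwards [ae_all_iff.2 fun k : Fin (n + 1) =>
          (measurePreserving_eval (fun _ : Fin (n + 1) => μ) k).quasiMeasurePreserving.ae hn₁,
        ae_all_iff.2 fun k : Fin (n + 1) =>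
          (measurePreserving_eval (fun _ : Fin (n + 1) => μ) k).quasiMeasurePreserving.ae hn₂]
        with s hs₁ hs₂
      have e : ∀ k, v (s k) = mixVec (fun k => w₁ (s k)) (fun k => w₂ (s k)) p k := fun k =>
        funext fun i => hvw _ _
      simp only [Pi.add_apply, e]
      exact hfin ι (n + 1) _ _ p hp hp1 hs₁ hs₂ (fun x y i => hd _ _ i)
    have hC : 0 ≤ C / √((n + 1 : ℕ) : ℝ) := by positivity
    have a1 := mul_le_mul_of_nonneg_left c1.1 hp
    have a2 := mul_le_mul_of_nonneg_left c2.1 (sub_nonneg.2 hp1)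
    rw [mul_div_assoc]
    linarith [c0.2]
  have hlim : Tendsto (fun n : ℕ => oneStep U μ v + 2 * C / √((n + 1 : ℕ) : ℝ)) atTop (𝓝 (oneStep U μ v)) := by
    have h1 : Tendsto (fun n : ℕ => √((n + 1 : ℕ) : ℝ)) atTop atTop :=
      tendsto_sqrt_atTop.comp (tendsto_natCast_atTop_atTop.comp (tendsto_add_atTop_nat 1))
    simpa using tendsto_const_nhds.add (Tendsto.const_div_atTop h1 (2 * C))
  exact ge_of_tendsto hlim (Eventually.of_forall main)

/-- A nonnegative integrated second derivative makes the expected log concave along orthogonal blocks of unit fields. -/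
theorem mixIneq_of
    (hpos : ∀ (ι Y : Type) [Fintype ι] [Fintype Y] [Nonempty Y] (D : Y → Y → ℝ),
      (∀ x y, D x y = D y x) → (∀ x, D x x = 0) → ∀ a : Y → ι → ℝ, (∀ y, ∑ i, a y i ^ 2 = 1) →
        0 ≤ ∫ g, ∑ z, ∑ w, D z w * shess P D z w (fun y => dot g (a y)) ∂gauss ι) : MixIneq fun x => exp (P.f0 x) :=
  mixIneq_of_fin P fun ι _ n _ w₁ w₂ p hp hp1 h₁ h₂ hd =>
    finite_mix_of P (hpos ι (Fin n)) h₁ h₂ hd hp hp1

/-- Weak potentials make the expected log concave along orthogonal blocks of unit fields. -/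
theorem mixIneq_small {κ : ℝ}
    (hK : ∀ (ι : Type) [Fintype ι] (a b : ι → ℝ), ∑ i, a i ^ 2 = 1 → ∑ i, b i ^ 2 = 1 →
      κ ≤ ∫ g, P.f2 (dot g a) * P.f2 (dot g b) ∂gauss ι)
    (hE : errTerm P ≤ κ) : MixIneq fun x => exp (P.f0 x) := by
  intro ι X _ _ μ _ v w₁ w₂ p hp hp1 hv h₁ h₂ hvw hd hn₁ hn₂
  exact (mixIneq_of P fun ι Y _ _ _ D hs h0 a ha => finite_hpos P (hK ι) hE hs h0 ha)
    ι X μ v w₁ w₂ p hp hp1 hv h₁ h₂ hvw hd hn₁ hn₂

end Vale.Agent.P157
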