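import Vale.Agent.P157.Cube
import Vale.Agent.P157.Radial

/-!
# P157: the sphere
-/

open MeasureTheory ProbabilityTheory Real Filter Topology Metric Set

namespace Vale.Agent.P157

/-- Coordinates of a point, as a field. -/
def sphereField (N : ℕ) (z : EuclideanSpace ℝ (Fin N)) (i : Fin N) : ℝ := z i

theorem measurable_sphereField (N : ℕ) : Measurable (sphereField N) := by
  unfold sphereField; fun_prop

theorem pressureSphere_eq {U f : ℝ → ℝ} {L : ℝ} (hU : BddWeight U L) (hUf : ∀ u, U u = exp (f u))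
    (α : ℝ) {N : ℕ} :
    pressureSphere f α N
      = manyStep U (sphereLaw (EuclideanSpace ℝ (Fin N))) (fun _ : Fin ⌊α * N⌋₊ => sphereField N) / N := by
  rcases Nat.eq_zero_or_pos N with rfl | hN
  · simp [pressureSphere]
  rw [pressureSphere, manyStep, patterns]
  congr 1
  refine integral_congr_ae (ae_of_all _ fun g => ?_)
  simp only
  congr 1
  have hm : Measurable fun z : EuclideanSpace ℝ (Fin N) =>
      ∏ a : Fin ⌊α * N⌋₊, U (dot (g a) (sphereField N z)) :=
    (prod_measurable hU (w := fun _ : Fin ⌊α * N⌋₊ => sphereField N)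
      fun _ => measurable_sphereField N).comp (measurable_const.prodMk measurable_id)
  rw [average_eq', sphereLaw, integral_map (by fun_prop) hm.aestronglyMeasurable]
  refine integral_congr_ae (ae_of_all _ fun x => ?_)
  simp only [exp_sum, hUf]
  refine Finset.prod_congr rfl fun a _ => ?_
  congr 2
  simp only [dot, sphereField, Finset.sum_div]
  refine Finset.sum_congr rfl fun i _ => ?_
  have : √(N : ℝ) ≠ 0 := (Real.sqrt_pos.2 (by positivity)).ne'
  field_simp

theorem sphereField_unit (N : ℕ) :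
    ∀ᵐ z ∂sphereLaw (EuclideanSpace ℝ (Fin N)), ∑ i, sphereField N z i ^ 2 = 1 :=
  (sphereLaw_norm _).mono fun z hz => by
    simp only [sphereField]
    rw [← EuclideanSpace.real_norm_sq_eq, hz, one_pow]

/-- Concatenation of two vectors. -/
noncomputable def joinVec (N₁ N₂ : ℕ) (z : EuclideanSpace ℝ (Fin N₁) × EuclideanSpace ℝ (Fin N₂)) :
    EuclideanSpace ℝ (Fin (N₁ + N₂)) :=
  WithLp.toLp 2 fun k => Sum.elim (fun i => z.1 i) (fun i => z.2 i) (finSumFinEquiv.symm k)

theorem measurable_joinVec (N₁ N₂ : ℕ) : Measurable (joinVec N₁ N₂) := by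
  unfold joinVec
  refine (WithLp.measurable_toLp 2 _).comp (measurable_pi_lambda _ fun k => ?_)
  rcases finSumFinEquiv.symm k with i | i <;> simp only [Sum.elim_inl, Sum.elim_inr] <;> fun_prop

theorem joinVec_preserving (N₁ N₂ : ℕ) : MeasurePreserving (joinVec N₁ N₂)
    ((stdGaussian (EuclideanSpace ℝ (Fin N₁))).prod (stdGaussian (EuclideanSpace ℝ (Fin N₂))))
    (stdGaussian (EuclideanSpace ℝ (Fin (N₁ + N₂)))) := by
  refine ⟨measurable_joinVec _ _, ?_⟩
  have h : MeasurePreserving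
      (fun x : (Fin N₁ → ℝ) × (Fin N₂ → ℝ) => MeasurableEquiv.piCongrLeft (fun _ => ℝ) finSumFinEquiv
        ((MeasurableEquiv.sumPiEquivProdPi fun _ : Fin N₁ ⊕ Fin N₂ => ℝ).symm x))
      ((gauss (Fin N₁)).prod (gauss (Fin N₂))) (gauss (Fin (N₁ + N₂))) :=
    (measurePreserving_piCongrLeft (α := fun _ => ℝ)
      (fun _ : Fin (N₁ + N₂) => gaussianReal 0 1) finSumFinEquiv).comp
      (measurePreserving_sumPiEquivProdPi_symm fun _ : Fin N₁ ⊕ Fin N₂ => gaussianReal 0 1)
  rw [← map_pi_eq_stdGaussian, ← map_pi_eq_stdGaussian, ← map_pi_eq_stdGaussian,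
    Measure.map_prod_map _ _ (WithLp.measurable_toLp 2 _) (WithLp.measurable_toLp 2 _),
    Measure.map_map (measurable_joinVec _ _)
      ((WithLp.measurable_toLp 2 _).prodMap (WithLp.measurable_toLp 2 _))]
  show Measure.map _ ((gauss (Fin N₁)).prod (gauss (Fin N₂))) = Measure.map _ (gauss (Fin (N₁ + N₂)))
  conv_rhs => rw [← h.map_eq, Measure.map_map (WithLp.measurable_toLp 2 _) h.measurable]
  congr 1
  funext x
  simp only [Function.comp_apply, joinVec, Prod.map]
  congr 1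
  funext k
  obtain ⟨c, rfl⟩ := finSumFinEquiv.surjective k
  rw [Equiv.symm_apply_apply, MeasurableEquiv.coe_piCongrLeft, Equiv.piCongrLeft_apply_apply]
  rcases c with i | i <;> rfl

theorem four_comm {A B C D : Type*} [MeasurableSpace A] [MeasurableSpace B] [MeasurableSpace C]
    [MeasurableSpace D] (a : Measure A) (b : Measure B) (c : Measure C) (d : Measure D)
    [IsProbabilityMeasure a] [IsProbabilityMeasure b] [IsProbabilityMeasure c]
    [IsProbabilityMeasure d] :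
    MeasurePreserving (fun x : (A × B) × (C × D) => ((x.1.1, x.2.1), (x.1.2, x.2.2)))
      ((a.prod b).prod (c.prod d)) ((a.prod c).prod (b.prod d)) :=
  (measurePreserving_prodAssoc a c (b.prod d)).symm _ |>.comp
    (((MeasurePreserving.id a).prod
      ((measurePreserving_prodAssoc c b d).comp
        (((Measure.measurePreserving_swap (μ := b) (ν := c)).prod (MeasurePreserving.id d)).comp
          ((measurePreserving_prodAssoc b c d).symm _)))).comp
      (measurePreserving_prodAssoc a b (c.prod d)))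

/-- The expected deviation of a weighted sum of squares. -/
theorem chi_dev {ι : Type} [Fintype ι] (c : ι → ℝ) (hc : ∀ i, |c i| ≤ 1) (h0 : ∑ i, c i = 0)
    (hn : 0 < Fintype.card ι) :
    Integrable (fun g => |∑ i, c i * g i ^ 2|) (gauss ι) ∧
      ∫ g, |∑ i, c i * g i ^ 2| ∂gauss ι
        ≤ (Var[fun x : ℝ => x ^ 2; gaussianReal 0 1] + 1) * √(Fintype.card ι : ℝ) := by
  set V := Var[fun x : ℝ => x ^ 2; gaussianReal 0 1] with hV
  have hV0 : 0 ≤ V := variance_nonneg _ _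
  have h2 : MemLp (fun x : ℝ => x ^ 2) 2 (gaussianReal 0 1) := by
    rw [memLp_two_iff_integrable_sq (by fun_prop)]
    have h := (memLp_id_gaussianReal (μ := 0) (v := 1) (4 : NNReal)).integrable_norm_pow (p := 4) (by norm_num)
    refine h.congr (ae_of_all _ fun x => ?_)
    simp only [id, Real.norm_eq_abs]
    rw [← pow_mul, Even.pow_abs (by decide)]
  have hterm : ∀ i, MemLp (fun x : ℝ => c i * x ^ 2) 2 (gaussianReal 0 1) := fun i => h2.const_mul _
  have hS : MemLp (fun g : ι → ℝ => ∑ i, c i * g i ^ 2) 2 (gauss ι) :=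
    memLp_finsetSum _ fun i _ =>
      (hterm i).comp_measurePreserving (measurePreserving_eval (fun _ : ι => gaussianReal 0 1) i)
  have he2 : ∫ x, x ^ 2 ∂gaussianReal 0 1 = 1 := by
    have h := variance_id_gaussianReal (μ := 0) (v := 1)
    rw [variance_of_integral_eq_zero (by fun_prop) (by simp)] at h
    simpa using h
  have hmean : ∫ g, ∑ i, c i * g i ^ 2 ∂gauss ι = 0 := by
    have hti : ∀ i, Integrable (fun g : ι → ℝ => c i * g i ^ 2) (gauss ι) := fun i =>
      ((hterm i).comp_measurePreserving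
        (measurePreserving_eval (fun _ : ι => gaussianReal 0 1) i)).integrable (by norm_num)
    rw [integral_finsetSum _ fun i _ => hti i]
    rw [← h0]
    refine Finset.sum_congr rfl fun i _ => ?_
    rw [integral_const_mul, show (∫ g, g i ^ 2 ∂gauss ι) = ∫ x, x ^ 2 ∂gaussianReal 0 1 from
      integral_of_preserving (measurePreserving_eval (fun _ : ι => gaussianReal 0 1) i)
        (f := fun x : ℝ => x ^ 2) (by fun_prop), he2, mul_one]
  have hvar : ∫ g, (∑ i, c i * g i ^ 2) ^ 2 ∂gauss ι ≤ Fintype.card ι * V := by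
    rw [← variance_of_integral_eq_zero hS.aemeasurable hmean]
    have h := variance_sum_pi (μ := fun _ : ι => gaussianReal 0 1) (X := fun i x => c i * x ^ 2) hterm
    have e : (∑ i, fun g : ι → ℝ => c i * g i ^ 2) = fun g => ∑ i, c i * g i ^ 2 := by
      funext g; simp
    rw [e] at h
    rw [gauss, h]
    refine (Finset.sum_le_sum (g := fun _ => V) fun i _ => ?_).trans (le_of_eq (by simp))
    rw [variance_const_mul]
    exact mul_le_of_le_one_left hV0 ((sq_le_one_iff_abs_le_one _).2 (hc i))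
  have hi : Integrable (fun g : ι → ℝ => ∑ i, c i * g i ^ 2) (gauss ι) := hS.integrable (by norm_num)
  refine ⟨hi.abs, ?_⟩
  have hn0 : (0 : ℝ) < √(Fintype.card ι : ℝ) := Real.sqrt_pos.2 (by exact_mod_cast hn)
  have hb := integral_mono (hi.abs.const_mul 2)
    ((hS.integrable_sq.div_const _).add (integrable_const _))
    fun g => two_mul_abs_le (d := ∑ i, c i * g i ^ 2) hn0
  simp only [Pi.add_apply] at hb
  rw [integral_const_mul, integral_add (hS.integrable_sq.div_const _) (integrable_const _),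
    integral_div, integral_const, probReal_univ, one_smul] at hb
  have : (∫ g, (∑ i, c i * g i ^ 2) ^ 2 ∂gauss ι) / √(Fintype.card ι : ℝ)
      ≤ V * √(Fintype.card ι : ℝ) := by
    rw [div_le_iff₀ hn0, mul_assoc, Real.mul_self_sqrt (Nat.cast_nonneg _)]; linarith
  nlinarith

theorem sphere_super {U : ℝ → ℝ} {L α : ℝ} (hU : BddWeight U L) (hM : MixIneq U) (hα : 0 ≤ α)
    (N₁ N₂ : ℕ) (h₁ : 1 ≤ N₁) (h₂ : 1 ≤ N₂) :
    manyStep U (sphereLaw (EuclideanSpace ℝ (Fin N₁))) (fun _ : Fin ⌊α * N₁⌋₊ => sphereField N₁)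
      + manyStep U (sphereLaw (EuclideanSpace ℝ (Fin N₂))) (fun _ : Fin ⌊α * N₂⌋₊ => sphereField N₂)
      - L * (2 * √(α + 1) + 4 + 2 * α * (Var[fun x : ℝ => x ^ 2; gaussianReal 0 1] + 1))
        * √((N₁ : ℝ) + N₂)
      ≤ manyStep U (sphereLaw (EuclideanSpace ℝ (Fin (N₁ + N₂))))
          (fun _ : Fin ⌊α * ((N₁ + N₂ : ℕ) : ℝ)⌋₊ => sphereField (N₁ + N₂)) := by
  have : Nonempty (Fin N₁) := ⟨⟨0, h₁⟩⟩
  have : Nonempty (Fin N₂) := ⟨⟨0, h₂⟩⟩
  have : Nonempty (Fin (N₁ + N₂)) := ⟨⟨0, by omega⟩⟩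
  obtain ⟨ρ₁, hρ₁, hpos₁, hF₁⟩ := polar_law (EuclideanSpace ℝ (Fin N₁))
  obtain ⟨ρ₂, hρ₂, hpos₂, hF₂⟩ := polar_law (EuclideanSpace ℝ (Fin N₂))
  obtain ⟨ρ, hρ, -, hF⟩ := polar_law (EuclideanSpace ℝ (Fin (N₁ + N₂)))
  set σ₁ := sphereLaw (EuclideanSpace ℝ (Fin N₁))
  set σ₂ := sphereLaw (EuclideanSpace ℝ (Fin N₂))
  set σ := sphereLaw (EuclideanSpace ℝ (Fin (N₁ + N₂)))
  set S : ℝ := (N₁ : ℝ) + N₂ with hS
  have hS0 : 0 < S := by positivity
  set p₀ : ℝ := N₁ / S with hp₀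
  set M := ⌊α * ((N₁ + N₂ : ℕ) : ℝ)⌋₊
  have back : ∀ {n : ℕ} {τ : Measure ℝ} {s : Measure (EuclideanSpace ℝ (Fin n))},
      MeasurePreserving (fun z : EuclideanSpace ℝ (Fin n) => (‖z‖⁻¹ • z, ‖z‖)) (stdGaussian _) (s.prod τ) →
      MeasurePreserving (fun w : EuclideanSpace ℝ (Fin n) × ℝ => w.2 • w.1) (s.prod τ) (stdGaussian _) := by
    intro n τ s h
    refine ⟨by fun_prop, ?_⟩
    rw [← h.map_eq, Measure.map_map (by fun_prop) (by fun_prop)]
    convert Measure.map_id using 2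
    funext z
    rcases eq_or_ne z 0 with rfl | hz
    · simp
    · simp [smul_inv_smul₀ (norm_ne_zero_iff.2 hz)]
  let Ψ : (EuclideanSpace ℝ (Fin N₁) × EuclideanSpace ℝ (Fin N₂)) × (ℝ × ℝ)
      → EuclideanSpace ℝ (Fin (N₁ + N₂)) :=
    fun x => ‖joinVec N₁ N₂ (x.2.1 • x.1.1, x.2.2 • x.1.2)‖⁻¹ •
      joinVec N₁ N₂ (x.2.1 • x.1.1, x.2.2 • x.1.2)
  have hΨ : MeasurePreserving Ψ ((σ₁.prod σ₂).prod (ρ₁.prod ρ₂)) σ :=
    (fst_preserving σ ρ).comp (hF.comp ((joinVec_preserving N₁ N₂).comp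
      (((back hF₁).prod (back hF₂)).comp (four_comm σ₁ σ₂ ρ₁ ρ₂))))
  let P : EuclideanSpace ℝ (Fin (N₁ + N₂)) → ℝ :=
    fun d => ∑ i : Fin N₁, d (finSumFinEquiv (Sum.inl i)) ^ 2
  let p : ℝ × ℝ → ℝ := fun r => r.1 ^ 2 / (r.1 ^ 2 + r.2 ^ 2)
  have hp01 : ∀ r, 0 ≤ p r ∧ p r ≤ 1 := fun r => ⟨by positivity, by
    rcases eq_or_lt_of_le (show 0 ≤ r.1 ^ 2 + r.2 ^ 2 by positivity) with h | h
    · simp [p, ← h]
    · simp only [p]; rw [div_le_one h]; linarith [sq_nonneg r.2]⟩
  let V : (EuclideanSpace ℝ (Fin N₁) × EuclideanSpace ℝ (Fin N₂)) × (ℝ × ℝ)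
      → Fin N₁ ⊕ Fin N₂ → ℝ :=
    fun x => Sum.elim (√(p x.2) • sphereField N₁ x.1.1) (√(1 - p x.2) • sphereField N₂ x.1.2)
  have hpm : Measurable p := by fun_prop
  have hVm : Measurable V := measurable_pi_lambda _ fun i => by
    rcases i with i | i <;>
      simp only [V, Sum.elim_inl, Sum.elim_inr, Pi.smul_apply, smul_eq_mul, sphereField] <;> fun_prop
  have hgood : ∀ᵐ x ∂(σ₁.prod σ₂).prod (ρ₁.prod ρ₂),
      (fun i => sphereField (N₁ + N₂) (Ψ x) (finSumFinEquiv i)) = V x ∧ P (Ψ x) = p x.2 := by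
    filter_upwards [(fst_preserving σ₁ σ₂).comp (fst_preserving (σ₁.prod σ₂) (ρ₁.prod ρ₂))
        |>.quasiMeasurePreserving.ae (sphereLaw_norm _),
      (snd_preserving σ₁ σ₂).comp (fst_preserving (σ₁.prod σ₂) (ρ₁.prod ρ₂))
        |>.quasiMeasurePreserving.ae (sphereLaw_norm _),
      (fst_preserving ρ₁ ρ₂).comp (snd_preserving (σ₁.prod σ₂) (ρ₁.prod ρ₂))
        |>.quasiMeasurePreserving.ae hpos₁,
      (snd_preserving ρ₁ ρ₂).comp (snd_preserving (σ₁.prod σ₂) (ρ₁.prod ρ₂))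
        |>.quasiMeasurePreserving.ae hpos₂] with x hd₁ hd₂ hr₁ hr₂
    simp only [Function.comp_apply] at hd₁ hd₂ hr₁ hr₂
    obtain ⟨⟨d₁, d₂⟩, r₁, r₂⟩ := x
    simp only at hd₁ hd₂ hr₁ hr₂
    have hT : 0 < r₁ ^ 2 + r₂ ^ 2 := by positivity
    have e₁ : ∑ i, d₁ i ^ 2 = 1 := by rw [← EuclideanSpace.real_norm_sq_eq, hd₁, one_pow]
    have e₂ : ∑ i, d₂ i ^ 2 = 1 := by rw [← EuclideanSpace.real_norm_sq_eq, hd₂, one_pow]
    have hnorm : ‖joinVec N₁ N₂ (r₁ • d₁, r₂ • d₂)‖ = √(r₁ ^ 2 + r₂ ^ 2) := by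
      rw [eq_comm, Real.sqrt_eq_iff_eq_sq hT.le (norm_nonneg _), EuclideanSpace.real_norm_sq_eq,
        ← finSumFinEquiv.sum_comp, Fintype.sum_sum_type]
      simp [joinVec, mul_pow, ← Finset.mul_sum, e₁, e₂]
    have hq : 1 - r₁ ^ 2 / (r₁ ^ 2 + r₂ ^ 2) = r₂ ^ 2 / (r₁ ^ 2 + r₂ ^ 2) := by
      field_simp; ring
    constructor
    · funext i
      simp only [Ψ, sphereField]
      rw [hnorm]
      rcases i with i | i <;>
        simp [V, p, sphereField, joinVec, hq, Real.sqrt_div (sq_nonneg _),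
          Real.sqrt_sq hr₁.le, Real.sqrt_sq hr₂.le] <;> ring
    · have he : ∀ i : Fin N₁, Ψ ((d₁, d₂), (r₁, r₂)) (finSumFinEquiv (Sum.inl i))
          = (r₁ / √(r₁ ^ 2 + r₂ ^ 2)) * d₁ i := fun i => by
        simp only [Ψ]
        rw [hnorm]
        simp [joinVec]; ring
      simp only [P, he, mul_pow, ← Finset.mul_sum, e₁, mul_one, p, div_pow, Real.sq_sqrt hT.le]
  -- the sphere system dominates the average over the radii
  have heq : manyStep U σ (fun _ : Fin M => sphereField (N₁ + N₂))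
      = manyStep U ((σ₁.prod σ₂).prod (ρ₁.prod ρ₂)) (fun _ : Fin M => V) := by
    rw [← manyStep_map hU hΨ (fun _ => measurable_sphereField _)]
    refine (manyStep_coord hU _ finSumFinEquiv (w := fun (_ : Fin M) x => sphereField (N₁ + N₂) (Ψ x))
      (fun _ => (measurable_sphereField _).comp hΨ.measurable)).symm.trans ?_
    exact manyStep_congr_ae _ (hgood.mono fun x h => h.1)
  obtain ⟨hji, hj⟩ := jensen_manyStep hU (σ₁.prod σ₂) (ρ₁.prod ρ₂) (w := fun _ : Fin M => V) fun _ => hVm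
  set A := manyStep U σ₁ (fun _ : Fin ⌊α * N₁⌋₊ => sphereField N₁)
      + manyStep U σ₂ (fun _ : Fin ⌊α * N₂⌋₊ => sphereField N₂)
  have hlow : ∀ r, A - L * (2 * √(α + 1) + 4) * √S - L * (2 * α * S) * |p r - p₀|
      ≤ manyStep U (σ₁.prod σ₂) (fun _ : Fin M => fun x => V (x, r)) := fun r => by
    refine le_trans (le_of_eq ?_) (split_bound hU hM σ₁ σ₂ (measurable_sphereField N₁)
      (measurable_sphereField N₂) (sphereField_unit N₁) (sphereField_unit N₂) hα (hp01 r).1 (hp01 r).2 N₁ N₂ h₁)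
    simp only [A, hS, hp₀]; ring
  have hpi : Integrable (fun r => |p r - p₀|) (ρ₁.prod ρ₂) := by
    refine Integrable.of_bound (by fun_prop) (1 + |p₀|) (ae_of_all _ fun r => ?_)
    rw [Real.norm_eq_abs, abs_abs]
    exact (abs_sub _ _).trans (by linarith [abs_le.2 ⟨(by linarith [(hp01 r).1] : -1 ≤ p r), (hp01 r).2⟩])
  have hint := integral_mono ((integrable_const (A - L * (2 * √(α + 1) + 4) * √S)).sub
    (hpi.const_mul (L * (2 * α * S)))) hji hlow
  simp only [Pi.sub_apply] at hint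
  rw [integral_sub (integrable_const _) (hpi.const_mul _), integral_const_mul, integral_const,
    probReal_univ, one_smul] at hint
  -- the expected deviation of the split
  have hdev : S * ∫ r, |p r - p₀| ∂ρ₁.prod ρ₂
      ≤ (Var[fun x : ℝ => x ^ 2; gaussianReal 0 1] + 1) * √S := by
    have hPm : Measurable fun d => |P d - p₀| := by fun_prop
    have e1 : ∫ r, |p r - p₀| ∂ρ₁.prod ρ₂ = ∫ d, |P d - p₀| ∂σ := by
      rw [← integral_of_preserving hΨ hPm,
        ← integral_of_preserving (snd_preserving (σ₁.prod σ₂) (ρ₁.prod ρ₂))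
          (f := fun r => |p r - p₀|) (by fun_prop)]
      exact integral_congr_ae (hgood.mono fun x h => by simp [h.2])
    have hr2 : ∫ r, r ^ 2 ∂ρ = S := by
      have hi : ∫ z, ‖z‖ ^ 2 ∂stdGaussian (EuclideanSpace ℝ (Fin (N₁ + N₂))) = S := by
        rw [← map_pi_eq_stdGaussian, integral_map (by fun_prop) (by fun_prop)]
        simp only [EuclideanSpace.real_norm_sq_eq]
        have h2 : ∀ i : Fin (N₁ + N₂), Integrable (fun g : Fin (N₁ + N₂) → ℝ => g i ^ 2)
            (Measure.pi fun _ => gaussianReal 0 1) := fun i =>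
          (measurePreserving_eval (fun _ : Fin (N₁ + N₂) => gaussianReal 0 1) i).integrable_comp_of_integrable
            (memLp_id_gaussianReal (μ := 0) (v := 1) (2 : NNReal)).integrable_sq
        rw [integral_finsetSum _ fun i _ => h2 i]
        have he2 : ∫ x, x ^ 2 ∂gaussianReal 0 1 = 1 := by
          have h := variance_id_gaussianReal (μ := 0) (v := 1)
          rw [variance_of_integral_eq_zero (by fun_prop) (by simp)] at h
          simpa using h
        rw [Finset.sum_congr rfl fun i _ => (integral_of_preserving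
          (measurePreserving_eval (fun _ : Fin (N₁ + N₂) => gaussianReal 0 1) i)
          (f := fun x : ℝ => x ^ 2) (by fun_prop)).trans he2]
        simp [hS]
      rw [← hi, ← integral_of_preserving (snd_preserving σ ρ) (f := fun r : ℝ => r ^ 2) (by fun_prop),
        ← integral_of_preserving hF (f := fun w : EuclideanSpace ℝ (Fin (N₁ + N₂)) × ℝ => w.2 ^ 2)
          (by fun_prop)]
    obtain ⟨-, hc⟩ := chi_dev (ι := Fin N₁ ⊕ Fin N₂) (Sum.elim (fun _ => 1 - p₀) (fun _ => -p₀))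
      (by
        have h0 : 0 ≤ p₀ := by positivity
        have h1 : p₀ ≤ 1 := by rw [hp₀, div_le_one hS0, hS]; linarith [N₂.cast_nonneg (α := ℝ)]
        rintro (i | i) <;> simp only [Sum.elim_inl, Sum.elim_inr, abs_le] <;> constructor <;> linarith)
      (by simp [Fintype.sum_sum_type, hp₀]; field_simp; ring)
      (by simp; omega)
    rw [Fintype.card_sum, Fintype.card_fin, Fintype.card_fin, Nat.cast_add, ← hS] at hc
    refine le_trans (le_of_eq ?_) hc
    rw [e1, ← hr2, mul_comm, ← integral_prod_mul (fun d => |P d - p₀|) (fun r : ℝ => r ^ 2),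
      ← integral_of_preserving hF (f := fun w => |P w.1 - p₀| * w.2 ^ 2) (by fun_prop),
      ← map_pi_eq_stdGaussian, integral_map (by fun_prop) (by fun_prop)]
    rw [← integral_of_preserving (measurePreserving_piCongrLeft (α := fun _ => ℝ)
      (fun _ : Fin (N₁ + N₂) => gaussianReal 0 1) finSumFinEquiv) (by fun_prop)]
    refine integral_congr_ae (ae_of_all _ fun g => ?_)
    set z : EuclideanSpace ℝ (Fin (N₁ + N₂)) :=
      WithLp.toLp 2 (MeasurableEquiv.piCongrLeft (fun _ => ℝ) finSumFinEquiv g) with hz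
    have hz' : ∀ c, z (finSumFinEquiv c) = g c := fun c => by
      simp [hz, MeasurableEquiv.coe_piCongrLeft, Equiv.piCongrLeft_apply_apply]
    have hn : ‖z‖ ^ 2 = ∑ c, g c ^ 2 := by
      rw [EuclideanSpace.real_norm_sq_eq, ← finSumFinEquiv.sum_comp]; simp [hz']
    show |P (‖z‖⁻¹ • z) - p₀| * ‖z‖ ^ 2 = _
    have hz2 : ∀ i, z (Fin.castAdd N₂ i) = g (Sum.inl i) := fun i => by
      rw [← finSumFinEquiv_apply_left]; exact hz' _
    have hP : P (‖z‖⁻¹ • z) = (∑ i, g (Sum.inl i) ^ 2) / ‖z‖ ^ 2 := by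
      simp [P, hz2, mul_pow, ← Finset.mul_sum, div_eq_inv_mul]
    rw [show |P (‖z‖⁻¹ • z) - p₀| * ‖z‖ ^ 2 = |(P (‖z‖⁻¹ • z) - p₀) * ‖z‖ ^ 2| by
      rw [abs_mul, abs_of_nonneg (sq_nonneg ‖z‖)], sub_mul, hP]
    congr 1
    simp only [Fintype.sum_sum_type, Sum.elim_inl, Sum.elim_inr, ← Finset.mul_sum] at hn ⊢
    rcases eq_or_ne (‖z‖ ^ 2) 0 with h | h
    · rw [h] at hn ⊢
      have n1 : 0 ≤ ∑ i : Fin N₁, g (Sum.inl i) ^ 2 := Finset.sum_nonneg fun i _ => sq_nonneg _
      have n2 : 0 ≤ ∑ i : Fin N₂, g (Sum.inr i) ^ 2 := Finset.sum_nonneg fun i _ => sq_nonneg _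
      have a1 : ∑ i : Fin N₁, g (Sum.inl i) ^ 2 = 0 := by linarith
      have a2 : ∑ i : Fin N₂, g (Sum.inr i) ^ 2 = 0 := by linarith
      simp [a1, a2]
    · rw [div_mul_cancel₀ _ h, hn]; ring
  rw [heq]
  refine le_trans ?_ hj
  refine le_trans ?_ hint
  have hdev' := mul_le_mul_of_nonneg_left hdev (show 0 ≤ L * (2 * α) from mul_nonneg hU.1 (by positivity))
  linarith

theorem sphere_limit {U : ℝ → ℝ} {L α : ℝ} (hU : BddWeight U L) (hM : MixIneq U) (hα : 0 ≤ α) :
    ∃ l, Tendsto (fun N : ℕ => manyStep U (sphereLaw (EuclideanSpace ℝ (Fin N)))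
      (fun _ : Fin ⌊α * N⌋₊ => sphereField N) / N) atTop (𝓝 l) := by
  have hL := hU.1
  have hV0 : 0 ≤ Var[fun x : ℝ => x ^ 2; gaussianReal 0 1] := variance_nonneg _ _
  refine tendsto_of_superadd
    (K := L * (2 * √(α + 1) + 4 + 2 * α * (Var[fun x : ℝ => x ^ 2; gaussianReal 0 1] + 1)))
    (by positivity) (fun n => ?_) (sphere_super hU hM hα)
  rcases Nat.eq_zero_or_pos n with rfl | hn
  · have : (volume : Measure (EuclideanSpace ℝ (Fin 0))).toSphere = 0 :=
      (Measure.toSphere_eq_zero_iff _).2 inferInstance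
    simp [manyStep, sphereLaw, this]
  have : Nonempty (Fin n) := ⟨⟨0, hn⟩⟩
  refine (abs_manyStep_le hU _ fun _ => measurable_sphereField n).trans ?_
  rw [Fintype.card_fin]
  refine (mul_le_mul_of_nonneg_left (Nat.floor_le (by positivity)) hL).trans ?_
  have : 0 ≤ L * (2 * √(α + 1) + 4 + 2 * α * Var[fun x : ℝ => x ^ 2; gaussianReal 0 1] + α) * n := by
    positivity
  nlinarith

end Vale.Agent.P157
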