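import Vale.Agent.P157.Blocks

/-!
# P157: transfer lemmas for `manyStep`
-/

open MeasureTheory ProbabilityTheory Real

namespace Vale.Agent.P157

variable {U : ℝ → ℝ} {L : ℝ} {ι κ X Y A : Type} [Fintype ι] [Fintype κ] [Fintype A]
  [MeasurableSpace X] [MeasurableSpace Y]

theorem manyStep_map (hU : BddWeight U L) {μ : Measure X} {ν : Measure Y} {φ : X → Y}
    (hφ : MeasurePreserving φ μ ν) {w : A → Y → ι → ℝ} (hw : ∀ a, Measurable (w a)) :
    manyStep U μ (fun a x => w a (φ x)) = manyStep U ν w := by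
  refine integral_congr_ae (ae_of_all _ fun G => ?_)
  simp only
  congr 1
  exact integral_of_preserving hφ ((prod_measurable hU hw).comp (measurable_const.prodMk measurable_id))

theorem manyStep_coord (hU : BddWeight U L) (μ : Measure X) [SFinite μ] (e : ι ≃ κ)
    {w : A → X → κ → ℝ} (hw : ∀ a, Measurable (w a)) :
    manyStep U μ (fun a x i => w a x (e i)) = manyStep U μ w := by
  have h : MeasurePreserving
      (fun G : A → ι → ℝ => fun a => MeasurableEquiv.piCongrLeft (fun _ => ℝ) e (G a))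
      (Measure.pi fun _ => gauss ι) (Measure.pi fun _ => gauss κ) :=
    measurePreserving_pi _ _ fun _ =>
      measurePreserving_piCongrLeft (α := fun _ => ℝ) (fun _ : κ => gaussianReal 0 1) e
  rw [manyStep, manyStep, ← integral_of_preserving h (log_avg_measurable hU μ hw)]
  refine integral_congr_ae (ae_of_all _ fun G => ?_)
  simp only
  congr 1
  refine integral_congr_ae (ae_of_all _ fun x => ?_)
  simp only
  refine Finset.prod_congr rfl fun a _ => ?_
  congr 1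
  unfold dot
  rw [← e.sum_comp fun k => MeasurableEquiv.piCongrLeft (fun _ => ℝ) e (G a) k * w a x k]
  refine Finset.sum_congr rfl fun i _ => ?_
  rw [MeasurableEquiv.coe_piCongrLeft, Equiv.piCongrLeft_apply_apply]

theorem manyStep_congr_ae (μ : Measure X) {w w' : X → ι → ℝ} (h : ∀ᵐ x ∂μ, w x = w' x) :
    manyStep U μ (fun _ : A => w) = manyStep U μ (fun _ : A => w') := by
  refine integral_congr_ae (ae_of_all _ fun G => ?_)
  simp only
  congr 1
  refine integral_congr_ae ?_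
  filter_upwards [h] with x hx
  simp [hx]

theorem jensen_manyStep (hU : BddWeight U L) (μ : Measure X) [IsProbabilityMeasure μ]
    (π' : Measure Y) [IsProbabilityMeasure π'] {w : A → X × Y → ι → ℝ}
    (hw : ∀ a, Measurable (w a)) :
    Integrable (fun r => manyStep U μ (fun a x => w a (x, r))) π' ∧
    ∫ r, manyStep U μ (fun a x => w a (x, r)) ∂π' ≤ manyStep U (μ.prod π') w := by
  let F : (A → ι → ℝ) × Y → ℝ := fun z => log (∫ x, ∏ a, U (dot (z.1 a) (w a (x, z.2))) ∂μ)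
  have hwr : ∀ r a, Measurable fun x => w a (x, r) := fun r a =>
    (hw a).comp (measurable_id.prodMk measurable_const)
  have hFm : Measurable F := by
    have h : Measurable fun z : ((A → ι → ℝ) × Y) × X => ∏ a, U (dot (z.1.1 a) (w a (z.2, z.1.2))) :=
      (prod_measurable hU hw).comp ((measurable_fst.comp measurable_fst).prodMk
        (measurable_snd.prodMk (measurable_snd.comp measurable_fst)))
    exact (h.stronglyMeasurable.integral_prod_right').measurable.log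
  have hFb : ∀ z, ‖F z‖ ≤ L * Fintype.card A := fun z => by
    rw [Real.norm_eq_abs]; exact (avg_bounds hU μ (hwr z.2) z.1).2
  have hFi : Integrable F ((Measure.pi fun _ : A => gauss ι).prod π') :=
    Integrable.of_bound hFm.aestronglyMeasurable _ (ae_of_all _ hFb)
  refine ⟨hFi.integral_prod_right, ?_⟩
  have hswap : ∫ r, manyStep U μ (fun a x => w a (x, r)) ∂π'
      = ∫ G, (∫ r, F (G, r) ∂π') ∂(Measure.pi fun _ : A => gauss ι) :=
    (integral_integral_swap (f := fun G r => F (G, r)) hFi).symm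
  rw [hswap, manyStep]
  refine integral_mono hFi.integral_prod_left (log_avg_integrable hU _ hw) fun G => ?_
  set Z := ∫ z, ∏ a, U (dot (G a) (w a z)) ∂μ.prod π'
  have hZ : 0 < Z := (avg_bounds hU (μ.prod π') hw G).1
  have hZe : Z = ∫ r, ∫ x, ∏ a, U (dot (G a) (w a (x, r))) ∂μ ∂π' :=
    integral_prod_symm _ (prod_integrable hU _ hw G)
  have hi : Integrable (fun r => ∫ x, ∏ a, U (dot (G a) (w a (x, r))) ∂μ) π' :=
    (prod_integrable hU _ hw G).integral_prod_right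
  calc ∫ r, F (G, r) ∂π' ≤ ∫ r, (log Z + ((∫ x, ∏ a, U (dot (G a) (w a (x, r))) ∂μ) / Z - 1)) ∂π' := by
        refine integral_mono (Integrable.of_bound
          (hFm.comp (measurable_const.prodMk measurable_id)).aestronglyMeasurable
          (L * Fintype.card A) (ae_of_all _ fun r => hFb _))
          ((integrable_const _).add ((hi.div_const _).sub (integrable_const _))) fun r => ?_
        have hpos := (avg_bounds hU μ (hwr r) G).1
        have := Real.log_le_sub_one_of_pos (div_pos hpos hZ)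
        rw [log_div hpos.ne' hZ.ne'] at this
        simp only [F]; linarith
    _ = log Z := by
        have e : ∀ r, log Z + ((∫ x, ∏ a, U (dot (G a) (w a (x, r))) ∂μ) / Z - 1)
            = (log Z - 1) + (∫ x, ∏ a, U (dot (G a) (w a (x, r))) ∂μ) / Z := fun r => by ring
        simp_rw [e]
        rw [integral_add (integrable_const _) (hi.div_const _), integral_div, ← hZe, div_self hZ.ne']
        simp

/-- The error term of a split into blocks of sizes `N₁` and `N₂`. -/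
theorem split_error {α p : ℝ} (hα : 0 ≤ α) (hp : 0 ≤ p) (hp1 : p ≤ 1) (N₁ N₂ : ℕ) (h₁ : 1 ≤ N₁) :
    p * (1 - p) * ⌊α * ((N₁ + N₂ : ℕ) : ℝ)⌋₊ / √((⌊α * ((N₁ + N₂ : ℕ) : ℝ)⌋₊ : ℝ) + 1)
      + √((⌊α * ((N₁ + N₂ : ℕ) : ℝ)⌋₊ : ℝ) + 1)
      + |p * ⌊α * ((N₁ + N₂ : ℕ) : ℝ)⌋₊ - ⌊α * N₁⌋₊|
      + |(1 - p) * ⌊α * ((N₁ + N₂ : ℕ) : ℝ)⌋₊ - ⌊α * N₂⌋₊|
      ≤ (2 * √(α + 1) + 4) * √((N₁ : ℝ) + N₂)
        + 2 * α * ((N₁ : ℝ) + N₂) * |p - N₁ / ((N₁ : ℝ) + N₂)| := by
  set S : ℝ := (N₁ : ℝ) + N₂ with hS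
  have hS1 : 1 ≤ S := by rw [hS]; exact_mod_cast le_add_right h₁
  rw [show ((N₁ + N₂ : ℕ) : ℝ) = S by push_cast; rfl]
  set M : ℝ := (⌊α * S⌋₊ : ℝ) with hM
  have hM0 : 0 ≤ M := Nat.cast_nonneg _
  have fM := Nat.floor_le (show (0:ℝ) ≤ α * S by positivity)
  have fM' := Nat.lt_floor_add_one (α * S)
  have f1 := Nat.floor_le (show (0:ℝ) ≤ α * N₁ by positivity)
  have f1' := Nat.lt_floor_add_one (α * (N₁ : ℝ))
  have f2 := Nat.floor_le (show (0:ℝ) ≤ α * N₂ by positivity)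
  have f2' := Nat.lt_floor_add_one (α * (N₂ : ℝ))
  rw [← hM] at fM fM'
  have hs : √(M + 1) ≤ √(α + 1) * √S := by
    rw [← Real.sqrt_mul (by linarith)]; exact Real.sqrt_le_sqrt (by nlinarith)
  have hfirst : p * (1 - p) * M / √(M + 1) ≤ √(M + 1) := by
    rw [div_le_iff₀ (Real.sqrt_pos.2 (by linarith)), Real.mul_self_sqrt (by linarith)]
    nlinarith [mul_nonneg hp hM0, mul_nonneg (mul_nonneg hp hp) hM0]
  set d : ℝ := p - N₁ / S with hd
  have e1 : α * N₁ = p * (α * S) - α * S * d := by rw [hd]; field_simp; ring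
  have e2 : α * N₂ = (1 - p) * (α * S) + α * S * d := by
    have : (N₂ : ℝ) = S - N₁ := by rw [hS]; ring
    rw [this, mul_sub, e1]; ring
  have b1 : |p * M - ⌊α * N₁⌋₊| ≤ 2 + α * S * |d| := by
    have hb := abs_le.1 (le_of_eq (abs_mul (α * S) d))
    rw [abs_of_nonneg (show 0 ≤ α * S by positivity)] at hb
    rw [abs_le]; constructor <;> nlinarith
  have b2 : |(1 - p) * M - ⌊α * N₂⌋₊| ≤ 2 + α * S * |d| := by
    have hb := abs_le.1 (le_of_eq (abs_mul (α * S) d))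
    rw [abs_of_nonneg (show 0 ≤ α * S by positivity)] at hb
    rw [abs_le]; constructor <;> nlinarith
  nlinarith [Real.one_le_sqrt.2 hS1]

/-- The split bound in the form used for both models. -/
theorem split_bound {X₁ X₂ ι₁ ι₂ : Type} [Fintype ι₁] [Fintype ι₂] [MeasurableSpace X₁]
    [MeasurableSpace X₂] (hU : BddWeight U L) (hM : MixIneq U) (μ₁ : Measure X₁)
    [IsProbabilityMeasure μ₁] (μ₂ : Measure X₂) [IsProbabilityMeasure μ₂] {y₁ : X₁ → ι₁ → ℝ}
    {y₂ : X₂ → ι₂ → ℝ} (h₁ : Measurable y₁) (h₂ : Measurable y₂)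
    (hn₁ : ∀ᵐ x ∂μ₁, ∑ i, y₁ x i ^ 2 = 1) (hn₂ : ∀ᵐ x ∂μ₂, ∑ i, y₂ x i ^ 2 = 1)
    {α p : ℝ} (hα : 0 ≤ α)
    (hp : 0 ≤ p) (hp1 : p ≤ 1) (N₁ N₂ : ℕ) (hN : 1 ≤ N₁) :
    manyStep U μ₁ (fun _ : Fin ⌊α * N₁⌋₊ => y₁) + manyStep U μ₂ (fun _ : Fin ⌊α * N₂⌋₊ => y₂)
      - L * ((2 * √(α + 1) + 4) * √((N₁ : ℝ) + N₂)
        + 2 * α * ((N₁ : ℝ) + N₂) * |p - N₁ / ((N₁ : ℝ) + N₂)|)
      ≤ manyStep U (μ₁.prod μ₂) (fun _ : Fin ⌊α * ((N₁ + N₂ : ℕ) : ℝ)⌋₊ =>
          fun x => Sum.elim (√p • y₁ x.1) (√(1 - p) • y₂ x.2)) := by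
  refine le_trans ?_ (blocks_le hU hM μ₁ μ₂ h₁ h₂ hn₁ hn₂ hp hp1 _ ⌊α * N₁⌋₊ ⌊α * N₂⌋₊
    (Real.sqrt_pos.2 (show (0 : ℝ) < (⌊α * ((N₁ + N₂ : ℕ) : ℝ)⌋₊ : ℝ) + 1 by positivity)))
  linarith [mul_le_mul_of_nonneg_left (split_error hα hp hp1 N₁ N₂ hN) hU.1]

end Vale.Agent.P157
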